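import Vale.Agent.P116.FK.Spec

/-!
# S3: logarithms along chains
-/

open Set Metric Filter Topology Complex Bornology
open scoped ComplexConjugate Real

namespace Vale.Agent.P116.FK

theorem tendsto_sub_inv_cobounded (x : ℂ) :
    Tendsto (fun z : ℂ => (z - x)⁻¹) (cobounded ℂ) (𝓝 0) := by
  have h1 : Tendsto (fun z : ℂ => z - x) (cobounded ℂ) (cobounded ℂ) := by
    rw [← tendsto_norm_atTop_iff_cobounded]
    have h2 : Tendsto (fun z : ℂ => ‖z‖ - ‖x‖) (cobounded ℂ) atTop :=
      tendsto_atTop_add_const_right _ _ tendsto_norm_cobounded_atTop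
    exact tendsto_atTop_mono (fun z => norm_sub_norm_le z x) h2
  exact tendsto_inv₀_cobounded.comp h1

theorem s3 : Spec.S3 := by
  intro K hK hKc a b ha hb δ hδ
  refine hKc.isPreconnected.induction₂ (fun a b => ∃ L : ℂ → ℂ,
    (∀ z, δ < infDist z K → HasDerivAt L (1 / (z - a) - 1 / (z - b)) z) ∧
      Tendsto L (cobounded ℂ) (𝓝 0)) ?_ ?_ ?_ ha hb
  · intro x hx
    have h1 : ∀ᶠ y in 𝓝[K] x, dist y x < δ :=
      mem_nhdsWithin_of_mem_nhds (Metric.ball_mem_nhds x hδ)
    filter_upwards [h1, self_mem_nhdsWithin] with y hy hyK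
    refine ⟨fun z => Complex.log ((z - x) / (z - y)), ?_, ?_⟩
    · intro z hz
      have hzx : δ < dist z x := hz.trans_le (infDist_le_dist_of_mem hx)
      have hzy : δ < dist z y := hz.trans_le (infDist_le_dist_of_mem hyK)
      have hzx0 : z - x ≠ 0 := by
        intro h
        rw [sub_eq_zero] at h
        rw [h, dist_self] at hzx
        linarith
      have hzy0 : z - y ≠ 0 := by
        intro h
        rw [sub_eq_zero] at h
        rw [h, dist_self] at hzy
        linarith
      have h2 : (z - x) / (z - y) ∈ slitPlane := by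
        have h3 : (z - x) / (z - y) = 1 + (y - x) / (z - y) := by
          field_simp
          ring
        rw [h3]
        apply Complex.mem_slitPlane_of_norm_lt_one
        rw [norm_div, div_lt_one (norm_pos_iff.2 hzy0), ← dist_eq_norm, ← dist_eq_norm]
        exact hy.trans hzy
      have h3 : HasDerivAt (fun z : ℂ => (z - x) / (z - y))
          ((1 * (z - y) - (z - x) * 1) / (z - y) ^ 2) z :=
        ((hasDerivAt_id z).sub_const x).div ((hasDerivAt_id z).sub_const y) hzy0
      have h4 := h3.clog h2
      convert h4 using 1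
      field_simp
    · have h2 : Tendsto (fun z : ℂ => (z - x) / (z - y)) (cobounded ℂ) (𝓝 1) := by
        have h3 : Tendsto (fun z : ℂ => 1 + (y - x) * (z - y)⁻¹) (cobounded ℂ)
            (𝓝 (1 + (y - x) * 0)) :=
          tendsto_const_nhds.add ((tendsto_sub_inv_cobounded y).const_mul _)
        rw [mul_zero, add_zero] at h3
        refine h3.congr' ?_
        have h4 : ∀ᶠ z : ℂ in cobounded ℂ, z ≠ y := by
          exact isBounded_singleton (x := y)
        filter_upwards [h4] with z hz
        have : z - y ≠ 0 := sub_ne_zero.2 hz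
        field_simp
        ring
      have h5 : ContinuousAt Complex.log 1 := continuousAt_clog one_mem_slitPlane
      have h6 := h5.tendsto.comp h2
      rwa [Complex.log_one] at h6
  · rintro x y z - - - ⟨L, h1, h2⟩ ⟨L', h3, h4⟩
    refine ⟨fun z => L z + L' z, fun w hw => ?_, ?_⟩
    · refine ((h1 w hw).fun_add (h3 w hw)).congr_deriv ?_
      ring
    · simpa using h2.add h4
  · rintro x y - - ⟨L, h1, h2⟩
    refine ⟨fun z => - L z, fun w hw => ?_, ?_⟩
    · refine (h1 w hw).fun_neg.congr_deriv ?_
      ring
    · simpa using h2.neg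

end Vale.Agent.P116.FK
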