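import Vale.Agent.P116.FK.Pom
import Vale.Agent.P116.FK.S3

/-!
# Cauchy transforms
-/

open Set Metric Filter Topology Complex Bornology MeasureTheory
open scoped ComplexConjugate Real ContDiff

namespace Vale.Agent.P116.FK

/-- Cauchy transform -/
noncomputable def CT (ν : ℂ → ℂ) (z : ℂ) : ℂ := ∫ w, (w - z)⁻¹ * ν w

theorem ct_bound {ν : ℂ → ℂ} {S : Set ℂ} (h0 : ∀ w ∉ S, ν w = 0) {z : ℂ} {ε : ℝ}
    (hε : 0 < ε) (hz : ∀ w ∈ S, ε ≤ ‖w - z‖) (w : ℂ) :
    ‖(w - z)⁻¹ * ν w‖ ≤ ε⁻¹ * ‖ν w‖ := by
  by_cases hw : w ∈ S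
  · rw [norm_mul, norm_inv]
    exact mul_le_mul_of_nonneg_right (inv_anti₀ hε (hz w hw)) (norm_nonneg _)
  · rw [h0 w hw]
    simp

theorem ct_integrable {ν : ℂ → ℂ} (hν : Integrable ν) {S : Set ℂ} (h0 : ∀ w ∉ S, ν w = 0)
    {z : ℂ} {ε : ℝ} (hε : 0 < ε) (hz : ∀ w ∈ S, ε ≤ ‖w - z‖) :
    Integrable (fun w => (w - z)⁻¹ * ν w) := by
  refine (hν.norm.const_mul ε⁻¹).mono' ?_ ?_
  · exact ((measurable_id.sub_const z).inv).aestronglyMeasurable.mul hν.aestronglyMeasurable
  · exact Eventually.of_forall (ct_bound h0 hε hz)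

theorem ct_diff {ν : ℂ → ℂ} (hν : Integrable ν) {S : Set ℂ} (hS : IsClosed S)
    (h0 : ∀ w ∉ S, ν w = 0) : DifferentiableOn ℂ (CT ν) Sᶜ := by
  intro z hz
  obtain ⟨ε, hε, hball⟩ := Metric.isOpen_iff.1 hS.isOpen_compl z hz
  have hfar : ∀ z' ∈ ball z (ε / 2), ∀ w ∈ S, ε / 2 ≤ ‖w - z'‖ := by
    intro z' hz' w hw
    have h1 : ε ≤ dist w z := by
      by_contra hcon
      exact hball (mem_ball.2 (not_le.1 hcon)) hw
    have h2 := dist_triangle w z' z
    rw [mem_ball] at hz'
    rw [← dist_eq_norm]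
    linarith
  have hε2 : 0 < ε / 2 := by positivity
  have key := hasDerivAt_integral_of_dominated_loc_of_deriv_le (μ := volume)
    (F := fun z w => (w - z)⁻¹ * ν w) (F' := fun z w => ((w - z) ^ 2)⁻¹ * ν w) (x₀ := z)
    (s := ball z (ε / 2)) (bound := fun w => ((ε / 2) ^ 2)⁻¹ * ‖ν w‖)
    (ball_mem_nhds z hε2)
    (Eventually.of_forall fun z' =>
      ((measurable_id.sub_const z').inv).aestronglyMeasurable.mul hν.aestronglyMeasurable)
    (ct_integrable hν h0 hε2 (hfar z (mem_ball_self hε2)))
    ((((measurable_id.sub_const z).pow_const 2).inv).aestronglyMeasurable.mul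
      hν.aestronglyMeasurable)
    (Eventually.of_forall fun w z' hz' => by
      by_cases hw : w ∈ S
      · rw [norm_mul, norm_inv, norm_pow]
        exact mul_le_mul_of_nonneg_right (inv_anti₀ (by positivity)
          (pow_le_pow_left₀ hε2.le (hfar z' hz' w hw) 2)) (norm_nonneg _)
      · rw [h0 w hw]
        simp)
    (hν.norm.const_mul _)
    (Eventually.of_forall fun w z' hz' => by
      by_cases hw : w ∈ S
      · have h1 : w - z' ≠ 0 := by
          intro h
          have h2 := hfar z' hz' w hw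
          rw [h, norm_zero] at h2
          linarith
        have h3 : HasDerivAt (fun z' : ℂ => w - z') (-1) z' := (hasDerivAt_id z').const_sub w
        have h4 := (h3.inv h1).mul_const (ν w)
        refine h4.congr_deriv ?_
        simp [div_eq_mul_inv]
      · simp only [h0 w hw, mul_zero]
        exact hasDerivAt_const _ _)
  exact key.2.differentiableAt.differentiableWithinAt

theorem ct_tendsto {ν : ℂ → ℂ} (hν : Integrable ν) {M : ℝ}
    (h0 : ∀ w ∉ closedBall (0 : ℂ) M, ν w = 0) : Tendsto (CT ν) (cobounded ℂ) (𝓝 0) := by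
  have h1 : Tendsto (fun z : ℂ => (‖z‖ - M)⁻¹ * ∫ w, ‖ν w‖) (cobounded ℂ)
      (𝓝 (0 * ∫ w, ‖ν w‖)) := by
    refine Tendsto.mul_const _ ?_
    exact tendsto_inv_atTop_zero.comp
      (tendsto_atTop_add_const_right _ _ tendsto_norm_cobounded_atTop)
  rw [zero_mul] at h1
  refine squeeze_zero_norm' ?_ h1
  filter_upwards [tendsto_norm_cobounded_atTop.eventually (eventually_gt_atTop M)] with z hz
  have h2 : ∀ w ∈ closedBall (0 : ℂ) M, ‖z‖ - M ≤ ‖w - z‖ := by
    intro w hw
    rw [mem_closedBall_zero_iff] at hw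
    have := norm_sub_norm_le z w
    rw [norm_sub_rev] at this
    linarith
  have h3 : 0 < ‖z‖ - M := by linarith
  rw [CT, ← integral_const_mul]
  exact norm_integral_le_of_norm_le (hν.norm.const_mul _)
    (Eventually.of_forall (ct_bound h0 h3 h2))

/-- splitting along a cover by balls -/
theorem split_balls (r : ℝ) (t : Finset ℂ) : ∀ {ν : ℂ → ℂ}, Integrable ν →
    (∀ w, ν w ≠ 0 → ∃ x ∈ t, w ∈ ball x r) →
    ∃ N : ℂ → ℂ → ℂ, (∀ x ∈ t, Integrable (N x) ∧ ∀ w ∉ closedBall x r, N x w = 0) ∧
      ∀ w, ν w = ∑ x ∈ t, N x w := by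
  classical
  induction t using Finset.induction_on with
  | empty =>
    intro ν _ h
    refine ⟨fun _ _ => 0, by simp, fun w => ?_⟩
    by_contra hcon
    rw [Finset.sum_empty] at hcon
    obtain ⟨x, hx, -⟩ := h w hcon
    simp at hx
  | insert y t hy ih =>
    intro ν hν h
    obtain ⟨N, h1, h2⟩ := ih (ν := (ball y r)ᶜ.indicator ν)
      (hν.indicator measurableSet_ball.compl) (by
        intro w hw
        have hw1 : w ∈ (ball y r)ᶜ := by
          by_contra hcon
          exact hw (indicator_of_notMem hcon ν)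
        rw [indicator_of_mem hw1] at hw
        obtain ⟨x, hx, hx'⟩ := h w hw
        rw [Finset.mem_insert] at hx
        rcases hx with rfl | hx
        · exact absurd hx' hw1
        · exact ⟨x, hx, hx'⟩)
    refine ⟨fun x => if x = y then (ball y r).indicator ν else N x, ?_, ?_⟩
    · intro x hx
      rw [Finset.mem_insert] at hx
      by_cases hxy : x = y
      · subst hxy
        simp only [if_true]
        refine ⟨hν.indicator measurableSet_ball, fun w hw => ?_⟩
        exact indicator_of_notMem (fun hcon => hw (ball_subset_closedBall hcon)) ν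
      · simp only [hxy, if_false]
        exact h1 x (hx.resolve_left hxy)
    · intro w
      rw [Finset.sum_insert hy]
      have h3 : ∑ x ∈ t, (if x = y then (ball y r).indicator ν else N x) w = ∑ x ∈ t, N x w := by
        refine Finset.sum_congr rfl fun x hx => ?_
        have : x ≠ y := fun hcon => hy (hcon ▸ hx)
        rw [if_neg this]
      rw [h3, ← h2 w]
      simp only [if_true]
      by_cases hw : w ∈ ball y r
      · rw [indicator_of_mem hw, indicator_of_notMem (by simpa using hw), add_zero]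
      · rw [indicator_of_notMem hw, indicator_of_mem (by simpa using hw), zero_add]

theorem integrableOn_inv_ball (R : ℝ) : IntegrableOn (fun z : ℂ => ‖z‖⁻¹) (ball (0 : ℂ) R) := by
  rw [integrableOn_fun_norm_addHaar (volume : Measure ℂ) (f := fun r : ℝ => r⁻¹)]
  rw [Complex.finrank_real_complex]
  have : IntegrableOn (fun _ : ℝ => (1 : ℝ)) (Set.Ioo 0 R) := by
    simp
  refine this.congr_fun ?_ measurableSet_Ioo
  intro r hr
  have : r ≠ 0 := ne_of_gt hr.1
  simp only [smul_eq_mul]
  rw [show 2 - 1 = 1 from rfl, pow_one, mul_inv_cancel₀ this]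

theorem locallyIntegrable_inv : LocallyIntegrable (fun z : ℂ => z⁻¹) := by
  have h : LocallyIntegrable (fun z : ℂ => ‖z‖⁻¹) := by
    intro x
    exact ⟨ball 0 (‖x‖ + 1), isOpen_ball.mem_nhds (by rw [mem_ball_zero_iff]; linarith),
      integrableOn_inv_ball _⟩
  refine h.mono measurable_inv.aestronglyMeasurable (Eventually.of_forall fun z => ?_)
  simp

theorem integrable_inv_mul {g : ℂ → ℂ} (hg : Continuous g) (hs : HasCompactSupport g) :
    Integrable (fun w => w⁻¹ * g w) := by
  have := locallyIntegrable_inv.integrable_smul_left_of_hasCompactSupport hg hs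
  refine this.congr (Eventually.of_forall fun w => ?_)
  simp [mul_comm]

theorem integrable_inv_sub_mul {g : ℂ → ℂ} (hg : Continuous g) (hs : HasCompactSupport g)
    (z : ℂ) : Integrable (fun w => (w - z)⁻¹ * g w) := by
  have h1 : Integrable (fun w => w⁻¹ * g (w + z)) := by
    refine integrable_inv_mul (g := fun w => g (w + z)) (by fun_prop) ?_
    exact hs.comp_homeomorph (Homeomorph.addRight z)
  have h2 := h1.comp_sub_right z
  simpa using h2

/-- Pompeiu at a general point -/
theorem pompeiu_at {v : ℂ → ℂ} (h : ContDiff ℝ 1 v) (hs : HasCompactSupport v) (z : ℂ) :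
    CT (db v) z = - (2 * π) * v z := by
  have h1 : ContDiff ℝ 1 fun w => v (w + z) := h.comp (contDiff_id.add contDiff_const)
  have h2 : HasCompactSupport fun w => v (w + z) := hs.comp_homeomorph (Homeomorph.addRight z)
  have h3 := pompeiu h1 h2
  rw [zero_add] at h3
  rw [← h3, CT, ← integral_add_right_eq_self _ z]
  refine integral_congr_ae (Eventually.of_forall fun w => ?_)
  simp only [add_sub_cancel_right, db, fderiv_comp_add_right]

end Vale.Agent.P116.FK
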