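import Vale.Agent.P116.FK.Basic

/-!
# Blocks E1 - E7: exterior maps, parametrizations, residues
-/

open Set Metric Filter Topology Complex Bornology MeasureTheory
open scoped ComplexConjugate Real

namespace Vale.Agent.P116.FK.E

/-- inverse of an injective analytic function -/
lemma exists_inv {U : Set ℂ} (hU : IsOpen U) {f : ℂ → ℂ} (hf : DifferentiableOn ℂ f U)
    (hi : InjOn f U) : ∃ g : ℂ → ℂ, DifferentiableOn ℂ g (f '' U) ∧ (∀ z ∈ U, g (f z) = z) := by
  classical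
  refine ⟨Function.invFunOn f U, ?_, fun z hz => hi.leftInvOn_invFunOn hz⟩
  set g := Function.invFunOn f U with hg
  have hgl : ∀ z ∈ U, g (f z) = z := fun z hz => hi.leftInvOn_invFunOn hz
  rintro _ ⟨z, hz, rfl⟩
  have h1 : HasStrictDerivAt f (deriv f z) z := (hf.analyticAt (hU.mem_nhds hz)).hasStrictDerivAt
  have h0 : deriv f z ≠ 0 := injOn_deriv_ne_zero hU hf hi hz
  have hcont : ContinuousAt g (f z) := by
    rw [ContinuousAt, hgl z hz, ← h1.map_nhds_eq h0]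
    rw [tendsto_map'_iff]
    have : (g ∘ f) =ᶠ[𝓝 z] id := by
      filter_upwards [hU.mem_nhds hz] with y hy
      exact hgl y hy
    exact tendsto_id.congr' this.symm
  have hev : ∀ᶠ y in 𝓝 (f z), f (g y) = y := by
    rw [← h1.map_nhds_eq h0, eventually_map]
    filter_upwards [hU.mem_nhds hz] with y hy
    rw [hgl y hy]
  have h2 : HasDerivAt f (deriv f z) (g (f z)) := by
    rw [hgl z hz]
    exact h1.hasDerivAt
  exact (HasDerivAt.of_local_left_inverse hcont h2 h0 hev).differentiableAt.differentiableWithinAt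

/-- eventually in `cobounded` -/
lemma ev_norm (M : ℝ) : ∀ᶠ z in cobounded ℂ, M < ‖z‖ :=
  (tendsto_norm_cobounded_atTop (E := ℂ)).eventually_gt_atTop M

lemma ev_iff {p : ℂ → Prop} : (∀ᶠ z in cobounded ℂ, p z) ↔ ∃ M : ℝ, ∀ z, M < ‖z‖ → p z := by
  constructor
  · intro h
    obtain ⟨M, -, hM⟩ := (hasBasis_cobounded_compl_closedBall (0 : ℂ)).mem_iff.1 h
    refine ⟨M, fun z hz => hM ?_⟩
    rw [mem_compl_iff, mem_closedBall_zero_iff]
    exact not_le.2 hz
  · rintro ⟨M, hM⟩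
    exact (ev_norm M).mono hM

lemma tendsto_aff {a b : ℂ} (ha : a ≠ 0) :
    Tendsto (fun z : ℂ => b + a * z) (cobounded ℂ) (cobounded ℂ) :=
  (tendsto_const_add_cobounded b).comp (tendsto_mul_left_cobounded ha)

lemma tendsto_cobounded_of_sub {F G : ℂ → ℂ} (hG : Tendsto G (cobounded ℂ) (cobounded ℂ))
    (hn : Tendsto (fun z => F z - G z) (cobounded ℂ) (𝓝 0)) :
    Tendsto F (cobounded ℂ) (cobounded ℂ) := by
  rw [← tendsto_norm_atTop_iff_cobounded] at hG ⊢
  have h1 : ∀ᶠ z in cobounded ℂ, ‖F z - G z‖ < 1 := by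
    have := hn.norm
    rw [norm_zero] at this
    exact this.eventually_lt_const (by norm_num)
  refine tendsto_atTop_mono' _ ?_ (tendsto_atTop_add_const_right _ (-1) hG)
  filter_upwards [h1] with z hz
  have := norm_sub_norm_le (G z) (F z)
  rw [norm_sub_rev] at this
  linarith

/-- near infinity `F z / z → a` -/
lemma tendsto_div {F : ℂ → ℂ} {a b : ℂ}
    (hn : Tendsto (fun z => F z - (b + a * z)) (cobounded ℂ) (𝓝 0)) :
    Tendsto (fun z => F z / z) (cobounded ℂ) (𝓝 a) := by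
  have hinv : Tendsto (fun z : ℂ => z⁻¹) (cobounded ℂ) (𝓝 0) := tendsto_inv₀_cobounded
  have h1 : Tendsto (fun z => (F z - (b + a * z)) * z⁻¹ + b * z⁻¹ + a) (cobounded ℂ)
      (𝓝 (0 * 0 + b * 0 + a)) := ((hn.mul hinv).add (hinv.const_mul b)).add tendsto_const_nhds
  simp only [mul_zero, zero_add] at h1
  refine h1.congr' ?_
  filter_upwards [ev_norm 0] with z hz
  have hz0 : z ≠ 0 := norm_pos_iff.1 hz
  field_simp
  ring

/-- near infinity an analytic map `b + a z + o(1)` covers a neighbourhood of infinity -/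
lemma covers_infty {R : ℝ} {F : ℂ → ℂ} (hF : DifferentiableOn ℂ F {z | R < ‖z‖}) {a b : ℂ}
    (ha : a ≠ 0) (hn : Tendsto (fun z => F z - (b + a * z)) (cobounded ℂ) (𝓝 0)) (ρ : ℝ) :
    ∃ M : ℝ, ∀ w, M < ‖w‖ → ∃ z, ρ < ‖z‖ ∧ F z = w := by
  classical
  have hinf : Tendsto F (cobounded ℂ) (cobounded ℂ) := tendsto_cobounded_of_sub (tendsto_aff ha) hn
  set g : ℂ → ℂ := fun w => if w = 0 then 0 else (F w⁻¹)⁻¹ with hg
  have hg0 : g 0 = 0 := by simp [hg]
  have hgne : ∀ w, w ≠ 0 → g w = (F w⁻¹)⁻¹ := fun w hw => by simp [hg, hw]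
  obtain ⟨M₁, hM₁⟩ := ev_iff.1 (hinf.eventually (ev_norm 0))
  set M₂ : ℝ := max (max M₁ R) (max ρ 1) with hM₂
  have hM₂pos : 0 < M₂ := lt_of_lt_of_le one_pos (le_max_of_le_right (le_max_right _ _))
  set δ := M₂⁻¹ with hδ
  have hδpos : 0 < δ := inv_pos.2 hM₂pos
  have hmem : ∀ w ∈ ball (0 : ℂ) δ, w ≠ 0 → M₂ < ‖w⁻¹‖ := by
    intro w hw hw0
    rw [mem_ball_zero_iff] at hw
    rw [norm_inv, lt_inv_comm₀ hM₂pos (norm_pos_iff.2 hw0)]
    exact hw
  -- derivative at zero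
  have hd0 : HasDerivAt g a⁻¹ 0 := by
    rw [hasDerivAt_iff_tendsto_slope]
    have h1 : Tendsto (fun w : ℂ => (F w⁻¹ / w⁻¹)⁻¹) (𝓝[≠] 0) (𝓝 a⁻¹) :=
      ((tendsto_div hn).comp tendsto_inv₀_nhdsNE_zero).inv₀ ha
    refine h1.congr' ?_
    filter_upwards [self_mem_nhdsWithin] with w hw
    have hw0 : w ≠ 0 := hw
    rw [slope_def_field, hg0, hgne w hw0]
    simp only [sub_zero]
    rw [inv_div, div_eq_mul_inv, div_eq_mul_inv, mul_comm]
  have hdp : ∀ w ∈ ball (0 : ℂ) δ, w ≠ 0 → DifferentiableAt ℂ g w := by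
    intro w hw hw0
    have h1 := hmem w hw hw0
    have h2 : R < ‖w⁻¹‖ := lt_of_le_of_lt ((le_max_right _ _).trans (le_max_left _ _)) h1
    have h3 : M₁ < ‖w⁻¹‖ := lt_of_le_of_lt ((le_max_left _ _).trans (le_max_left _ _)) h1
    have h4 : F w⁻¹ ≠ 0 := norm_pos_iff.1 (hM₁ _ h3)
    have h5 : DifferentiableAt ℂ F w⁻¹ :=
      (hF w⁻¹ h2).differentiableAt ((isOpen_lt continuous_const continuous_norm).mem_nhds h2)
    have h6 : DifferentiableAt ℂ (fun w => (F w⁻¹)⁻¹) w :=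
      (h5.comp w (differentiableAt_inv hw0)).inv h4
    refine h6.congr_of_eventuallyEq ?_
    filter_upwards [isOpen_compl_singleton.mem_nhds hw0] with y hy
    exact hgne y hy
  have hgd : DifferentiableOn ℂ g (ball 0 δ) := by
    intro w hw
    by_cases hw0 : w = 0
    · subst hw0
      exact hd0.differentiableAt.differentiableWithinAt
    · exact (hdp w hw hw0).differentiableWithinAt
  have hst : HasStrictDerivAt g a⁻¹ 0 := by
    have := (hgd.analyticAt (ball_mem_nhds 0 hδpos)).hasStrictDerivAt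
    rwa [hd0.deriv] at this
  have hmap : map g (𝓝 0) = 𝓝 0 := by
    have := hst.map_nhds_eq (inv_ne_zero ha)
    rwa [hg0] at this
  have himg : g '' ball 0 δ ∈ 𝓝 (0 : ℂ) := by
    rw [← hmap]
    exact image_mem_map (ball_mem_nhds 0 hδpos)
  obtain ⟨ε, hε, hball⟩ := Metric.mem_nhds_iff.1 himg
  refine ⟨ε⁻¹, fun w hw => ?_⟩
  have hw0 : w ≠ 0 := norm_pos_iff.1 ((inv_pos.2 hε).trans hw)
  have hwb : w⁻¹ ∈ ball (0 : ℂ) ε := by
    rw [mem_ball_zero_iff, norm_inv, inv_lt_comm₀ (norm_pos_iff.2 hw0) hε]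
    exact hw
  obtain ⟨y, hy, hyw⟩ := hball hwb
  have hy0 : y ≠ 0 := by
    rintro rfl
    rw [hg0] at hyw
    exact inv_ne_zero hw0 hyw.symm
  refine ⟨y⁻¹, ?_, ?_⟩
  · exact lt_of_le_of_lt ((le_max_left _ _).trans (le_max_right _ _)) (hmem y hy hy0)
  · rw [hgne y hy0] at hyw
    exact inv_injective hyw

/-- boundary behaviour of homeomorphisms between complements of bounded sets -/
lemma bdry_of_inv {A B : Set ℂ} (hA : IsCompact A) (hAn : A.Nonempty)
    {f g : ℂ → ℂ} (hg : ContinuousOn g Bᶜ) (hgm : MapsTo g Bᶜ Aᶜ)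
    (hgf : ∀ z ∉ A, g (f z) = z) (hginf : Tendsto g (cobounded ℂ) (cobounded ℂ)) :
    ∀ ε > 0, ∃ δ > 0, ∀ z ∉ A, infDist z A < δ → infDist (f z) B < ε := by
  intro ε hε
  obtain ⟨r, hr⟩ := hA.isBounded.subset_closedBall (0 : ℂ)
  obtain ⟨M, hM⟩ := ev_iff.1 (hginf.eventually (ev_norm (r + 1)))
  set D : Set ℂ := {w | ε ≤ infDist w B} ∩ closedBall 0 M with hD
  have hDc : IsCompact D := by
    refine (isCompact_closedBall 0 M).inter_left ?_
    exact isClosed_le continuous_const (continuous_infDist_pt B)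
  have hDB : D ⊆ Bᶜ := by
    intro w hw hwB
    have h1 : infDist w B = 0 := infDist_zero_of_mem hwB
    have h2 : ε ≤ infDist w B := hw.1
    rw [h1] at h2
    linarith
  have hgD : IsCompact (g '' D) := hDc.image_of_continuousOn (hg.mono hDB)
  have hgDA : Disjoint (g '' D) A := by
    rw [Set.disjoint_left]
    rintro _ ⟨w, hw, rfl⟩ h
    exact hgm (hDB hw) h
  -- positive distance
  obtain ⟨δ₁, hδ₁, hδ₁'⟩ : ∃ δ₁ > 0, ∀ z ∈ g '' D, δ₁ ≤ infDist z A := by
    by_cases hne : (g '' D).Nonempty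
    · obtain ⟨z₀, hz₀, hmin⟩ := hgD.exists_isMinOn hne (continuous_infDist_pt A).continuousOn
      refine ⟨infDist z₀ A, ?_, fun z hz => hmin hz⟩
      have h1 : z₀ ∉ A := fun h => Set.disjoint_left.1 hgDA hz₀ h
      exact (hA.isClosed.notMem_iff_infDist_pos hAn).1 h1
    · refine ⟨1, one_pos, fun z hz => (hne ⟨z, hz⟩).elim⟩
  refine ⟨min δ₁ 1, lt_min hδ₁ one_pos, fun z hz hzd => ?_⟩
  by_contra hcon
  rw [not_lt] at hcon
  have h1 : ‖z‖ ≤ r + 1 := by
    obtain ⟨y, hy, hyd⟩ := (infDist_lt_iff hAn).1 (lt_of_lt_of_le hzd (min_le_right _ _))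
    have := hr hy
    rw [mem_closedBall_zero_iff] at this
    rw [dist_eq_norm] at hyd
    calc ‖z‖ = ‖(z - y) + y‖ := by rw [sub_add_cancel]
      _ ≤ ‖z - y‖ + ‖y‖ := norm_add_le _ _
      _ ≤ r + 1 := by linarith
  have h2 : ‖f z‖ ≤ M := by
    by_contra h
    have := hM (f z) (not_le.1 h)
    rw [hgf z hz] at this
    linarith
  have h3 : f z ∈ D := ⟨hcon, mem_closedBall_zero_iff.2 h2⟩
  have h4 := hδ₁' (g (f z)) (mem_image_of_mem g h3)
  rw [hgf z hz] at h4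
  exact absurd (lt_of_lt_of_le hzd (min_le_left _ _)) (not_lt.2 h4)

lemma isOpen_out (R : ℝ) : IsOpen {z : ℂ | R < ‖z‖} := isOpen_lt continuous_const continuous_norm

lemma out_eq : {z : ℂ | (1 : ℝ) < ‖z‖} = (closedBall 0 1)ᶜ := by
  ext z
  simp only [Set.mem_ofPred_eq, mem_compl_iff, mem_closedBall_zero_iff, not_le]

/-- the inverse of an injective map on `Kᶜ`, `h z = b + a z + o(1)`, tends to infinity at infinity -/
lemma inv_tendsto {K : Set ℂ} (hK : IsBounded K) {h g : ℂ → ℂ}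
    (hd : DifferentiableOn ℂ h Kᶜ) {a b : ℂ} (ha : a ≠ 0)
    (hn : Tendsto (fun z => h z - (b + a * z)) (cobounded ℂ) (𝓝 0))
    (hgh : ∀ z ∈ Kᶜ, g (h z) = z) : Tendsto g (cobounded ℂ) (cobounded ℂ) := by
  obtain ⟨r, hr⟩ := hK.subset_closedBall (0 : ℂ)
  have hsub : {z : ℂ | r < ‖z‖} ⊆ Kᶜ := by
    intro z hz hzK
    have := hr hzK
    rw [mem_closedBall_zero_iff] at this
    exact absurd hz (not_lt.2 this)
  rw [← tendsto_norm_atTop_iff_cobounded, Filter.tendsto_atTop]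
  intro ρ
  obtain ⟨M, hM⟩ := covers_infty (hd.mono hsub) ha hn (max ρ r)
  refine ev_iff.2 ⟨M, fun w hw => ?_⟩
  obtain ⟨z, hz, hzw⟩ := hM w hw
  have hzK : z ∈ Kᶜ := hsub (lt_of_le_of_lt (le_max_right _ _) hz)
  rw [← hzw, hgh z hzK]
  exact ((le_max_left _ _).trans hz.le)

theorem e1 : Spec.E1 := by
  intro K h c r hK hE
  have hKo : IsOpen Kᶜ := hK.compact.isClosed.isOpen_compl
  obtain ⟨g, hg, hgh⟩ := exists_inv hKo hE.diff hE.inj
  rw [hE.image] at hg
  have hr0 : (r : ℂ) ≠ 0 := ofReal_ne_zero.2 hE.pos.ne'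
  have hmem : ∀ ζ : ℂ, 1 < ‖ζ‖ → c + r * ζ ∈ (closedBall c r)ᶜ := by
    intro ζ hζ
    rw [mem_compl_iff, mem_closedBall, dist_eq_norm, add_sub_cancel_left, norm_mul, norm_real,
      Real.norm_eq_abs, abs_of_pos hE.pos, not_le]
    nlinarith [hE.pos]
  have hhg : ∀ w ∈ (closedBall c r)ᶜ, g w ∈ Kᶜ ∧ h (g w) = w := by
    intro w hw
    rw [← hE.image] at hw
    obtain ⟨z, hz, rfl⟩ := hw
    rw [hgh z hz]
    exact ⟨hz, rfl⟩
  have hn1 : Tendsto (fun z => h z - (0 + 1 * z)) (cobounded ℂ) (𝓝 0) := by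
    simpa using hE.norm
  have hginf : Tendsto g (cobounded ℂ) (cobounded ℂ) :=
    inv_tendsto hK.compact.isBounded hE.diff one_ne_zero hn1 hgh
  refine ⟨fun ζ => g (c + r * ζ), ⟨hE.pos, ?_, ?_, ?_, ?_⟩, ?_⟩
  · intro ζ hζ
    have h1 : DifferentiableAt ℂ g (c + r * ζ) :=
      (hg _ (hmem ζ hζ)).differentiableAt (isClosed_closedBall.isOpen_compl.mem_nhds (hmem ζ hζ))
    exact (h1.comp ζ (by fun_prop)).differentiableWithinAt
  · intro ζ hζ ζ' hζ' heq
    have h1 : h (g (c + r * ζ)) = h (g (c + r * ζ')) := congrArg h heq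
    rw [(hhg _ (hmem ζ hζ)).2, (hhg _ (hmem ζ' hζ')).2] at h1
    exact mul_left_cancel₀ hr0 (add_left_cancel h1)
  · ext z
    constructor
    · rintro ⟨ζ, hζ, rfl⟩
      exact (hhg _ (hmem ζ hζ)).1
    · intro hz
      refine ⟨(h z - c) / r, ?_, ?_⟩
      · have h1 : h z ∈ (closedBall c r)ᶜ := by
          rw [← hE.image]; exact mem_image_of_mem _ hz
        rw [mem_compl_iff, mem_closedBall, dist_eq_norm, not_le] at h1
        rw [Set.mem_ofPred_eq, norm_div, norm_real, Real.norm_eq_abs, abs_of_pos hE.pos,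
          one_lt_div hE.pos]
        exact h1
      · show g (c + r * ((h z - c) / r)) = z
        rw [mul_div_cancel₀ _ hr0, add_sub_cancel, hgh z hz]
  · have h1 : Tendsto (fun ζ : ℂ => g (c + r * ζ)) (cobounded ℂ) (cobounded ℂ) :=
      hginf.comp (tendsto_aff hr0)
    have h2 := (hE.norm.comp h1).neg
    rw [neg_zero] at h2
    refine h2.congr' ?_
    filter_upwards [ev_norm 1] with ζ hζ
    simp only [Function.comp]
    rw [(hhg _ (hmem ζ hζ)).2]
    ring
  · intro ζ hζ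
    exact (hhg _ (hmem ζ hζ)).2

theorem e2 : Spec.E2 := by
  intro K h c r hK hE
  have hKo : IsOpen Kᶜ := hK.compact.isClosed.isOpen_compl
  obtain ⟨g, hg, hgh⟩ := exists_inv hKo hE.diff hE.inj
  rw [hE.image] at hg
  have hn1 : Tendsto (fun z => h z - (0 + 1 * z)) (cobounded ℂ) (𝓝 0) := by
    simpa using hE.norm
  have hginf : Tendsto g (cobounded ℂ) (cobounded ℂ) :=
    inv_tendsto hK.compact.isBounded hE.diff one_ne_zero hn1 hgh
  refine bdry_of_inv hK.compact hK.conn.nonempty hg.continuousOn ?_ (fun z hz => hgh z hz) hginf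
  intro w hw
  rw [← hE.image] at hw
  obtain ⟨z, hz, rfl⟩ := hw
  rw [hgh z hz]
  exact hz

/-- the inverse of a parametrization -/
lemma par_inv {K : Set ℂ} {e : ℂ → ℂ} {c : ℂ} {r : ℝ} (hP : Par K e c r) :
    ∃ g : ℂ → ℂ, DifferentiableOn ℂ g Kᶜ ∧ (∀ ζ, 1 < ‖ζ‖ → g (e ζ) = ζ) ∧
      (∀ z ∈ Kᶜ, 1 < ‖g z‖ ∧ e (g z) = z) ∧ Tendsto g (cobounded ℂ) (cobounded ℂ) := by
  obtain ⟨g, hg, hge⟩ := exists_inv (isOpen_out 1) hP.diff hP.inj
  rw [hP.image] at hg
  refine ⟨g, hg, fun ζ hζ => hge ζ hζ, ?_, ?_⟩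
  · intro z hz
    rw [← hP.image] at hz
    obtain ⟨ζ, hζ, rfl⟩ := hz
    rw [hge ζ hζ]
    exact ⟨hζ, rfl⟩
  · have hd : DifferentiableOn ℂ e (closedBall (0 : ℂ) 1)ᶜ := by
      rw [← out_eq]; exact hP.diff
    refine inv_tendsto isBounded_closedBall hd (ofReal_ne_zero.2 hP.pos.ne') hP.norm ?_
    rw [← out_eq]
    exact hge

lemma par_tendsto {K : Set ℂ} {e : ℂ → ℂ} {c : ℂ} {r : ℝ} (hP : Par K e c r) :
    Tendsto e (cobounded ℂ) (cobounded ℂ) :=
  tendsto_cobounded_of_sub (tendsto_aff (ofReal_ne_zero.2 hP.pos.ne')) hP.norm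

theorem e3 : Spec.E3 := by
  intro K e c r hK hP ε hε
  obtain ⟨g, hg, hge, heg, hginf⟩ := par_inv hP
  have hgm : MapsTo g Kᶜ (closedBall (0 : ℂ) 1)ᶜ := by
    intro z hz
    rw [← out_eq]
    exact (heg z hz).1
  obtain ⟨δ, hδ, h⟩ := bdry_of_inv (isCompact_closedBall (0 : ℂ) 1)
    ⟨0, mem_closedBall_self zero_le_one⟩ hg.continuousOn hgm
    (fun ζ hζ => hge ζ (by
      have : ζ ∈ (closedBall (0 : ℂ) 1)ᶜ := hζ
      rwa [← out_eq] at this)) hginf ε hε
  refine ⟨1 + δ, by linarith, fun ζ h1 h2 => ?_⟩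
  refine h ζ ?_ ?_
  · rw [mem_closedBall_zero_iff, not_le]; exact h1
  · have hζ0 : ζ ≠ 0 := norm_pos_iff.1 (one_pos.trans h1)
    have hmem : (‖ζ‖⁻¹ : ℂ) * ζ ∈ closedBall (0 : ℂ) 1 := by
      rw [mem_closedBall_zero_iff, norm_mul, norm_inv, norm_real, norm_norm,
        inv_mul_cancel₀ (norm_ne_zero_iff.2 hζ0)]
    refine lt_of_le_of_lt (infDist_le_dist_of_mem hmem) ?_
    rw [dist_eq_norm, show ζ - (‖ζ‖⁻¹ : ℂ) * ζ = ((1 - ‖ζ‖⁻¹ : ℝ) : ℂ) * ζ by push_cast; ring,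
      norm_mul, norm_real, Real.norm_eq_abs, abs_of_nonneg (by
        rw [sub_nonneg]; exact inv_le_one_of_one_le₀ h1.le), sub_mul, one_mul,
      inv_mul_cancel₀ (norm_ne_zero_iff.2 hζ0)]
    linarith

/-! ### Residues -/

/-- bounded analytic near infinity: `z F'(z) → 0` (Cauchy estimate) -/
lemma tendsto_mul_deriv {R : ℝ} {F : ℂ → ℂ} (hF : DifferentiableOn ℂ F {z | R < ‖z‖})
    (h0 : Tendsto F (cobounded ℂ) (𝓝 0)) :
    Tendsto (fun z => z * deriv F z) (cobounded ℂ) (𝓝 0) := by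
  rw [Metric.tendsto_nhds]
  intro ε hε
  have h1 : ∀ᶠ z in cobounded ℂ, ‖F z‖ < ε / 4 := by
    have := h0.norm
    rw [norm_zero] at this
    exact this.eventually_lt_const (by positivity)
  obtain ⟨M, hM⟩ := ev_iff.1 h1
  refine ev_iff.2 ⟨2 * max (max M R) 1, fun z hz => ?_⟩
  set N := max (max M R) 1 with hN
  have hN1 : 1 ≤ N := le_max_right _ _
  have hNM : M ≤ N := (le_max_left _ _).trans (le_max_left _ _)
  have hNR : R ≤ N := (le_max_right _ _).trans (le_max_left _ _)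
  have hzpos : 0 < ‖z‖ := by linarith
  have hball : ∀ y ∈ closedBall z (‖z‖ / 2), N < ‖y‖ := by
    intro y hy
    rw [mem_closedBall, dist_eq_norm] at hy
    have := norm_sub_norm_le z y
    rw [norm_sub_rev] at this
    linarith
  have hd : DiffContOnCl ℂ F (ball z (‖z‖ / 2)) := by
    refine DifferentiableOn.diffContOnCl ?_
    intro y hy
    have hy' : y ∈ closedBall z (‖z‖ / 2) := closure_ball_subset_closedBall hy
    have : R < ‖y‖ := lt_of_le_of_lt hNR (hball y hy')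
    exact ((hF y this).differentiableAt ((isOpen_out R).mem_nhds this)).differentiableWithinAt
  have hC : ∀ y ∈ sphere z (‖z‖ / 2), ‖F y‖ ≤ ε / 4 := by
    intro y hy
    exact (hM y (lt_of_le_of_lt hNM (hball y (sphere_subset_closedBall hy)))).le
  have h2 := norm_deriv_le_of_forall_mem_sphere_norm_le (by positivity : 0 < ‖z‖ / 2) hd hC
  rw [dist_zero_right, norm_mul]
  calc ‖z‖ * ‖deriv F z‖ ≤ ‖z‖ * (ε / 4 / (‖z‖ / 2)) := mul_le_mul_of_nonneg_left h2 hzpos.le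
    _ = ε / 2 := by field_simp; ring
    _ < ε := by linarith

/-- integral over large circles -/
lemma circle_lim {F : ℂ → ℂ} (hF : DifferentiableOn ℂ F {ζ | 1 < ‖ζ‖}) {a : ℂ}
    (ha : Tendsto (fun z => z * F z) (cobounded ℂ) (𝓝 a)) {ρ : ℝ} (hρ : 1 < ρ) :
    (∮ ζ in C(0, ρ), F ζ) = 2 * π * I * a := by
  have hρ0 : 0 < ρ := one_pos.trans hρ
  have hFd : ∀ ζ : ℂ, 1 < ‖ζ‖ → DifferentiableAt ℂ F ζ := fun ζ hζ =>
    (hF ζ hζ).differentiableAt ((isOpen_out 1).mem_nhds hζ)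
  have hconst : ∀ ρ' : ℝ, ρ ≤ ρ' → (∮ ζ in C(0, ρ'), F ζ) = ∮ ζ in C(0, ρ), F ζ := by
    intro ρ' hρ'
    refine circleIntegral_eq_of_differentiable_on_annulus_off_countable hρ0 hρ' countable_empty
      ?_ ?_
    · intro ζ hζ
      refine (hFd ζ ?_).continuousAt.continuousWithinAt
      have := hζ.2
      rw [mem_ball_zero_iff, not_lt] at this
      linarith
    · intro ζ hζ
      refine hFd ζ ?_
      have := hζ.1.2
      rw [mem_closedBall_zero_iff, not_le] at this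
      linarith
  have hinv : ∀ ρ' : ℝ, 0 < ρ' → (∮ ζ in C(0, ρ'), a * ζ⁻¹) = 2 * π * I * a := by
    intro ρ' hρ'
    have h1 := circleIntegral.integral_sub_inv_of_mem_ball (c := 0) (w := 0) (R := ρ')
      (mem_ball_self hρ')
    simp only [sub_zero] at h1
    rw [circleIntegral.integral_const_mul, h1]
    ring
  rw [← sub_eq_zero, ← norm_le_zero_iff]
  refine le_of_forall_gt_imp_ge_of_dense fun ε hε => ?_
  have h1 : ∀ᶠ z in cobounded ℂ, ‖z * F z - a‖ < ε / (2 * π) := by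
    have := (ha.sub_const a).norm
    rw [sub_self, norm_zero] at this
    exact this.eventually_lt_const (by positivity)
  obtain ⟨M, hM⟩ := ev_iff.1 h1
  set ρ' := max ρ (M + 1) with hρ'
  have hρ'0 : 0 < ρ' := lt_of_lt_of_le hρ0 (le_max_left _ _)
  have hρ'1 : 1 < ρ' := lt_of_lt_of_le hρ (le_max_left _ _)
  rw [← hconst ρ' (le_max_left _ _), ← hinv ρ' hρ'0]
  have hci1 : CircleIntegrable F 0 ρ' := by
    refine ContinuousOn.circleIntegrable hρ'0.le ?_
    intro ζ hζ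
    rw [mem_sphere_zero_iff_norm] at hζ
    exact (hFd ζ (by rw [hζ]; exact hρ'1)).continuousAt.continuousWithinAt
  have hci2 : CircleIntegrable (fun ζ => a * ζ⁻¹) 0 ρ' := by
    refine ContinuousOn.circleIntegrable hρ'0.le ?_
    intro ζ hζ
    rw [mem_sphere_zero_iff_norm] at hζ
    have hζ0 : ζ ≠ 0 := norm_pos_iff.1 (by rw [hζ]; exact hρ'0)
    exact ((continuousAt_id.inv₀ hζ0).const_mul a).continuousWithinAt
  rw [← circleIntegral.integral_sub hci1 hci2]
  refine (circleIntegral.norm_integral_le_of_norm_le_const hρ'0.le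
    (C := ε / (2 * π) / ρ') ?_).trans ?_
  · intro ζ hζ
    rw [mem_sphere_zero_iff_norm] at hζ
    have hζ0 : ζ ≠ 0 := norm_pos_iff.1 (by rw [hζ]; exact hρ'0)
    have h2 : F ζ - a * ζ⁻¹ = (ζ * F ζ - a) / ζ := by field_simp
    rw [h2, norm_div, hζ]
    refine div_le_div_of_nonneg_right ?_ hρ'0.le
    refine (hM ζ ?_).le
    rw [hζ]
    exact lt_of_lt_of_le (by linarith) (le_max_right _ _)
  · apply le_of_eq
    field_simp

/-- `ζ e'(ζ) / (e ζ - x) → 1` -/
lemma par_log_tendsto {K : Set ℂ} {e : ℂ → ℂ} {c : ℂ} {r : ℝ} (hP : Par K e c r) (x : ℂ) :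
    Tendsto (fun ζ => ζ * (deriv e ζ / (e ζ - x))) (cobounded ℂ) (𝓝 1) := by
  have hr0 : (r : ℂ) ≠ 0 := ofReal_ne_zero.2 hP.pos.ne'
  set u : ℂ → ℂ := fun ζ => e ζ - (c + r * ζ) with hu
  have hud : DifferentiableOn ℂ u {ζ | 1 < ‖ζ‖} := by
    refine hP.diff.sub ?_
    exact Differentiable.differentiableOn (by fun_prop)
  have h1 := tendsto_mul_deriv hud hP.norm
  have hinv : Tendsto (fun z : ℂ => z⁻¹) (cobounded ℂ) (𝓝 0) := tendsto_inv₀_cobounded
  have h2 : Tendsto (fun ζ => (e ζ - x) / ζ) (cobounded ℂ) (𝓝 r) := by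
    refine tendsto_div (F := fun ζ => e ζ - x) (b := c - x) ?_
    refine hP.norm.congr fun ζ => ?_
    ring
  have h3 : Tendsto (fun ζ => (r + (ζ * deriv u ζ) * ζ⁻¹) / ((e ζ - x) / ζ)) (cobounded ℂ)
      (𝓝 ((r + 0 * 0) / r)) := (tendsto_const_nhds.add (h1.mul hinv)).div h2 hr0
  rw [mul_zero, add_zero, div_self hr0] at h3
  refine h3.congr' ?_
  have hne : ∀ᶠ ζ in cobounded ℂ, e ζ ≠ x := (par_tendsto hP).eventually_ne_cobounded x
  filter_upwards [ev_norm 1, hne] with ζ hζ hex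
  have hζ0 : ζ ≠ 0 := norm_pos_iff.1 (one_pos.trans hζ)
  have h4 : deriv u ζ = deriv e ζ - r := by
    have h5 : HasDerivAt e (deriv e ζ) ζ :=
      ((hP.diff ζ hζ).differentiableAt ((isOpen_out 1).mem_nhds hζ)).hasDerivAt
    have h6 : HasDerivAt (fun ζ : ℂ => c + r * ζ) r ζ := by
      simpa using ((hasDerivAt_id ζ).const_mul (r : ℂ)).const_add c
    exact (h5.sub h6).deriv
  rw [h4]
  have h7 : e ζ - x ≠ 0 := sub_ne_zero.2 hex
  field_simp
  ring

theorem e4 : Spec.E4 := by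
  intro K e c r hK hP x hx ρ hρ
  have hmem : ∀ ζ : ℂ, 1 < ‖ζ‖ → e ζ - x ≠ 0 := by
    intro ζ hζ h
    have : e ζ ∈ Kᶜ := by rw [← hP.image]; exact mem_image_of_mem _ hζ
    rw [sub_eq_zero.1 h] at this
    exact this hx
  have hd : DifferentiableOn ℂ (fun ζ => deriv e ζ / (e ζ - x)) {ζ | 1 < ‖ζ‖} :=
    (hP.diff.deriv (isOpen_out 1)).div (hP.diff.sub_const x) fun ζ hζ => hmem ζ hζ
  rw [circle_lim hd (par_log_tendsto hP x) hρ, mul_one]

theorem e5 : Spec.E5 := by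
  intro K e c r hK hP η ρ hρ hη
  have hη1 : 1 < ‖η‖ := hρ.trans hη
  have hU := isOpen_out 1
  set k : ℂ → ℂ := dslope e η with hk
  have hkd : DifferentiableOn ℂ k {ζ | 1 < ‖ζ‖} :=
    (Complex.differentiableOn_dslope (hU.mem_nhds hη1)).2 hP.diff
  have hk0 : ∀ ζ : ℂ, 1 < ‖ζ‖ → k ζ ≠ 0 := by
    intro ζ hζ
    by_cases h : ζ = η
    · rw [h, hk, dslope_same]
      exact injOn_deriv_ne_zero hU hP.diff hP.inj hη1
    · rw [hk, dslope_of_ne _ h, slope_def_field]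
      refine div_ne_zero ?_ (sub_ne_zero.2 h)
      intro h2
      exact h (hP.inj hζ hη1 (sub_eq_zero.1 h2))
  have hek : ∀ ζ, e ζ - e η = (ζ - η) * k ζ := by
    intro ζ
    have := sub_smul_dslope e η ζ
    rw [smul_eq_mul] at this
    rw [hk, this]
  -- the logarithmic derivative of `k`
  have hlog : ∀ ζ : ℂ, 1 < ‖ζ‖ → ζ ≠ η → deriv e ζ / (e ζ - e η) = (ζ - η)⁻¹ + deriv k ζ / k ζ := by
    intro ζ hζ hne
    have h1 : HasDerivAt k (deriv k ζ) ζ := ((hkd ζ hζ).differentiableAt (hU.mem_nhds hζ)).hasDerivAt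
    have h2 : HasDerivAt (fun ζ => e η + (ζ - η) * k ζ) (1 * k ζ + (ζ - η) * deriv k ζ) ζ :=
      (((hasDerivAt_id ζ).sub_const η).mul h1).const_add (e η)
    have h3 : (fun ζ => e η + (ζ - η) * k ζ) = e := by
      funext y
      rw [← hek y]
      ring
    rw [h3] at h2
    rw [h2.deriv, hek ζ]
    have h4 := hk0 ζ hζ
    have h5 : ζ - η ≠ 0 := sub_ne_zero.2 hne
    field_simp
  have hqd : DifferentiableOn ℂ (fun ζ => deriv k ζ / k ζ) {ζ | 1 < ‖ζ‖} :=
    (hkd.deriv hU).div hkd fun ζ hζ => hk0 ζ hζ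
  have hlim : Tendsto (fun ζ => ζ * (deriv k ζ / k ζ)) (cobounded ℂ) (𝓝 0) := by
    have h1 := par_log_tendsto hP (e η)
    have h2 : Tendsto (fun ζ : ℂ => ζ * (ζ - η)⁻¹) (cobounded ℂ) (𝓝 1) := by
      have h3 : Tendsto (fun ζ : ℂ => 1 + η * (ζ - η)⁻¹) (cobounded ℂ) (𝓝 (1 + η * 0)) := by
        refine tendsto_const_nhds.add (Tendsto.const_mul η ?_)
        exact tendsto_inv₀_cobounded.comp (tendsto_sub_const_cobounded η)
      rw [mul_zero, add_zero] at h3
      refine h3.congr' ?_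
      filter_upwards [eventually_ne_cobounded η] with ζ hζ
      have : ζ - η ≠ 0 := sub_ne_zero.2 hζ
      field_simp
      ring
    have h4 := h1.sub h2
    rw [sub_self] at h4
    refine h4.congr' ?_
    filter_upwards [ev_norm 1, eventually_ne_cobounded η] with ζ hζ hne
    rw [hlog ζ hζ hne]
    ring
  have h1 := circle_lim hqd hlim hρ
  have hρ0 : 0 < ρ := one_pos.trans hρ
  have hsph : ∀ ζ ∈ sphere (0 : ℂ) ρ, 1 < ‖ζ‖ ∧ ζ ≠ η := by
    intro ζ hζ
    rw [mem_sphere_zero_iff_norm] at hζ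
    refine ⟨by rw [hζ]; exact hρ, ?_⟩
    rintro rfl
    rw [hζ] at hη
    exact lt_irrefl _ hη
  have h2 : (∮ ζ in C(0, ρ), deriv e ζ / (e ζ - e η)) =
      ∮ ζ in C(0, ρ), ((ζ - η)⁻¹ + deriv k ζ / k ζ) :=
    circleIntegral.integral_congr hρ0.le fun ζ hζ => hlog ζ (hsph ζ hζ).1 (hsph ζ hζ).2
  have hci1 : CircleIntegrable (fun ζ : ℂ => (ζ - η)⁻¹) 0 ρ := by
    refine ContinuousOn.circleIntegrable hρ0.le ?_
    intro ζ hζ
    have : ζ - η ≠ 0 := sub_ne_zero.2 (hsph ζ hζ).2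
    exact ((continuousAt_id.sub continuousAt_const).inv₀ this).continuousWithinAt
  have hci2 : CircleIntegrable (fun ζ => deriv k ζ / k ζ) 0 ρ := by
    refine ContinuousOn.circleIntegrable hρ0.le ?_
    exact hqd.continuousOn.mono fun ζ hζ => (hsph ζ hζ).1
  have h3 : (∮ ζ in C(0, ρ), (ζ - η)⁻¹) = 0 := by
    refine circleIntegral_eq_zero_of_differentiable_on_off_countable hρ0.le countable_empty
      ?_ ?_
    · intro ζ hζ
      have h5 : ζ - η ≠ 0 := by
        rw [mem_closedBall_zero_iff] at hζ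
        refine sub_ne_zero.2 ?_
        rintro rfl
        linarith
      exact ((continuousAt_id.sub continuousAt_const).inv₀ h5).continuousWithinAt
    · intro ζ hζ
      have h5 : ζ - η ≠ 0 := by
        have h6 := hζ.1
        rw [mem_ball_zero_iff] at h6
        refine sub_ne_zero.2 ?_
        rintro rfl
        linarith
      exact (differentiableAt_id.sub_const η).inv h5
  rw [h2, circleIntegral.integral_add hci1 hci2, h3, h1]
  ring

/-! ### E6, E7 -/

/-- a nonempty compact set is not open -/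
lemma exists_bdry {K : Set ℂ} (hK : IsCompact K) (hn : K.Nonempty) :
    ∃ x ∈ K, x ∈ closure Kᶜ := by
  by_contra hcon
  push Not at hcon
  have hopen : IsOpen K := by
    have : K = (closure Kᶜ)ᶜ := by
      ext x
      constructor
      · intro hx
        exact hcon x hx
      · intro hx
        by_contra h
        exact hx (subset_closure h)
    rw [this]
    exact isClosed_closure.isOpen_compl
  have huniv : K = univ := IsClopen.eq_univ ⟨hK.isClosed, hopen⟩ hn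
  exact noncompact_univ ℂ (huniv ▸ hK)

theorem e6 : Spec.E6 := by
  intro n P hP hdisj hconn j
  set Ω : Set ℂ := (⋃ i, P i)ᶜ with hΩ
  have hclosed : ∀ i, IsClosed (P i) := fun i => (hP i).compact.isClosed
  -- for every `i`, `Ω ∪ P i` is preconnected
  have hstep : ∀ i, IsPreconnected (Ω ∪ P i) := by
    intro i
    obtain ⟨x, hx, hxc⟩ := exists_bdry (hP i).compact (hP i).conn.nonempty
    have hxΩ : x ∈ closure Ω := by
      rw [mem_closure_iff_nhds] at hxc ⊢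
      intro V hV
      have hO : (⋃ k ∈ {k | k ≠ i}, P k)ᶜ ∈ 𝓝 x := by
        refine IsOpen.mem_nhds ?_ ?_
        · exact ((Set.toFinite {k | k ≠ i}).isClosed_biUnion fun k _ => hclosed k).isOpen_compl
        · rw [mem_compl_iff, mem_iUnion₂]
          rintro ⟨k, hk, hxk⟩
          exact Set.disjoint_left.1 (hdisj hk) hxk hx
      obtain ⟨y, hy, hyK⟩ := hxc (V ∩ (⋃ k ∈ {k | k ≠ i}, P k)ᶜ) (inter_mem hV hO)
      refine ⟨y, hy.1, ?_⟩
      rw [hΩ, mem_compl_iff, mem_iUnion]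
      rintro ⟨k, hk⟩
      by_cases hki : k = i
      · subst hki; exact hyK hk
      · exact hy.2 (mem_iUnion₂.2 ⟨k, hki, hk⟩)
    have h1 : IsPreconnected (Ω ∪ {x}) := by
      refine hconn.isPreconnected.subset_closure subset_union_left ?_
      exact union_subset subset_closure (singleton_subset_iff.2 hxΩ)
    have h2 : IsPreconnected ((Ω ∪ {x}) ∪ P i) :=
      IsPreconnected.union x (Or.inr rfl) hx h1 (hP i).conn.isPreconnected
    have h3 : (Ω ∪ {x}) ∪ P i = Ω ∪ P i := by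
      ext y
      simp only [mem_union, mem_singleton_iff]
      constructor
      · rintro ((h | h) | h)
        · exact Or.inl h
        · exact Or.inr (h ▸ hx)
        · exact Or.inr h
      · rintro (h | h)
        · exact Or.inl (Or.inl h)
        · exact Or.inr h
    rwa [h3] at h2
  obtain ⟨z₀, hz₀⟩ := hconn.nonempty
  have hsub : Ω ⊆ (P j)ᶜ := by
    intro z hz hzj
    exact hz (mem_iUnion.2 ⟨j, hzj⟩)
  refine ⟨⟨z₀, hsub hz₀⟩, ?_⟩
  have heq : (P j)ᶜ = ⋃₀ ({Ω} ∪ (fun i => Ω ∪ P i) '' {i | i ≠ j}) := by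
    ext z
    constructor
    · intro hz
      by_cases h : z ∈ Ω
      · exact ⟨Ω, Or.inl rfl, h⟩
      · rw [hΩ, mem_compl_iff, not_not, mem_iUnion] at h
        obtain ⟨i, hi⟩ := h
        refine ⟨Ω ∪ P i, Or.inr ⟨i, ?_, rfl⟩, Or.inr hi⟩
        rintro rfl
        exact hz hi
    · rintro ⟨S, hS | ⟨i, hi, rfl⟩, hz⟩
      · rw [mem_singleton_iff] at hS
        subst hS
        exact hsub hz
      · rcases hz with hz | hz
        · exact hsub hz
        · exact fun hzj => Set.disjoint_left.1 (hdisj hi) hz hzj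
  rw [heq]
  refine isPreconnected_sUnion z₀ _ ?_ ?_
  · rintro S (hS | ⟨i, hi, rfl⟩)
    · rw [mem_singleton_iff] at hS
      subst hS; exact hz₀
    · exact Or.inl hz₀
  · rintro S (hS | ⟨i, hi, rfl⟩)
    · rw [mem_singleton_iff] at hS
      subst hS; exact hconn.isPreconnected
    · exact hstep i

theorem e7 (hM : Spec.M) : Spec.E7 := by
  intro n P hP hdisj hconn
  have h1 : ∀ j, ∃ e c r, Par (P j) e c r := by
    intro j
    obtain ⟨h, c, r, hE⟩ := hM (hP j) (e6 hP hdisj hconn j)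
    obtain ⟨e, he, -⟩ := e1 (hP j) hE
    exact ⟨e, c, r, he⟩
  choose e c r he using h1
  -- separation
  obtain ⟨η, hη, hsep⟩ : ∃ η > 0, ∀ i j, i ≠ j → ∀ x ∈ P i, ∀ y ∈ P j, 3 * η ≤ dist x y := by
    have h2 : ∀ i j, ∃ d > 0, i ≠ j → ∀ x ∈ P i, ∀ y ∈ P j, d ≤ dist x y := by
      intro i j
      by_cases hij : i = j
      · exact ⟨1, one_pos, fun h => (h hij).elim⟩
      · have hd : Disjoint (P i) (P j) := hdisj hij
        obtain ⟨x₀, hx₀, hmin⟩ := (hP i).compact.exists_isMinOn (hP i).conn.nonempty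
          (continuous_infDist_pt (P j)).continuousOn
        refine ⟨infDist x₀ (P j), ?_, fun _ x hx y hy => ?_⟩
        · refine ((hP j).compact.isClosed.notMem_iff_infDist_pos (hP j).conn.nonempty).1 ?_
          exact fun h => Set.disjoint_left.1 hd hx₀ h
        · exact (hmin hx).trans (infDist_le_dist_of_mem hy)
    choose d hd hd' using h2
    obtain ⟨δ, hδ, hδ'⟩ : ∃ δ > 0, ∀ p : Fin n × Fin n, δ ≤ d p.1 p.2 := by
      by_cases hne : Nonempty (Fin n × Fin n)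
      · obtain ⟨p, hp⟩ := Finite.exists_min (fun p : Fin n × Fin n => d p.1 p.2)
        exact ⟨d p.1 p.2, hd _ _, hp⟩
      · exact ⟨1, one_pos, fun p => (hne ⟨p⟩).elim⟩
    refine ⟨δ / 3, by positivity, fun i j hij x hx y hy => ?_⟩
    have := (hδ' (i, j)).trans (hd' i j hij x hx y hy)
    linarith
  -- collars
  have h3 : ∀ j, ∃ ρ > 1, ∀ ζ, 1 < ‖ζ‖ → ‖ζ‖ < ρ → infDist (e j ζ) (P j) < η := fun j =>
    e3 (hP j) (he j) η hη
  choose ρ hρ hρ' using h3
  obtain ⟨R, hR, hR'⟩ : ∃ R > 1, ∀ j, R ≤ ρ j := by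
    by_cases hne : Nonempty (Fin n)
    · obtain ⟨p, hp⟩ := Finite.exists_min ρ
      exact ⟨ρ p, hρ _, hp⟩
    · exact ⟨2, by norm_num, fun p => (hne ⟨p⟩).elim⟩
  have hcol : ∀ j, ∀ z ∈ e j '' ann 1 R, ∃ y ∈ P j, dist z y < η := by
    rintro j _ ⟨ζ, hζ, rfl⟩
    exact (infDist_lt_iff (hP j).conn.nonempty).1 (hρ' j ζ hζ.1 (lt_of_lt_of_le hζ.2 (hR' j)))
  obtain ⟨B, hB⟩ := (isCompact_iUnion fun j => (hP j).compact).isBounded.subset_closedBall (0 : ℂ)
  have hPB : ∀ j, ∀ x ∈ P j, ‖x‖ ≤ B := fun j x hx => by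
    have := hB (mem_iUnion.2 ⟨j, hx⟩)
    rwa [mem_closedBall_zero_iff] at this
  refine ⟨e, R, B + 1 + η, ⟨hR, hP, hdisj, hconn, fun j => ⟨c j, r j, he j⟩, ?_, ?_, ?_⟩⟩
  · intro j x hx
    rw [mem_ball_zero_iff]
    have := hPB j x hx
    linarith
  · intro j z hz
    obtain ⟨y, hy, hyd⟩ := hcol j z hz
    rw [mem_ball_zero_iff]
    rw [dist_eq_norm] at hyd
    have h4 := hPB j y hy
    calc ‖z‖ = ‖(z - y) + y‖ := by rw [sub_add_cancel]
      _ ≤ ‖z - y‖ + ‖y‖ := norm_add_le _ _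
      _ < B + 1 + η := by linarith
  · intro i j hij
    rw [Set.disjoint_left]
    rintro z hz (hz' | hz')
    · obtain ⟨y, hy, hyd⟩ := hcol i z hz
      have h5 := hsep i j hij y hy z hz'
      rw [dist_comm] at h5
      linarith
    · obtain ⟨y, hy, hyd⟩ := hcol i z hz
      obtain ⟨y', hy', hyd'⟩ := hcol j z hz'
      have h5 := hsep i j hij y hy y' hy'
      have h6 := dist_triangle y z y'
      rw [dist_comm y z] at h6
      linarith

end Vale.Agent.P116.FK.E
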