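import Vale.Agent.P116.FK.Basic

/-!
# Finite Koebe theorem: Stokes' formula
-/

open Set Metric Filter Topology Complex Bornology MeasureTheory
open scoped Real ComplexConjugate

namespace Vale.Agent.P116.FK

variable {n : ℕ} {P : Fin n → Set ℂ} {e : Fin n → ℂ → ℂ} {R R₀ : ℝ}

/-- the flux of `1 / (z - x)` through the collar circles -/
theorem q_flux_inv (h4 : Spec.E4) (h5 : Spec.E5) (F : Fam P e R R₀) {ρ : ℝ} (hρ1 : 1 < ρ)
    (hρR : ρ < R) {j : Fin n} {x : ℂ} (hx : x ∈ P j) (k : Fin n) :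
    (∮ ζ in C(0, ρ), deriv (e k) ζ / (e k ζ - x)) = if k = j then 2 * π * I else 0 := by
  obtain ⟨c, r, H⟩ := F.par k
  split_ifs with hkj
  · subst hkj
    exact h4 (F.cont k) H hx hρ1
  · have hxk : x ∈ (P k)ᶜ := fun hxk => (F.disj hkj).le_bot ⟨hxk, hx⟩
    rw [← H.image] at hxk
    obtain ⟨η, hη, rfl⟩ := hxk
    refine h5 (F.cont k) H hρ1 ?_
    by_contra hcon
    push Not at hcon
    exact (F.collar_disj k j hkj).le_bot
      ⟨mem_image_of_mem _ ⟨hη, hcon.trans_lt hρR⟩, Or.inl hx⟩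

theorem q (h1 : Spec.S1) (h2 : Spec.S2) (h4 : Spec.E4) (h5 : Spec.E5) : Spec.Q := by
  classical
  intro n P e R R₀ F G hG a ha ρ hρ1 hρR
  have hρ0 : 0 < ρ := one_pos.trans hρ1
  set K : Set ℂ := ⋃ j, P j with hK
  have hKc : IsCompact K := isCompact_iUnion fun j => (F.cont j).compact
  have hann : ∀ {ζ : ℂ}, ζ ∈ sphere (0 : ℂ) ρ → ζ ∈ ann 1 R := by
    intro ζ hζ
    rw [mem_sphere_zero_iff_norm] at hζ
    exact ⟨by rw [hζ]; exact hρ1, by rw [hζ]; exact hρR⟩
  have hout : ∀ {ζ : ℂ}, ζ ∈ sphere (0 : ℂ) ρ → 1 < ‖ζ‖ := fun hζ => (hann hζ).1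
  have hUo : IsOpen {ζ : ℂ | 1 < ‖ζ‖} := isOpen_lt continuous_const continuous_norm
  have hdk : ∀ k, DifferentiableOn ℂ (deriv (e k)) {ζ | 1 < ‖ζ‖} := fun k => (F.diff k).deriv hUo
  -- distance of the circles to `K`
  have hdist : ∃ δ > 0, ∀ k, ∀ ζ ∈ sphere (0 : ℂ) ρ, δ < infDist (e k ζ) K := by
    have hk : ∀ k, ∃ δ > 0, ∀ ζ ∈ sphere (0 : ℂ) ρ, δ < infDist (e k ζ) K := by
      intro k
      have hKne : K.Nonempty := by
        obtain ⟨x, hx⟩ := (F.cont k).conn.nonempty
        exact ⟨x, mem_iUnion.2 ⟨k, hx⟩⟩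
      have hcont : ContinuousOn (fun ζ => infDist (e k ζ) K) (sphere (0 : ℂ) ρ) :=
        (continuous_infDist_pt K).comp_continuousOn ((F.diff k).continuousOn.mono fun ζ hζ => hout hζ)
      have hne : (sphere (0 : ℂ) ρ).Nonempty := NormedSpace.sphere_nonempty.2 hρ0.le
      obtain ⟨ζ₀, hζ₀, hmin⟩ := (isCompact_sphere (0 : ℂ) ρ).exists_isMinOn hne hcont
      have hpos : 0 < infDist (e k ζ₀) K := by
        rw [← hKc.isClosed.notMem_iff_infDist_pos hKne]
        exact F.collar_mem k (hann hζ₀)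
      refine ⟨infDist (e k ζ₀) K / 2, half_pos hpos, fun ζ hζ => ?_⟩
      exact (half_lt_self hpos).trans_le (hmin hζ)
    choose δ hδ hδ' using hk
    rcases isEmpty_or_nonempty (Fin n) with hn | hn
    · exact ⟨1, one_pos, fun k => (hn.false k).elim⟩
    · obtain ⟨k₀, -, hk₀⟩ := Finset.exists_min_image Finset.univ δ Finset.univ_nonempty
      exact ⟨δ k₀, hδ k₀, fun k ζ hζ => (hk₀ k (Finset.mem_univ k)).trans_lt (hδ' k ζ hζ)⟩
  obtain ⟨δ, hδ, hδK⟩ := hdist
  -- `G → 0`
  have hG0 : Tendsto G (cobounded ℂ) (𝓝 0) := by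
    have e1 := (tendsto_inv₀_cobounded (α := ℂ)).mul ha
    rw [zero_mul] at e1
    refine e1.congr' ?_
    filter_upwards [eventually_ne_cobounded (0 : ℂ)] with z hz
    rw [inv_mul_cancel_left₀ hz]
  obtain ⟨t, Gx, htK, hGx, hsum⟩ := h1 hKc hG hG0 hδ
  have hΦ : ∀ x ∈ t, ∃ (b : ℂ) (Φ : ℂ → ℂ),
      (∀ z ∉ closedBall x δ, HasDerivAt Φ (Gx x z - b / (z - x)) z) ∧
      Tendsto (fun z => z * Gx x z) (cobounded ℂ) (𝓝 b) := by
    intro x hx
    obtain ⟨b, Φ, e1, -, e3⟩ := h2 hδ (hGx x hx).1 (hGx x hx).2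
    exact ⟨b, Φ, e1, e3⟩
  choose! b Φ hΦd hb using hΦ
  -- `∑ b = a`
  have hab : ∑ x ∈ t, b x = a := by
    have e1 : Tendsto (fun z => z * G z) (cobounded ℂ) (𝓝 (∑ x ∈ t, b x)) := by
      refine (tendsto_finsetSum t fun x hx => hb x hx).congr' ?_
      rcases K.eq_empty_or_nonempty with hemp | hKne
      · -- then `t` is empty and `G = 0` far away, but this case needs no care: `infDist = 0`
        have ht0 : t = ∅ := by
          rw [hemp] at htK
          exact Finset.coe_eq_empty.1 (subset_empty_iff.1 htK)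
        have hdiff : Differentiable ℂ G := by
          rw [hemp, compl_empty] at hG
          exact differentiableOn_univ.1 hG
        have hGz : ∀ z, G z = 0 := by
          intro z
          have := hdiff.apply_eq_of_tendsto_cocompact z (c := 0) (by rwa [← cobounded_eq_cocompact])
          exact this
        filter_upwards with z
        simp [ht0, hGz]
      · obtain ⟨y, hy⟩ := hKne
        have e2 : Tendsto (fun z => infDist z K) (cobounded ℂ) atTop := by
          obtain ⟨M, hM⟩ := hKc.isBounded.exists_norm_le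
          have e3 : ∀ z, ‖z‖ - M ≤ infDist z K := by
            intro z
            refine (le_infDist ⟨y, hy⟩).2 fun w hw => ?_
            have h3 := hM w hw
            have h4 : ‖z‖ - ‖w‖ ≤ dist z w := by
              rw [dist_eq_norm]; exact norm_sub_norm_le z w
            linarith
          refine tendsto_atTop_mono e3 ?_
          exact tendsto_atTop_add_const_right _ (-M) tendsto_norm_cobounded_atTop
        filter_upwards [e2.eventually_gt_atTop δ] with z hz
        rw [hsum z hz, Finset.mul_sum]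
    exact tendsto_nhds_unique e1 ha
  -- the circles avoid the balls
  have havoid : ∀ x ∈ t, ∀ k, ∀ ζ ∈ sphere (0 : ℂ) ρ, e k ζ ∉ closedBall x δ := by
    intro x hx k ζ hζ hmem
    have e1 := hδK k ζ hζ
    have e2 := infDist_le_dist_of_mem (x := e k ζ) (htK hx)
    rw [mem_closedBall] at hmem
    linarith
  have hne : ∀ x ∈ t, ∀ k, ∀ ζ ∈ sphere (0 : ℂ) ρ, e k ζ - x ≠ 0 := by
    intro x hx k ζ hζ h0
    refine havoid x hx k ζ hζ ?_
    rw [sub_eq_zero.1 h0]
    exact mem_closedBall_self hδ.le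
  -- the flux through one circle
  have hflux : ∀ k, flux (e k) ρ G = ∑ x ∈ t, b x * ∮ ζ in C(0, ρ), deriv (e k) ζ / (e k ζ - x) := by
    intro k
    have hec : ContinuousOn (e k) (sphere (0 : ℂ) ρ) :=
      (F.diff k).continuousOn.mono fun ζ hζ => hout hζ
    have hdc : ContinuousOn (deriv (e k)) (sphere (0 : ℂ) ρ) :=
      (hdk k).continuousOn.mono fun ζ hζ => hout hζ
    have hGc : ContinuousOn (fun ζ => G (e k ζ) * deriv (e k) ζ) (sphere (0 : ℂ) ρ) :=
      (hG.continuousOn.comp hec fun ζ hζ => F.collar_mem k (hann hζ)).mul hdc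
    have hxc : ∀ x ∈ t, ContinuousOn (fun ζ => b x * (deriv (e k) ζ / (e k ζ - x)))
        (sphere (0 : ℂ) ρ) := fun x hx =>
      continuousOn_const.mul (hdc.div (hec.sub continuousOn_const) fun ζ hζ => hne x hx k ζ hζ)
    have hi1 : CircleIntegrable (fun ζ => G (e k ζ) * deriv (e k) ζ) 0 ρ :=
      hGc.circleIntegrable hρ0.le
    have hi2 : CircleIntegrable (fun ζ => ∑ x ∈ t, b x * (deriv (e k) ζ / (e k ζ - x))) 0 ρ :=
      (continuousOn_finsetSum t hxc).circleIntegrable hρ0.le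
    have hz : (∮ ζ in C(0, ρ), (G (e k ζ) * deriv (e k) ζ -
        ∑ x ∈ t, b x * (deriv (e k) ζ / (e k ζ - x)))) = 0 := by
      refine circleIntegral.integral_eq_zero_of_hasDerivWithinAt
        (f := fun ζ => ∑ x ∈ t, Φ x (e k ζ)) hρ0.le fun ζ hζ => ?_
      have hek : HasDerivAt (e k) (deriv (e k) ζ) ζ :=
        ((F.diff k).differentiableAt (hUo.mem_nhds (hout hζ))).hasDerivAt
      have e1 : HasDerivAt (fun ζ => ∑ x ∈ t, Φ x (e k ζ))
          (∑ x ∈ t, (Gx x (e k ζ) - b x / (e k ζ - x)) * deriv (e k) ζ) ζ := by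
        refine HasDerivAt.fun_sum fun x hx => ?_
        exact (hΦd x hx _ (havoid x hx k ζ hζ)).comp ζ hek
      refine (e1.congr_deriv ?_).hasDerivWithinAt
      rw [hsum _ (hδK k ζ hζ), Finset.sum_mul, ← Finset.sum_sub_distrib]
      refine Finset.sum_congr rfl fun x hx => ?_
      ring
    rw [circleIntegral.integral_sub hi1 hi2, sub_eq_zero] at hz
    unfold flux
    rw [hz]
    rw [circleIntegral.integral_fun_sum fun x hx => (hxc x hx).circleIntegrable hρ0.le]
    refine Finset.sum_congr rfl fun x hx => ?_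
    rw [circleIntegral.integral_const_mul]
  simp only [hflux]
  rw [Finset.sum_comm, ← hab, Finset.mul_sum]
  refine Finset.sum_congr rfl fun x hx => ?_
  obtain ⟨j, hj⟩ := mem_iUnion.1 (htK hx)
  rw [Finset.sum_congr rfl fun k _ => by rw [q_flux_inv h4 h5 F hρ1 hρR hj k]]
  rw [← Finset.mul_sum, Finset.sum_ite_eq' Finset.univ j]
  simp only [Finset.mem_univ, if_true]
  ring

end Vale.Agent.P116.FK
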