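import Vale.Agent.P116.FK.CT

/-!
# S1: splitting of a function analytic off a compact set
-/

open Set Metric Filter Topology Complex Bornology MeasureTheory
open scoped ComplexConjugate Real ContDiff Manifold

namespace Vale.Agent.P116.FK

theorem exists_cutoff {K : Set ℂ} {a b : ℝ} (hab : a < b) :
    ∃ χ : ℂ → ℝ, ContDiff ℝ 1 χ ∧ (∀ w, infDist w K ≤ a → χ w = 0) ∧
      ∀ w, b ≤ infDist w K → χ w = 1 := by
  have hc : Continuous fun w : ℂ => infDist w K := continuous_infDist_pt K
  obtain ⟨f, h0, h1, -⟩ := exists_contMDiffMap_zero_one_of_isClosed (n := 1) 𝓘(ℝ, ℂ)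
    (s := {w : ℂ | infDist w K ≤ a}) (t := {w : ℂ | b ≤ infDist w K})
    (isClosed_le hc continuous_const) (isClosed_le continuous_const hc)
    (Set.disjoint_left.2 fun w hw hw' => by
      simp only [mem_ofPred_eq] at hw hw'
      linarith)
  exact ⟨f, f.contMDiff.contDiff, fun w hw => h0 hw, fun w hw => h1 hw⟩

theorem db_eq_zero {f : ℂ → ℂ} {z : ℂ} (h : DifferentiableAt ℂ f z) : db f z = 0 := by
  rw [db, h.fderiv_restrictScalars ℝ]
  simp only [ContinuousLinearMap.coe_restrictScalars']
  have : fderiv ℂ f z Complex.I = Complex.I * fderiv ℂ f z 1 := by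
    rw [← smul_eq_mul, ← map_smul, smul_eq_mul, mul_one]
  rw [this, ← mul_assoc, Complex.I_mul_I]
  ring

theorem db_congr {f g : ℂ → ℂ} {z : ℂ} (h : f =ᶠ[𝓝 z] g) : db f z = db g z := by
  rw [db, db, h.fderiv_eq]

theorem continuous_db {f : ℂ → ℂ} (h : ContDiff ℝ 1 f) : Continuous (db f) := by
  have := h.continuous_fderiv (by simp)
  unfold db
  fun_prop

theorem s1 : Spec.S1 := by
  intro K hK F hF hF0 δ hδ
  rcases K.eq_empty_or_nonempty with rfl | hne
  · refine ⟨∅, fun _ _ => 0, by simp, by simp, fun z hz => ?_⟩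
    rw [infDist_empty] at hz
    linarith
  obtain ⟨χ, hχ, hχ0, hχ1⟩ := exists_cutoff (K := K) (a := δ / 3) (b := 2 * δ / 3) (by linarith)
  have hcont : Continuous fun w : ℂ => infDist w K := continuous_infDist_pt K
  set u : ℂ → ℂ := fun w => χ w * F w with hu
  have hnot : ∀ w, 0 < infDist w K → w ∉ K := by
    intro w hw hwK
    rw [infDist_zero_of_mem hwK] at hw
    exact lt_irrefl _ hw
  have huc : ContDiff ℝ 1 u := by
    rw [contDiff_iff_contDiffAt]
    intro z
    by_cases hz : z ∈ K
    · have h1 : u =ᶠ[𝓝 z] fun _ => 0 := by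
        have h2 : {w : ℂ | infDist w K < δ / 3} ∈ 𝓝 z := by
          apply (isOpen_lt hcont continuous_const).mem_nhds
          simp only [mem_ofPred_eq, infDist_zero_of_mem hz]
          positivity
        filter_upwards [h2] with w hw
        simp [hu, hχ0 w (le_of_lt hw)]
      exact (contDiffAt_const (c := (0 : ℂ))).congr_of_eventuallyEq h1
    · have h1 : ContDiffAt ℝ 1 F z := by
        have h2 : ContDiffOn ℂ 1 F Kᶜ := hF.contDiffOn hK.isClosed.isOpen_compl
        exact (h2.contDiffAt (hK.isClosed.isOpen_compl.mem_nhds hz)).restrict_scalars ℝ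
      have h3 : ContDiffAt ℝ 1 (fun w => (χ w : ℂ)) z :=
        (Complex.ofRealCLM.contDiff.comp hχ).contDiffAt
      exact h3.mul h1
  set μ : ℂ → ℂ := db u with hμ
  have hμc : Continuous μ := continuous_db huc
  have huF : ∀ w, 2 * δ / 3 ≤ infDist w K → u w = F w := by
    intro w hw
    simp [hu, hχ1 w hw]
  have hμ0 : ∀ w, 2 * δ / 3 < infDist w K → μ w = 0 := by
    intro w hw
    have h1 : u =ᶠ[𝓝 w] F := by
      have h2 : {w : ℂ | 2 * δ / 3 < infDist w K} ∈ 𝓝 w :=
        (isOpen_lt continuous_const hcont).mem_nhds hw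
      filter_upwards [h2] with w' hw'
      exact huF w' (le_of_lt hw')
    rw [hμ, db_congr h1]
    exact db_eq_zero (hF.differentiableAt (hK.isClosed.isOpen_compl.mem_nhds
      (hnot w (lt_trans (by positivity) hw))))
  obtain ⟨M₀, hM₀⟩ := hK.isBounded.subset_closedBall 0
  set M := M₀ + δ with hM
  have hsub : ∀ w, infDist w K ≤ 2 * δ / 3 → w ∈ closedBall (0 : ℂ) M := by
    intro w hw
    obtain ⟨x, hx, hxw⟩ := hK.exists_infDist_eq_dist hne w
    have h1 := hM₀ hx
    rw [mem_closedBall] at h1 ⊢
    have h2 := dist_triangle w x 0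
    rw [hxw] at hw
    linarith
  have hμM : ∀ w ∉ closedBall (0 : ℂ) M, μ w = 0 := by
    intro w hw
    apply hμ0
    by_contra hcon
    exact hw (hsub w (not_lt.1 hcon))
  have hμs : HasCompactSupport μ := HasCompactSupport.intro (isCompact_closedBall 0 M) hμM
  have hμi : Integrable μ := hμc.integrable_of_hasCompactSupport hμs
  -- the representation
  have hrep : ∀ R, M < R → 0 < R → ∃ D : ℂ → ℂ, DifferentiableOn ℂ D (ball 0 R) ∧
      ∀ z ∈ ball (0 : ℂ) R, CT μ z + D z = - (2 * π) * u z := by
    intro R hMR hR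
    let η : ContDiffBump (0 : ℂ) := ⟨R, R + 1, hR, by linarith⟩
    set v : ℂ → ℂ := fun w => (η w : ℂ) * u w with hv
    have hvc : ContDiff ℝ 1 v := (Complex.ofRealCLM.contDiff.comp η.contDiff).mul huc
    have hvs : HasCompactSupport v := by
      refine HasCompactSupport.intro (isCompact_closedBall (0 : ℂ) (R + 1)) fun w hw => ?_
      have h1 : η w = 0 := by
        apply η.zero_of_le_dist
        rw [mem_closedBall, not_le] at hw
        exact hw.le
      simp [hv, h1]
    have hdbc : Continuous (db v) := continuous_db hvc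
    have hdbs : ∀ w ∉ closedBall (0 : ℂ) (R + 1), db v w = 0 := by
      intro w hw
      have h1 : v =ᶠ[𝓝 w] fun _ => 0 := by
        filter_upwards [isClosed_closedBall.isOpen_compl.mem_nhds hw] with w' hw'
        have h1 : η w' = 0 := by
          apply η.zero_of_le_dist
          rw [mem_compl_iff, mem_closedBall, not_le] at hw'
          exact hw'.le
        simp [hv, h1]
      rw [db_congr h1]
      simp [db]
    have hdbs' : HasCompactSupport (db v) :=
      HasCompactSupport.intro (isCompact_closedBall (0 : ℂ) (R + 1)) hdbs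
    set ν : ℂ → ℂ := fun w => db v w - μ w with hν
    have hνc : Continuous ν := hdbc.sub hμc
    have hνs : HasCompactSupport ν := hdbs'.sub hμs
    have hνi : Integrable ν := hνc.integrable_of_hasCompactSupport hνs
    have hν0 : ∀ w ∉ (ball (0 : ℂ) R)ᶜ, ν w = 0 := by
      intro w hw
      rw [mem_compl_iff, not_not] at hw
      have h1 : v =ᶠ[𝓝 w] u := by
        filter_upwards [isOpen_ball.mem_nhds hw] with w' hw'
        have h1 : η w' = 1 := η.one_of_mem_closedBall (ball_subset_closedBall hw')
        simp [hv, h1]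
      simp only [hν]
      rw [db_congr h1, sub_self]
    refine ⟨CT ν, ?_, ?_⟩
    · have := ct_diff hνi isOpen_ball.isClosed_compl hν0
      rwa [compl_compl] at this
    · intro z hz
      have h1 : CT μ z + CT ν z = CT (db v) z := by
        rw [CT, CT, CT, ← integral_add (integrable_inv_sub_mul hμc hμs z)
          (integrable_inv_sub_mul hνc hνs z)]
        refine integral_congr_ae (Eventually.of_forall fun w => ?_)
        simp only [hν]
        ring
      rw [h1, pompeiu_at hvc hvs]
      have h2 : η z = 1 := η.one_of_mem_closedBall (ball_subset_closedBall hz)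
      simp [hv, h2]
  -- the entire function
  set E : ℂ → ℂ := fun z => CT μ z + (2 * π) * u z with hE
  have hEd : Differentiable ℂ E := by
    intro z
    obtain ⟨D, hD, hDz⟩ := hrep (|M| + ‖z‖ + 1) (by
      have := le_abs_self M
      have := norm_nonneg z
      linarith) (by positivity)
    have hzb : z ∈ ball (0 : ℂ) (|M| + ‖z‖ + 1) := by
      rw [mem_ball_zero_iff]
      have := abs_nonneg M
      linarith
    have h1 : E =ᶠ[𝓝 z] fun z => - D z := by
      filter_upwards [isOpen_ball.mem_nhds hzb] with w hw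
      simp only [hE]
      linear_combination hDz w hw
    exact ((hD.differentiableAt (isOpen_ball.mem_nhds hzb)).neg).congr_of_eventuallyEq h1
  have hEt : Tendsto E (cobounded ℂ) (𝓝 0) := by
    have h1 : Tendsto (fun z => CT μ z + (2 * π) * F z) (cobounded ℂ) (𝓝 (0 + 2 * π * 0)) :=
      (ct_tendsto hμi hμM).add (hF0.const_mul _)
    rw [mul_zero, add_zero] at h1
    refine h1.congr' ?_
    have h2 : ∀ᶠ z : ℂ in cobounded ℂ, z ∉ closedBall (0 : ℂ) M := isBounded_closedBall
    filter_upwards [h2] with z hz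
    have h3 : 2 * δ / 3 ≤ infDist z K := by
      by_contra hcon
      exact hz (hsub z (not_le.1 hcon).le)
    simp only [hE, huF z h3]
  have hE0 : ∀ z, E z = 0 := by
    intro z
    apply hEd.apply_eq_of_tendsto_cocompact z
    rwa [← Metric.cobounded_eq_cocompact]
  -- the net
  obtain ⟨t, htK, htc⟩ : ∃ t : Finset ℂ, ↑t ⊆ K ∧ ∀ w, infDist w K ≤ 2 * δ / 3 →
      ∃ x ∈ t, w ∈ ball x (5 * δ / 6) := by
    obtain ⟨t, ht1, ht2, ht3⟩ := hK.finite_cover_balls (e := δ / 6) (by positivity)
    refine ⟨ht2.toFinset, by simpa using ht1, fun w hw => ?_⟩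
    obtain ⟨y, hy, hyw⟩ := hK.exists_infDist_eq_dist hne w
    have h1 := ht3 hy
    rw [mem_iUnion₂] at h1
    obtain ⟨x, hx, hxy⟩ := h1
    refine ⟨x, by simpa using hx, ?_⟩
    rw [mem_ball] at hxy ⊢
    have h2 := dist_triangle w y x
    rw [hyw] at hw
    linarith
  obtain ⟨N, hN1, hN2⟩ := split_balls (5 * δ / 6) t hμi (fun w hw => htc w (by
    by_contra hcon
    exact hw (hμ0 w (not_le.1 hcon))))
  refine ⟨t, fun x z => (-(2 * (π : ℂ))⁻¹) * CT (N x) z, htK, fun x hx => ⟨?_, ?_⟩, fun z hz => ?_⟩
  · have h1 := (ct_diff (hN1 x hx).1 isClosed_closedBall (hN1 x hx).2).const_mul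
      (-((2 * π : ℂ))⁻¹)
    exact h1.mono (compl_subset_compl.2 (closedBall_subset_closedBall (show 5 * δ / 6 ≤ δ by linarith)))
  · have h1 : ∀ w ∉ closedBall (0 : ℂ) (‖x‖ + 5 * δ / 6), N x w = 0 := by
      intro w hw
      apply (hN1 x hx).2
      intro hcon
      apply hw
      rw [mem_closedBall] at hcon ⊢
      have h2 := dist_triangle w x 0
      rw [dist_zero_right x] at h2
      linarith
    have h2 := (ct_tendsto (hN1 x hx).1 h1).const_mul (-((2 * π : ℂ))⁻¹)
    rwa [mul_zero] at h2
  · have hz1 : 2 * δ / 3 ≤ infDist z K := by linarith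
    have h1 := hE0 z
    simp only [hE, huF z hz1] at h1
    have h2 : CT μ z = ∑ x ∈ t, CT (N x) z := by
      simp only [CT]
      rw [← integral_finsetSum]
      · refine integral_congr_ae (Eventually.of_forall fun w => ?_)
        simp only [hN2 w, Finset.mul_sum]
      · intro x hx
        refine ct_integrable (hN1 x hx).1 (hN1 x hx).2 (ε := δ / 6) (by positivity) fun w hw => ?_
        have h3 : δ < dist z x := hz.trans_le (infDist_le_dist_of_mem (htK hx))
        rw [mem_closedBall] at hw
        have h4 := dist_triangle z w x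
        rw [← dist_eq_norm, dist_comm w z]
        linarith
    rw [← Finset.mul_sum, ← h2]
    have hpi : (π : ℂ) ≠ 0 := by exact_mod_cast Real.pi_ne_zero
    field_simp
    linear_combination h1

end Vale.Agent.P116.FK
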