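import Vale.Agent.P116.FK.S3

/-!
# S2: expansion at infinity
-/

open Set Metric Filter Topology Complex Bornology
open scoped ComplexConjugate Real

namespace Vale.Agent.P116.FK

theorem s2 : Spec.S2 := by
  intro x δ hδ G hG hG0
  set g : ℂ → ℂ := fun w => if w = 0 then 0 else G (x + w⁻¹) with hg
  have hδ' : 0 < δ⁻¹ := inv_pos.2 hδ
  have hnhds : ball (0 : ℂ) δ⁻¹ ∈ 𝓝 (0 : ℂ) := ball_mem_nhds _ hδ'
  have hmem : ∀ w ∈ ball (0 : ℂ) δ⁻¹, w ≠ 0 → x + w⁻¹ ∈ (closedBall x δ)ᶜ := by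
    intro w hw hw0
    rw [mem_compl_iff, mem_closedBall, dist_eq_norm, add_sub_cancel_left, norm_inv, not_le]
    rw [mem_ball_zero_iff] at hw
    exact (lt_inv_comm₀ (norm_pos_iff.2 hw0) hδ).1 hw
  have hgd : DifferentiableOn ℂ g (ball 0 δ⁻¹) := by
    rw [← Complex.differentiableOn_compl_singleton_and_continuousAt_iff hnhds]
    constructor
    · have h1 : DifferentiableOn ℂ (fun w : ℂ => G (x + w⁻¹)) (ball 0 δ⁻¹ \ {0}) := by
        apply hG.comp (t := (closedBall x δ)ᶜ)
        · intro w hw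
          exact ((differentiableAt_inv hw.2).const_add x).differentiableWithinAt
        · intro w hw
          exact hmem w hw.1 hw.2
      refine h1.congr fun w hw => ?_
      have : w ≠ 0 := hw.2
      simp [hg, this]
    · rw [continuousAt_iff_punctured_nhds]
      have h1 : Tendsto (fun w : ℂ => x + w⁻¹) (𝓝[≠] 0) (cobounded ℂ) := by
        have h2 : Tendsto (fun w : ℂ => w⁻¹) (𝓝[≠] 0) (cobounded ℂ) := tendsto_inv₀_nhdsNE_zero
        rw [← tendsto_norm_atTop_iff_cobounded] at h2 ⊢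
        have h3 : Tendsto (fun w : ℂ => ‖w⁻¹‖ - ‖x‖) (𝓝[≠] 0) atTop :=
          tendsto_atTop_add_const_right _ _ h2
        refine tendsto_atTop_mono (fun w => ?_) h3
        have := norm_sub_norm_le (w⁻¹) (-x)
        rw [norm_neg, sub_neg_eq_add, add_comm _ x] at this
        exact this
      have h4 : Tendsto g (𝓝[≠] 0) (𝓝 0) := by
        refine (hG0.comp h1).congr' ?_
        filter_upwards [self_mem_nhdsWithin] with w hw
        have : w ≠ 0 := hw
        simp [hg, this]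
      have h5 : g 0 = 0 := by simp [hg]
      rw [h5]
      exact h4
  have hg0 : g 0 = 0 := by simp [hg]
  have h1 : DifferentiableOn ℂ (dslope g 0) (ball 0 δ⁻¹) :=
    (Complex.differentiableOn_dslope hnhds).2 hgd
  have h2 : DifferentiableOn ℂ (dslope (dslope g 0) 0) (ball 0 δ⁻¹) :=
    (Complex.differentiableOn_dslope hnhds).2 h1
  obtain ⟨Q, hQ⟩ := h2.isExactOn_ball
  set a := deriv g 0 with ha
  have hq : ∀ w : ℂ, w ≠ 0 → dslope (dslope g 0) 0 w * w ^ 2 = g w - a * w := by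
    intro w hw
    rw [dslope_of_ne _ hw, slope_def_field, dslope_of_ne _ hw, slope_def_field, dslope_same, hg0]
    field_simp
    ring
  have hinv : Tendsto (fun z : ℂ => (z - x)⁻¹) (cobounded ℂ) (𝓝 0) := tendsto_sub_inv_cobounded x
  have hfar : ∀ᶠ z : ℂ in cobounded ℂ, z ≠ x := isBounded_singleton (x := x)
  have hgz : ∀ z : ℂ, z ≠ x → g (z - x)⁻¹ = G z := by
    intro z hz
    have : (z - x)⁻¹ ≠ 0 := inv_ne_zero (sub_ne_zero.2 hz)
    simp only [hg, this, if_false, inv_inv, add_sub_cancel]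
  refine ⟨a, fun z => Q 0 - Q (z - x)⁻¹, ?_, ?_, ?_⟩
  · intro z hz
    have hzx : δ < ‖z - x‖ := by
      rw [mem_closedBall, dist_eq_norm, not_le] at hz
      exact hz
    have hzx0 : z - x ≠ 0 := by
      intro h
      rw [h, norm_zero] at hzx
      linarith
    have hw : (z - x)⁻¹ ∈ ball (0 : ℂ) δ⁻¹ := by
      rw [mem_ball_zero_iff, norm_inv]
      exact inv_strictAnti₀ hδ hzx
    have h3 : HasDerivAt (fun z : ℂ => (z - x)⁻¹) (-1 / (z - x) ^ 2) z :=
      ((hasDerivAt_id z).sub_const x).inv hzx0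
    have h4 := ((hQ _ hw).comp z h3).const_sub (Q 0)
    refine h4.congr_deriv ?_
    have h5 := hq (z - x)⁻¹ (inv_ne_zero hzx0)
    rw [hgz z (sub_ne_zero.1 hzx0)] at h5
    have h6 : -(dslope (dslope g 0) 0 (z - x)⁻¹ * (-1 / (z - x) ^ 2)) =
        dslope (dslope g 0) 0 (z - x)⁻¹ * ((z - x)⁻¹) ^ 2 := by
      field_simp
    rw [h6, h5, div_eq_mul_inv]
  · have h3 : ContinuousAt Q 0 := (hQ 0 (mem_ball_self hδ')).continuousAt
    have h4 := (h3.tendsto.comp hinv).const_sub (Q 0)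
    rw [sub_self] at h4
    exact h4
  · have h3 : HasDerivAt g a 0 := (hgd.differentiableAt hnhds).hasDerivAt
    have h4 : Tendsto (fun z : ℂ => dslope g 0 (z - x)⁻¹) (cobounded ℂ) (𝓝 a) := by
      have h5 : ContinuousAt (dslope g 0) 0 := continuousAt_dslope_same.2 h3.differentiableAt
      have h6 := h5.tendsto.comp hinv
      rwa [dslope_same] at h6
    have h7 : Tendsto (fun z : ℂ => dslope g 0 (z - x)⁻¹ + x * G z) (cobounded ℂ)
        (𝓝 (a + x * 0)) := h4.add (hG0.const_mul x)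
    rw [mul_zero, add_zero] at h7
    refine h7.congr' ?_
    filter_upwards [hfar] with z hz
    have hzx0 : z - x ≠ 0 := sub_ne_zero.2 hz
    rw [dslope_of_ne _ (inv_ne_zero hzx0), slope_def_field, hg0, hgz z hz]
    field_simp
    ring

end Vale.Agent.P116.FK
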