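import Vale.Agent.P116.FK.Basic

open Set Metric Filter Topology Complex Bornology MeasureTheory
open scoped ComplexConjugate Real

namespace Vale.Agent.P116.FK

/-! ### Assembly of the finite Koebe theorem -/

/-- case of `Fin n` -/
theorem koebe_fin (hE7 : Spec.E7) (hT2 : Spec.T2) (hT3 : Spec.T3) (hZ : Spec.Z) (hLM : Spec.LM)
    {n : ℕ} {P : Fin n → Set ℂ} (hc : ∀ j, Cont (P j))
    (hd : Pairwise (Function.onFun Disjoint P)) (hU : IsConnected (⋃ j, P j)ᶜ) :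
    ∃ (f : ℂ → ℂ) (c : Fin n → ℂ) (r : Fin n → ℝ), (∀ i, 0 < r i) ∧
      Pic P (fun i => closedBall (c i) (r i)) f := by
  rcases Nat.eq_zero_or_pos n with hn | hn
  · subst hn
    refine ⟨id, fun _ => 0, fun _ => 1, fun i => i.elim0, ?_⟩
    refine ⟨fun i => i.elim0, fun i => i.elim0, differentiableOn_id, injOn_id _, ?_, ?_,
      fun i => i.elim0⟩
    · simp
    · simp
  · obtain ⟨e, R, R₀, F⟩ := hE7 hc hd hU
    have h1 := fun m => hT2 F m
    choose L f hT using h1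
    have h2 := fun (j : Fin n) (m : ℕ) => hT3 F m (hT m) j
    choose L' f' c r hr hT' hL' using h2
    obtain ⟨C, R₁, hCR⟩ := hZ F
    refine hLM hn F (fun j m => f' j m []) L' c r (fun j m => (hT' j m).pic) hr hL' (R₁ := R₁) ?_
    intro i j z hz
    have h3 : Tendsto (fun m : ℕ => C / (m : ℝ)) atTop (𝓝 0) := tendsto_const_div_atTop_nhds_zero_nat C
    refine squeeze_zero_norm' ?_ h3
    filter_upwards [eventually_ge_atTop 1] with m hm
    exact hCR m hm _ _ _ _ (hT' i m) (hT' j m) z hz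

/-- **Finite Koebe theorem** -/
theorem fk (hE7 : Spec.E7) (hT2 : Spec.T2) (hT3 : Spec.T3) (hZ : Spec.Z) (hLM : Spec.LM) :
    ∀ {ι : Type*} [Finite ι] (P : ι → Set ℂ) (_ : ∀ i, IsCompact (P i))
    (_ : ∀ i, IsConnected (P i)) (_ : ∀ i, (P i).Nontrivial)
    (_ : Pairwise (Function.onFun Disjoint P)) (_ : IsConnected (⋃ i, P i)ᶜ),
    ∃ (f : ℂ → ℂ) (c : ι → ℂ) (r : ι → ℝ), (∀ i, 0 < r i) ∧
      Pairwise (Function.onFun Disjoint fun i => closedBall (c i) (r i)) ∧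
      DifferentiableOn ℂ f (⋃ i, P i)ᶜ ∧ InjOn f (⋃ i, P i)ᶜ ∧
      f '' (⋃ i, P i)ᶜ = (⋃ i, closedBall (c i) (r i))ᶜ ∧
      Tendsto (fun z => f z - z) (cobounded ℂ) (𝓝 0) ∧
      ∀ i, ∀ ε > 0, ∃ δ > 0, ∀ z ∉ ⋃ i, P i, infDist z (P i) < δ →
        infDist (f z) (closedBall (c i) (r i)) < ε := by
  intro ι _ P hc hk hn hd hU
  obtain ⟨n, ⟨σ⟩⟩ := Finite.exists_equiv_fin ι
  have hUn : (⋃ j, P (σ.symm j)) = ⋃ i, P i := σ.symm.surjective.iUnion_comp P
  obtain ⟨f, c, r, hr, hf⟩ := koebe_fin hE7 hT2 hT3 hZ hLM (P := fun j => P (σ.symm j))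
    (fun j => ⟨hc _, hk _, hn _⟩) (fun i j hij => hd (fun h => hij (σ.symm.injective h)))
    (by rw [hUn]; exact hU)
  have hUn' : (⋃ j, closedBall (c j) (r j)) = ⋃ i, closedBall (c (σ i)) (r (σ i)) :=
    (σ.surjective.iUnion_comp (fun j => closedBall (c j) (r j))).symm
  refine ⟨f, fun i => c (σ i), fun i => r (σ i), fun i => hr _, ?_, ?_, ?_, ?_, hf.norm, ?_⟩
  · intro i j hij
    exact hf.disj (fun h => hij (σ.injective h))
  · have := hf.diff; rwa [hUn] at this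
  · have := hf.inj; rwa [hUn] at this
  · have := hf.image; rwa [hUn, hUn'] at this
  · intro i ε hε
    obtain ⟨δ, hδ, h⟩ := hf.bdry (σ i) ε hε
    refine ⟨δ, hδ, fun z hz hz' => h z (by rw [hUn]; exact hz) (by simpa using hz')⟩

end Vale.Agent.P116.FK
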