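import Vale.Agent.P116.FK.Spec

/-!
# Basic lemmas for the finite Koebe theorem
-/

open Complex MeasureTheory Metric Set Filter Topology Bornology
open scoped Real ComplexConjugate Nat

namespace Vale.Agent.P116.FK

lemma isOpen_ann (a b : ℝ) : IsOpen (ann a b) :=
  (isOpen_lt continuous_const continuous_norm).inter (isOpen_lt continuous_norm continuous_const)

section
variable {f : ℂ → ℂ}

/-- An injective holomorphic function has nonvanishing derivative. -/
theorem injOn_deriv_ne_zero {U : Set ℂ} (hU : IsOpen U) (hf1 : DifferentiableOn ℂ f U)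
    (hf2 : InjOn f U) {z₀ : ℂ} (hz : z₀ ∈ U) : deriv f z₀ ≠ 0 := by
  intro hd
  have hnhds : U ∈ 𝓝 z₀ := hU.mem_nhds hz
  have hfa : AnalyticAt ℂ f z₀ := hf1.analyticAt hnhds
  have hφ : AnalyticAt ℂ (fun z => f z - f z₀) z₀ := hfa.sub analyticAt_const
  have hnz : ¬ ∀ᶠ z in 𝓝 z₀, f z - f z₀ = 0 := by
    intro h
    have h2 : ∀ᶠ z in 𝓝[≠] z₀, f z - f z₀ = 0 ∧ z ∈ U :=
      (h.and hnhds).filter_mono nhdsWithin_le_nhds
    obtain ⟨z, ⟨h3, h4⟩, h5⟩ := (h2.and self_mem_nhdsWithin).exists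
    exact h5 (hf2 h4 hz (sub_eq_zero.mp h3))
  obtain ⟨n, g, hg, hg0, hgn⟩ := (hφ.exists_eventuallyEq_pow_smul_nonzero_iff).mpr hnz
  have hn0 : n ≠ 0 := by
    rintro rfl
    have := hgn.self_of_nhds
    simp at this
    exact hg0 this.symm
  have hn1 : n ≠ 1 := by
    rintro rfl
    have h1 : HasDerivAt (fun z => (z - z₀) ^ 1 • g z) (g z₀) z₀ := by
      have := ((hasDerivAt_id z₀).sub_const z₀).fun_mul hg.differentiableAt.hasDerivAt
      simpa using this
    have h2 : HasDerivAt (fun z => f z - f z₀) (g z₀) z₀ := h1.congr_of_eventuallyEq hgn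
    have h3 : HasDerivAt (fun z => f z - f z₀) (deriv f z₀) z₀ :=
      (hfa.differentiableAt.hasDerivAt).sub_const _
    exact hg0 ((h2.unique h3).trans hd)
  obtain ⟨c, hc⟩ := IsAlgClosed.exists_pow_nat_eq (g z₀) (Nat.pos_of_ne_zero hn0)
  have hc0 : c ≠ 0 := by
    rintro rfl
    rw [zero_pow hn0] at hc
    exact hg0 hc.symm
  set k : ℂ → ℂ := fun z => cexp (Complex.log (g z / g z₀) / n) with hk
  have hnC : (n : ℂ) ≠ 0 := by exact_mod_cast hn0
  have hkn : ∀ᶠ z in 𝓝 z₀, k z ^ n = g z / g z₀ := by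
    have : ∀ᶠ z in 𝓝 z₀, g z ≠ 0 := hg.continuousAt.eventually_ne hg0
    filter_upwards [this] with z hz
    rw [hk]
    simp only
    rw [← Complex.exp_nat_mul, mul_div_cancel₀ _ hnC, Complex.exp_log (div_ne_zero hz hg0)]
  have hk0 : k z₀ = 1 := by simp [hk, div_self hg0]
  have hkd : AnalyticAt ℂ k z₀ := by
    have h1 : AnalyticAt ℂ (fun z => g z / g z₀) z₀ := hg.div analyticAt_const hg0
    have h2 : AnalyticAt ℂ (fun z => Complex.log (g z / g z₀)) z₀ := by
      apply h1.clog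
      rw [div_self hg0]
      exact Complex.one_mem_slitPlane
    exact (h2.div analyticAt_const hnC).cexp
  set h : ℂ → ℂ := fun z => (z - z₀) * (c * k z) with hh
  have hha : AnalyticAt ℂ h z₀ := by
    exact (analyticAt_id.sub analyticAt_const).mul (analyticAt_const.mul hkd)
  have hhd : HasDerivAt h c z₀ := by
    have := ((hasDerivAt_id z₀).sub_const z₀).mul
      ((hasDerivAt_const z₀ c).mul hkd.differentiableAt.hasDerivAt)
    refine this.congr_deriv ?_
    simp [hk0]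
  have hhs : HasStrictDerivAt h c z₀ := by
    have := hha.hasStrictDerivAt
    rwa [hhd.deriv] at this
  have hmap : map h (𝓝 z₀) = 𝓝 (h z₀) := hhs.map_nhds_eq hc0
  have hh0 : h z₀ = 0 := by simp [hh]
  have hpow : ∀ᶠ z in 𝓝 z₀, f z - f z₀ = h z ^ n := by
    filter_upwards [hgn, hkn] with z h1 h2
    rw [h1, hh]
    simp only
    rw [mul_pow, mul_pow, h2, hc, smul_eq_mul]
    field_simp
  have hV : {z | f z - f z₀ = h z ^ n ∧ z ∈ U} ∈ 𝓝 z₀ := hpow.and hnhds
  have himg : h '' {z | f z - f z₀ = h z ^ n ∧ z ∈ U} ∈ 𝓝 (0 : ℂ) := by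
    have h1 := image_mem_map (m := h) hV
    rwa [hmap, hh0] at h1
  obtain ⟨ε, hε, hball⟩ := Metric.mem_nhds_iff.mp himg
  have hprim := Complex.isPrimitiveRoot_exp n hn0
  set ω := cexp (2 * π * I / n) with hω
  have hω1 : ω ≠ 1 := hprim.ne_one (by omega)
  have hωn : ω ^ n = 1 := hprim.pow_eq_one
  have hωnorm : ‖ω‖ = 1 := Complex.norm_eq_one_of_pow_eq_one hωn hn0
  set w : ℂ := ((ε / 2 : ℝ) : ℂ) with hw
  have hwn : ‖w‖ = ε / 2 := by
    rw [hw, Complex.norm_real, Real.norm_eq_abs, abs_of_pos (by positivity)]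
  have hw1 : w ∈ ball (0 : ℂ) ε := by rw [mem_ball_zero_iff, hwn]; linarith
  have hw2 : ω * w ∈ ball (0 : ℂ) ε := by
    rw [mem_ball_zero_iff, norm_mul, hωnorm, one_mul, hwn]; linarith
  obtain ⟨z1, ⟨h11, h12⟩, h13⟩ := hball hw1
  obtain ⟨z2, ⟨h21, h22⟩, h23⟩ := hball hw2
  have heq : f z1 = f z2 := by
    have : f z1 - f z₀ = f z2 - f z₀ := by
      rw [h11, h21, h13, h23, mul_pow, hωn, one_mul]
    exact sub_left_injective this
  have hz12 := hf2 h12 h22 heq
  rw [hz12, h23] at h13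
  have hw0 : w ≠ 0 := by
    intro h0
    rw [h0, norm_zero] at hwn
    linarith
  exact hω1 (mul_right_cancel₀ hw0 (by rw [h13, one_mul]))


/-- the image of an open set under an injective analytic function is open -/
theorem isOpen_image_of_injOn {U : Set ℂ} (hU : IsOpen U) (hf1 : DifferentiableOn ℂ f U)
    (hf2 : InjOn f U) : IsOpen (f '' U) := by
  rw [isOpen_iff_mem_nhds]
  rintro _ ⟨z, hz, rfl⟩
  have h1 : HasStrictDerivAt f (deriv f z) z := (hf1.analyticAt (hU.mem_nhds hz)).hasStrictDerivAt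
  rw [← h1.map_nhds_eq (injOn_deriv_ne_zero hU hf1 hf2 hz)]
  exact image_mem_map (hU.mem_nhds hz)

end

variable {n : ℕ}

lemma pc_nil (z : ℂ) : pc ([] : List (Fin n)) z = z := by simp [pc]

lemma pc_append (w : List (Fin n)) (j : Fin n) (z : ℂ) : pc (w ++ [j]) z = conj (pc w z) := by
  unfold pc
  by_cases h : Even w.length
  · have : ¬ Even (w ++ [j]).length := by
      simpa [Nat.even_add_one] using h
    rw [if_neg this, if_pos h]
  · have : Even (w ++ [j]).length := by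
      simpa [Nat.even_add_one] using h
    rw [if_pos this, if_neg h, conj_conj]

lemma pc_cons (w : List (Fin n)) (j : Fin n) (z : ℂ) : pc (j :: w) z = conj (pc w z) := by
  unfold pc
  by_cases h : Even w.length
  · have : ¬ Even (j :: w).length := by
      simpa [Nat.even_add_one] using h
    rw [if_neg this, if_pos h]
  · have : Even (j :: w).length := by
      simpa [Nat.even_add_one] using h
    rw [if_pos this, if_neg h, conj_conj]

lemma pc_pc (w : List (Fin n)) (z : ℂ) : pc w (pc w z) = z := by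
  unfold pc
  split_ifs <;> simp

lemma pc_injective (w : List (Fin n)) : Function.Injective (pc w) := fun a b h => by
  rw [← pc_pc w a, h, pc_pc]

lemma norm_pc (w : List (Fin n)) (z : ℂ) : ‖pc w z‖ = ‖z‖ := by
  unfold pc
  split_ifs <;> simp

lemma continuous_pc (w : List (Fin n)) : Continuous (pc w) := by
  unfold pc
  split_ifs
  · exact continuous_id
  · exact continuous_conj

lemma pc_sub (w : List (Fin n)) (a b : ℂ) : pc w (a - b) = pc w a - pc w b := by
  unfold pc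
  split_ifs <;> simp

variable {P L : Fin n → Set ℂ} {e : Fin n → ℂ → ℂ} {R R₀ : ℝ}

lemma Fam.collar_mem (F : Fam P e R R₀) (j : Fin n) {ζ : ℂ} (hζ : ζ ∈ ann 1 R) :
    e j ζ ∈ (⋃ i, P i)ᶜ := by
  rw [mem_compl_iff, mem_iUnion]
  rintro ⟨i, hi⟩
  by_cases hij : i = j
  · subst hij
    obtain ⟨c, r, H⟩ := F.par i
    have : e i ζ ∈ (P i)ᶜ := by
      rw [← H.image]
      exact mem_image_of_mem _ hζ.1
    exact this hi
  · have := F.collar_disj j i (fun h => hij h.symm)
    exact this.le_bot ⟨mem_image_of_mem _ hζ, Or.inl hi⟩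

lemma Fam.diff (F : Fam P e R R₀) (j : Fin n) : DifferentiableOn ℂ (e j) {ζ | 1 < ‖ζ‖} := by
  obtain ⟨c, r, H⟩ := F.par j
  exact H.diff

lemma Fam.inj (F : Fam P e R R₀) (j : Fin n) : InjOn (e j) {ζ | 1 < ‖ζ‖} := by
  obtain ⟨c, r, H⟩ := F.par j
  exact H.inj

lemma Fam.isOpen (F : Fam P e R R₀) : IsOpen (⋃ i, P i)ᶜ :=
  (isClosed_iUnion_of_finite fun i => (F.cont i).compact.isClosed).isOpen_compl

lemma Fam.far (F : Fam P e R R₀) {z : ℂ} (hz : R₀ ≤ ‖z‖) : z ∈ (⋃ i, P i)ᶜ := by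
  rw [mem_compl_iff, mem_iUnion]
  rintro ⟨i, hi⟩
  have := F.sub i hi
  rw [mem_ball_zero_iff] at this
  linarith

end Vale.Agent.P116.FK
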