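import Vale.Agent.P116.FK.Spec
import Vale.Agent.P142.AreaTheorem

/-!
# Finite Koebe theorem: omitted values and uniform bounds at infinity
-/

open Set Metric Filter Topology Complex Bornology
open scoped Real Nat

namespace Vale.Agent.P116.FK

/-- a branch of the logarithm of a function without zeros in a disc -/
theorem c_exists_log {F : ℂ → ℂ} {c : ℂ} {R : ℝ} (hF : DifferentiableOn ℂ F (ball c R))
    (hR : 0 < R) (h0 : ∀ z ∈ ball c R, F z ≠ 0) :
    ∃ h : ℂ → ℂ, h c = 0 ∧ (∀ z ∈ ball c R, HasDerivAt h (deriv F z / F z) z) ∧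
      ∀ z ∈ ball c R, F z = F c * Complex.exp (h z) := by
  have hd : DifferentiableOn ℂ (fun z => deriv F z / F z) (ball c R) :=
    (hF.deriv isOpen_ball).div hF h0
  obtain ⟨h, hc, hh⟩ := hd.isExactOn_ball.with_val_at c 0
  refine ⟨h, hc, hh, fun z hz => ?_⟩
  have key : ∀ w ∈ ball c R, HasDerivAt (fun w => F w * Complex.exp (-h w)) 0 w := by
    intro w hw
    have h1 : HasDerivAt F (deriv F w) w :=
      (hF.differentiableAt (isOpen_ball.mem_nhds hw)).hasDerivAt
    have h2 := (hh w hw).neg.cexp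
    have h3 : HasDerivAt (fun w => F w * Complex.exp (-h w)) _ w := h1.mul h2
    refine h3.congr_deriv ?_
    have := h0 w hw
    simp only [Pi.neg_apply]
    field_simp
    ring
  have hc' : c ∈ ball c R := mem_ball_self hR
  have := (convex_ball c R).is_const_of_fderivWithin_eq_zero (𝕜 := ℂ)
    (f := fun w => F w * Complex.exp (-h w))
    (fun w hw => (key w hw).differentiableAt.differentiableWithinAt)
    (fun w hw => by
      rw [fderivWithin_of_isOpen isOpen_ball hw, (key w hw).hasFDerivAt.fderiv]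
      ext; simp) hz hc'
  simp only [hc, neg_zero, Complex.exp_zero, mul_one] at this
  rw [← this, mul_assoc, ← Complex.exp_add]
  simp

/-- The function `f (1 / s) - 1 / s` extended by `0` to `s = 0`. -/
theorem c_inversion {R : ℝ} (hR : 0 < R) {f : ℂ → ℂ}
    (hf : DifferentiableOn ℂ f {z | R < ‖z‖})
    (ht : Tendsto (fun z => f z - z) (cobounded ℂ) (𝓝 0)) :
    ∃ k : ℂ → ℂ, DifferentiableOn ℂ k (ball 0 R⁻¹) ∧ k 0 = 0 ∧ ∀ s, s ≠ 0 → k s = f s⁻¹ - s⁻¹ := by
  classical
  set k : ℂ → ℂ := fun s => if s = 0 then 0 else f s⁻¹ - s⁻¹ with hk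
  have hk0 : k 0 = 0 := by simp [hk]
  have hk1 : ∀ s, s ≠ 0 → k s = f s⁻¹ - s⁻¹ := fun s hs => by simp [hk, hs]
  refine ⟨k, ?_, hk0, hk1⟩
  have hopen : IsOpen {z : ℂ | R < ‖z‖} := isOpen_lt continuous_const continuous_norm
  rw [← differentiableOn_compl_singleton_and_continuousAt_iff
    (isOpen_ball.mem_nhds (mem_ball_self (inv_pos.2 hR)))]
  constructor
  · have h1 : DifferentiableOn ℂ (fun s => f s⁻¹ - s⁻¹) (ball (0 : ℂ) R⁻¹ \ {0}) := by
      intro s hs
      have hs0 : s ≠ 0 := hs.2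
      have hs1 : R < ‖s⁻¹‖ := by
        rw [norm_inv]
        have h2 : ‖s‖ < R⁻¹ := mem_ball_zero_iff.1 hs.1
        exact (lt_inv_comm₀ (norm_pos_iff.2 hs0) hR).1 h2
      have h3 : DifferentiableAt ℂ (fun s : ℂ => s⁻¹) s := differentiableAt_inv hs0
      have h4 : DifferentiableAt ℂ f s⁻¹ := hf.differentiableAt (hopen.mem_nhds hs1)
      exact ((h4.comp s h3).sub h3).differentiableWithinAt
    exact h1.congr fun s hs => hk1 s hs.2
  · rw [← continuousWithinAt_compl_self, ContinuousWithinAt, hk0]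
    have h2 : Tendsto (fun s : ℂ => s⁻¹) (𝓝[≠] 0) (cobounded ℂ) := tendsto_inv₀_nhdsNE_zero
    refine (ht.comp h2).congr' ?_
    filter_upwards [self_mem_nhdsWithin] with s hs
    exact (hk1 s hs).symm

theorem c1 : Spec.C1 := by
  intro R hR f hf hinj ht w hw
  obtain ⟨k, hkd, hk0, hk1⟩ := c_inversion hR hf ht
  have hRC : (R : ℂ) ≠ 0 := by exact_mod_cast hR.ne'
  -- the function `u s = s (f (R / s) - w) / R`
  set u : ℂ → ℂ := fun s => 1 - s * (w / R) + s * (k (s / R) / R) with hu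
  have hmaps : ∀ s ∈ ball (0 : ℂ) 1, s / R ∈ ball (0 : ℂ) R⁻¹ := by
    intro s hs
    rw [mem_ball_zero_iff] at hs ⊢
    rw [norm_div, Complex.norm_real, Real.norm_eq_abs, abs_of_pos hR, div_eq_mul_inv]
    calc ‖s‖ * R⁻¹ < 1 * R⁻¹ := mul_lt_mul_of_pos_right hs (inv_pos.2 hR)
      _ = R⁻¹ := one_mul _
  have hkd' : DifferentiableOn ℂ (fun s : ℂ => k (s / R)) (ball 0 1) :=
    hkd.comp (by fun_prop) hmaps
  have hud : DifferentiableOn ℂ u (ball 0 1) := by
    rw [hu]
    exact ((differentiableOn_const _).sub (differentiableOn_id.mul_const _)).add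
      (differentiableOn_id.fun_mul (hkd'.div_const _))
  have hu0 : u 0 = 1 := by simp [hu]
  have hu1 : ∀ s, s ≠ 0 → u s = s * (f (R / s) - w) / R := by
    intro s hs
    have hs' : s / (R : ℂ) ≠ 0 := div_ne_zero hs hRC
    rw [hu]
    simp only
    rw [hk1 _ hs', inv_div]
    field_simp
    ring
  have hmem : ∀ s ∈ ball (0 : ℂ) 1, s ≠ 0 → R < ‖(R : ℂ) / s‖ := by
    intro s hs hs0
    rw [mem_ball_zero_iff] at hs
    rw [norm_div, Complex.norm_real, Real.norm_eq_abs, abs_of_pos hR,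
      lt_div_iff₀ (norm_pos_iff.2 hs0)]
    exact mul_lt_of_lt_one_right hR hs
  have hune : ∀ s ∈ ball (0 : ℂ) 1, u s ≠ 0 := by
    intro s hs
    by_cases hs0 : s = 0
    · rw [hs0, hu0]; exact one_ne_zero
    · rw [hu1 s hs0]
      refine div_ne_zero (mul_ne_zero hs0 (sub_ne_zero.2 fun h => hw ?_)) hRC
      exact ⟨_, hmem s hs hs0, h⟩
  have h0b : (0 : ℂ) ∈ ball (0 : ℂ) 1 := mem_ball_self one_pos
  have hud0 : deriv u 0 = -(w / R) := by
    have e1 : HasDerivAt (fun s : ℂ => k (s / R) / R) (deriv (fun s : ℂ => k (s / R) / R) 0) 0 :=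
      ((hkd'.div_const (R : ℂ)).differentiableAt (isOpen_ball.mem_nhds h0b)).hasDerivAt
    have e2 := ((hasDerivAt_const (0 : ℂ) (1 : ℂ)).sub ((hasDerivAt_id (0 : ℂ)).mul_const (w / R))).add
      ((hasDerivAt_id (0 : ℂ)).fun_mul e1)
    have e3 : HasDerivAt u _ 0 := e2
    rw [e3.deriv]
    simp [hk0]
  obtain ⟨h, hh0, hhd, hhe⟩ := c_exists_log hud one_pos hune
  rw [hu0] at hhe
  simp only [one_mul] at hhe
  have hhdiff : DifferentiableOn ℂ h (ball 0 1) := fun z hz =>
    (hhd z hz).differentiableAt.differentiableWithinAt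
  have hsq : ∀ z ∈ ball (0 : ℂ) 1, z ^ 2 ∈ ball (0 : ℂ) 1 := by
    intro z hz
    rw [mem_ball_zero_iff] at hz ⊢
    rw [norm_pow]
    exact pow_lt_one₀ (norm_nonneg _) hz two_ne_zero
  have hh2 : DifferentiableOn ℂ (fun z => h (z ^ 2)) (ball 0 1) :=
    hhdiff.comp (by fun_prop) hsq
  set v : ℂ → ℂ := fun z => Complex.exp (-(h (z ^ 2) / 2)) with hv
  have hvd : DifferentiableOn ℂ v (ball 0 1) := (hh2.div_const 2).neg.cexp
  have hv0 : v 0 = 1 := by simp [hv, hh0]
  have hvsq : ∀ z ∈ ball (0 : ℂ) 1, v z ^ 2 * u (z ^ 2) = 1 := by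
    intro z hz
    rw [hhe _ (hsq z hz), hv]
    simp only
    rw [← Complex.exp_nat_mul, ← Complex.exp_add]
    push_cast
    ring_nf
    exact Complex.exp_zero
  set F : ℂ → ℂ := fun z => z * v z with hFdef
  have hFd : DifferentiableOn ℂ F (ball 0 1) := differentiableOn_id.mul hvd
  have hF0 : F 0 = 0 := by simp [hFdef]
  have hF1 : HasDerivAt F 1 0 := by
    have e1 : HasDerivAt v (deriv v 0) 0 :=
      (hvd.differentiableAt (isOpen_ball.mem_nhds h0b)).hasDerivAt
    have e2 := (hasDerivAt_id (0 : ℂ)).fun_mul e1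
    refine e2.congr_deriv ?_
    simp [hv0]
  have hvne : ∀ z, v z ≠ 0 := fun z => Complex.exp_ne_zero _
  have hFneg : ∀ z, F (-z) = -F z := by
    intro z
    simp [hFdef, hv]
  have hFinj : InjOn F (ball 0 1) := by
    intro z1 h1 z2 h2 h12
    by_cases hz1 : z1 = 0
    · rw [hz1, hF0] at h12
      rw [hz1]
      by_contra hne
      exact mul_ne_zero (Ne.symm hne) (hvne z2) h12.symm
    have hz2 : z2 ≠ 0 := by
      rintro rfl
      rw [hF0] at h12
      exact mul_ne_zero hz1 (hvne z1) h12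
    have key : ∀ z ∈ ball (0 : ℂ) 1, z ≠ 0 → F z ^ 2 * (f (R / z ^ 2) - w) = R := by
      intro z hz hz0
      have e1 := hvsq z hz
      rw [hu1 _ (pow_ne_zero 2 hz0)] at e1
      rw [hFdef]
      simp only
      generalize f (R / z ^ 2) - w = A at e1 ⊢
      rw [← mul_div_assoc, div_eq_iff hRC, one_mul] at e1
      linear_combination e1
    have k1 := key z1 h1 hz1
    have k2 := key z2 h2 hz2
    have hFz : F z1 ^ 2 ≠ 0 := pow_ne_zero 2 (mul_ne_zero hz1 (hvne z1))
    rw [← h12] at k2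
    have k3 : f (R / z2 ^ 2) = f (R / z1 ^ 2) := by
      have := mul_left_cancel₀ hFz (k2.trans k1.symm)
      exact sub_left_injective this
    have k4 := hinj (hmem _ (hsq z2 h2) (pow_ne_zero 2 hz2)) (hmem _ (hsq z1 h1) (pow_ne_zero 2 hz1)) k3
    have k5 : z1 ^ 2 = z2 ^ 2 := by
      field_simp at k4
      exact k4
    rcases sq_eq_sq_iff_eq_or_eq_neg.1 k5 with h | h
    · exact h
    · exfalso
      rw [h, hFneg] at h12
      have : F z2 = 0 := by
        have := congrArg (· + F z2) h12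
        simp only [neg_add_cancel] at this
        have h3 : (2 : ℂ) * F z2 = 0 := by rw [two_mul]; exact this.symm
        exact (mul_eq_zero.1 h3).resolve_left two_ne_zero
      exact mul_ne_zero hz2 (hvne z2) this
  have harea := Vale.Agent.P142.area_theorem hFd hFinj hF0 hF1.deriv 1
  simp only [Finset.range_one, Finset.sum_singleton, Nat.cast_zero, zero_add, one_mul] at harea
  -- the Taylor coefficient
  have hRf : Vale.Agent.P142.Rfun F = fun z => Complex.exp (h (z ^ 2) / 2) := by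
    funext z
    unfold Vale.Agent.P142.Rfun
    by_cases hz : z = 0
    · rw [hz, dslope_same, hF1.deriv]
      simp [hh0]
    · rw [dslope_of_ne _ hz, slope_def_field, hF0, sub_zero, sub_zero, hFdef]
      simp only
      rw [mul_div_cancel_left₀ _ hz, hv]
      simp only
      rw [← Complex.exp_neg, neg_neg]
  have hderiv : ∀ z ∈ ball (0 : ℂ) 1, HasDerivAt (fun z => Complex.exp (h (z ^ 2) / 2))
      (z * (Complex.exp (h (z ^ 2) / 2) * (deriv u (z ^ 2) / u (z ^ 2)))) z := by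
    intro z hz
    have e1 := (hhd _ (hsq z hz)).comp z (hasDerivAt_pow 2 z)
    have e2 := (e1.div_const 2).cexp
    refine e2.congr_deriv ?_
    simp only [Function.comp]
    push_cast
    ring
  have htc : Vale.Agent.P142.tc (Vale.Agent.P142.Rfun F) 2 = -(w / (2 * R)) := by
    rw [hRf]
    unfold Vale.Agent.P142.tc
    rw [iteratedDeriv_succ, iteratedDeriv_one]
    have e1 : deriv (fun z => Complex.exp (h (z ^ 2) / 2)) =ᶠ[𝓝 0]
        fun z => z * (Complex.exp (h (z ^ 2) / 2) * (deriv u (z ^ 2) / u (z ^ 2))) := by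
      filter_upwards [isOpen_ball.mem_nhds h0b] with z hz
      exact (hderiv z hz).deriv
    rw [e1.deriv_eq]
    have e2 : DifferentiableOn ℂ
        (fun z => Complex.exp (h (z ^ 2) / 2) * (deriv u (z ^ 2) / u (z ^ 2))) (ball 0 1) := by
      refine (hh2.div_const 2).cexp.mul (DifferentiableOn.div ?_ ?_ ?_)
      · exact (hud.deriv isOpen_ball).comp (by fun_prop) hsq
      · exact hud.comp (by fun_prop) hsq
      · exact fun z hz => hune _ (hsq z hz)
    have e3 := (hasDerivAt_id (0 : ℂ)).fun_mul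
      (e2.differentiableAt (isOpen_ball.mem_nhds h0b)).hasDerivAt
    simp only [id] at e3
    rw [e3.deriv]
    simp only [ne_eq, OfNat.ofNat_ne_zero, not_false_eq_true, zero_pow, hh0, zero_div,
      Complex.exp_zero, one_mul, hud0, hu0, div_one, zero_mul, add_zero, Nat.factorial_two]
    push_cast
    field_simp
  rw [htc, norm_neg, norm_div, norm_mul, Complex.norm_real, Real.norm_eq_abs, abs_of_pos hR,
    Complex.norm_ofNat] at harea
  have h3 : ‖w‖ / (2 * R) ≤ 1 := by
    have : (0 : ℝ) ≤ ‖w‖ / (2 * R) := by positivity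
    nlinarith
  rwa [div_le_one (by positivity)] at h3

theorem c2 : Spec.C2 := by
  intro R hR f hf hinj ht z hz
  obtain ⟨k, hkd, hk0, hk1⟩ := c_inversion hR hf ht
  have h2R : (0 : ℝ) < (2 * R)⁻¹ := by positivity
  have hlt : (2 * R)⁻¹ < R⁻¹ := by
    rw [inv_lt_inv₀ (by positivity) hR]
    linarith
  have hopen : IsOpen (ball (0 : ℂ) R⁻¹) := isOpen_ball
  have h0b : (0 : ℂ) ∈ ball (0 : ℂ) R⁻¹ := mem_ball_self (inv_pos.2 hR)
  have hκ : DifferentiableOn ℂ (dslope k 0) (ball 0 R⁻¹) :=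
    (Complex.differentiableOn_dslope (hopen.mem_nhds h0b)).mpr hkd
  have hb : ∀ s ∈ frontier (ball (0 : ℂ) (2 * R)⁻¹), ‖dslope k 0 s‖ ≤ 12 * R ^ 2 := by
    intro s hs
    rw [frontier_ball _ h2R.ne'] at hs
    have hs1 : ‖s‖ = (2 * R)⁻¹ := mem_sphere_zero_iff_norm.1 hs
    have hs0 : s ≠ 0 := by
      rintro rfl
      rw [norm_zero] at hs1
      exact h2R.ne hs1
    have hs2 : ‖s⁻¹‖ = 2 * R := by rw [norm_inv, hs1, inv_inv]
    have hom : f s⁻¹ ∉ f '' {z | 2 * R < ‖z‖} := by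
      rintro ⟨y, hy, hye⟩
      have h1 : R < ‖y‖ := by
        have : 2 * R < ‖y‖ := hy
        linarith
      have h2 : R < ‖s⁻¹‖ := by rw [hs2]; linarith
      have h3 := hinj h1 h2 hye
      have h4 : 2 * R < ‖y‖ := hy
      rw [h3, hs2] at h4
      exact lt_irrefl _ h4
    have hsub : {z : ℂ | 2 * R < ‖z‖} ⊆ {z | R < ‖z‖} := fun y hy => by
      have : 2 * R < ‖y‖ := hy
      show R < ‖y‖
      linarith
    have h5 := c1 (R := 2 * R) (by positivity) (hf.mono hsub) (hinj.mono hsub) ht hom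
    rw [dslope_of_ne _ hs0, slope_def_field, hk0, sub_zero, sub_zero, hk1 s hs0, norm_div, hs1]
    have h6 : ‖f s⁻¹ - s⁻¹‖ ≤ 6 * R := by
      refine (norm_sub_le _ _).trans ?_
      rw [hs2]
      linarith
    rw [div_inv_eq_mul]
    nlinarith
  have hdc : DiffContOnCl ℂ (dslope k 0) (ball (0 : ℂ) (2 * R)⁻¹) :=
    (hκ.mono (closedBall_subset_ball hlt)).diffContOnCl_ball subset_rfl
  have hz0 : z ≠ 0 := by
    rintro rfl
    rw [norm_zero] at hz
    linarith
  have hzpos : 0 < ‖z‖ := norm_pos_iff.2 hz0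
  have hmem : z⁻¹ ∈ closure (ball (0 : ℂ) (2 * R)⁻¹) := by
    rw [closure_ball _ h2R.ne', mem_closedBall_zero_iff, norm_inv]
    exact inv_anti₀ (by positivity) hz
  have hmax := Complex.norm_le_of_forall_mem_frontier_norm_le isBounded_ball hdc hb hmem
  have hzi : z⁻¹ ≠ 0 := inv_ne_zero hz0
  rw [dslope_of_ne _ hzi, slope_def_field, hk0, sub_zero, sub_zero, hk1 _ hzi, inv_inv, norm_div,
    norm_inv, div_inv_eq_mul] at hmax
  rw [le_div_iff₀ hzpos]
  nlinarith [sq_nonneg R]

end Vale.Agent.P116.FK
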