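import Mathlib

/-!
# Local compactness (Montel by ultrafilters) and Hurwitz
(copied from `Vale.Agent.P071.Bdl.B11`)
-/

open Function Filter Metric Set Topology Complex
open scoped Pointwise ComplexConjugate

namespace Vale.Agent.P116.FK

/-! ### Compactness and Hurwitz -/

theorem lip_bound {U : Set ℂ} {f : ℂ → ℂ} (hd : DifferentiableOn ℂ f U)
    (hb : ∀ z ∈ U, ‖f z‖ ≤ 1) {z₀ : ℂ} {r : ℝ} (hr : 0 < r) (hball : ball z₀ (2 * r) ⊆ U)
    {y z : ℂ} (hy : y ∈ ball z₀ (r / 2)) (hz : z ∈ ball z₀ (r / 2)) :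
    dist (f z) (f y) ≤ 2 / r * dist z y := by
  have hyU : ball y r ⊆ U := by
    refine (ball_subset_ball' ?_).trans hball
    rw [mem_ball] at hy
    linarith only [hr, hy]
  refine Complex.dist_le_div_mul_dist_of_mapsTo_ball (hd.mono hyU) ?_ ?_
  · intro x hx
    rw [mem_closedBall, dist_eq_norm]
    have h1 := hb x (hyU hx)
    have h2 := hb y (hyU (mem_ball_self hr))
    have := norm_sub_le (f x) (f y)
    linarith only [h1, h2, this]
  · rw [mem_ball] at *
    have := dist_triangle_right z y z₀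
    linarith

theorem exists_limit {U : Set ℂ} (hU : IsOpen U) (𝒰 : Ultrafilter ℕ) (f : ℕ → ℂ → ℂ)
    (hd : ∀ n, DifferentiableOn ℂ (f n) U) (hb : ∀ n, ∀ z ∈ U, ‖f n z‖ ≤ 1) :
    ∃ g : ℂ → ℂ, TendstoLocallyUniformlyOn f g (𝒰 : Filter ℕ) U := by
  have hlim : ∀ z : ℂ, ∃ w : ℂ, z ∈ U → Tendsto (fun n => f n z) 𝒰 (𝓝 w) := by
    intro z
    by_cases hz : z ∈ U
    · obtain ⟨w, -, hw⟩ := (isCompact_closedBall (0 : ℂ) 1).ultrafilter_le_nhds
        (𝒰.map (fun n => f n z)) (by
          rw [le_principal_iff, Ultrafilter.coe_map, Filter.mem_map]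
          exact Filter.Eventually.of_forall (p := fun n => f n z ∈ closedBall (0 : ℂ) 1)
            (fun n => by simpa only [mem_closedBall, dist_zero_right] using hb n z hz))
      exact ⟨w, fun _ => hw⟩
    · exact ⟨0, fun h => absurd h hz⟩
  choose g hg using hlim
  refine ⟨g, ?_⟩
  rw [Metric.tendstoLocallyUniformlyOn_iff]
  intro ε hε z₀ hz₀
  obtain ⟨r0, hr0, hball0⟩ := Metric.isOpen_iff.1 hU z₀ hz₀
  set r := r0 / 2 with hrdef
  have hr : 0 < r := by (clear * - hr0; positivity)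
  have hball : ball z₀ (2 * r) ⊆ U := by
    have : 2 * r = r0 := by rw [hrdef]; ring
    rw [this]; exact hball0
  have hhalf : ball z₀ (r / 2) ⊆ U := (ball_subset_ball (by linarith only [hr])).trans hball
  have hlipg : ∀ y ∈ ball z₀ (r / 2), ∀ z ∈ ball z₀ (r / 2),
      dist (g z) (g y) ≤ 2 / r * dist z y := by
    intro y hy z hz
    refine le_of_tendsto ((hg z (hhalf hz)).dist (hg y (hhalf hy))) ?_
    exact Filter.Eventually.of_forall fun n => lip_bound (hd n) (hb n) hr hball hy hz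
  refine ⟨closedBall z₀ (r / 4), mem_nhdsWithin_of_mem_nhds (closedBall_mem_nhds _ (by positivity)),
    ?_⟩
  have hsub : closedBall z₀ (r / 4) ⊆ ball z₀ (r / 2) := closedBall_subset_ball (by linarith only [hr])
  obtain ⟨t, ht, htf, htc⟩ := (isCompact_closedBall z₀ (r / 4)).finite_cover_balls
    (show 0 < ε * r / 8 by (clear * - hε hr0; positivity))
  have hev : ∀ᶠ n in (𝒰 : Filter ℕ), ∀ x ∈ t, dist (f n x) (g x) < ε / 4 := by
    rw [Filter.eventually_all_finite htf]
    intro x hx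
    have hxU : x ∈ U := hhalf (hsub (ht hx))
    exact (hg x hxU).eventually (ball_mem_nhds _ (by positivity))
  filter_upwards [hev] with n hn z hz
  obtain ⟨x, hx, hzx⟩ := mem_iUnion₂.1 (htc hz)
  have h1 := lip_bound (hd n) (hb n) hr hball (hsub (ht hx)) (hsub hz)
  have h2 := hlipg x (hsub (ht hx)) z (hsub hz)
  have h3 := hn x hx
  rw [mem_ball] at hzx
  have h4 : 2 / r * dist z x ≤ ε / 4 := by
    calc 2 / r * dist z x ≤ 2 / r * (ε * r / 8) := by (clear * - hzx hr0; gcongr)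
      _ = ε / 4 := by field_simp; ring
  calc dist (g z) (f n z) ≤ dist (g z) (g x) + dist (g x) (f n x) + dist (f n x) (f n z) :=
        dist_triangle4 _ _ _ _
    _ < ε := by
        rw [dist_comm (g x), dist_comm (f n x) (f n z)]
        linarith only [hε, h1, h2, h3, h4]

theorem hurwitz {U : Set ℂ} (hU : IsOpen U) {ι : Type*} {l : Filter ι} [l.NeBot]
    {F : ι → ℂ → ℂ} {g : ℂ → ℂ} (hF : TendstoLocallyUniformlyOn F g l U)
    (hd : ∀ᶠ n in l, DifferentiableOn ℂ (F n) U) {b : ℂ} (hb : b ∈ U)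
    (h0 : ∀ᶠ n in l, ∀ z ∈ U, F n z ≠ 0) (hg : ¬ ∀ᶠ z in 𝓝 b, g z = 0) : g b ≠ 0 := by
  intro hgb
  have hgd : DifferentiableOn ℂ g U := hF.differentiableOn hd hU
  have hga : AnalyticAt ℂ g b := (hgd.analyticOnNhd hU) b hb
  have hne : ∀ᶠ z in 𝓝[≠] b, g z ≠ 0 :=
    (hga.eventually_eq_zero_or_eventually_ne_zero).resolve_left hg
  rw [eventually_nhdsWithin_iff] at hne
  obtain ⟨ρ0, hρ0, hρ⟩ := Metric.eventually_nhds_iff_ball.1 (hne.and (hU.mem_nhds hb))
  set ρ := ρ0 / 2 with hρdef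
  have hρpos : 0 < ρ := by (clear * - hρ0; positivity)
  have hcl : closedBall b ρ ⊆ ball b ρ0 := closedBall_subset_ball (by linarith)
  have hclU : closedBall b ρ ⊆ U := fun z hz => (hρ z (hcl hz)).2
  have hsphere : ∀ z ∈ sphere b ρ, g z ≠ 0 := by
    intro z hz
    refine (hρ z (hcl (sphere_subset_closedBall hz))).1 ?_
    intro h
    rw [mem_singleton_iff] at h
    rw [h, mem_sphere, dist_self] at hz
    linarith only [hρpos, hz]
  have hcomp : IsCompact (sphere b ρ) := isCompact_sphere _ _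
  have hnon : (sphere b ρ).Nonempty := NormedSpace.sphere_nonempty.2 hρpos.le
  have hcont : ContinuousOn (fun z => ‖g z‖) (sphere b ρ) :=
    (hgd.continuousOn.mono (sphere_subset_closedBall.trans hclU)).norm
  obtain ⟨z1, hz1, hmin⟩ := hcomp.exists_isMinOn hnon hcont
  set m := ‖g z1‖ with hm
  have hmpos : 0 < m := norm_pos_iff.2 (hsphere z1 hz1)
  have hunif : ∀ᶠ n in l, ∀ z ∈ closedBall b ρ, dist (g z) (F n z) < m / 2 := by
    have h1 := (tendstoLocallyUniformlyOn_iff_forall_isCompact hU).1 hF (closedBall b ρ) hclU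
      (isCompact_closedBall b ρ)
    exact Metric.tendstoUniformlyOn_iff.1 h1 (m / 2) (by (clear * - hmpos; positivity))
  obtain ⟨n, hn1, hn2, hn3⟩ := (hunif.and (hd.and h0)).exists
  have hinv : DiffContOnCl ℂ (fun z => (F n z)⁻¹) (ball b ρ) := by
    refine DifferentiableOn.diffContOnCl ?_
    rw [closure_ball _ hρpos.ne']
    exact (hn2.mono hclU).inv fun z hz => hn3 z (hclU hz)
  have hbd := Complex.norm_le_of_forall_mem_frontier_norm_le isBounded_ball hinv (C := 2 / m) (by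
    intro z hz
    rw [frontier_ball _ hρpos.ne'] at hz
    have h1 := hn1 z (sphere_subset_closedBall hz)
    have h2 : m ≤ ‖g z‖ := hmin hz
    have h3 : ‖g z‖ ≤ ‖F n z‖ + dist (g z) (F n z) := by
      rw [dist_eq_norm]
      have := norm_add_le (F n z) (g z - F n z)
      simpa only [ge_iff_le, add_sub_cancel] using this
    have h4 : m / 2 ≤ ‖F n z‖ := by linarith only [h1, h2, h3]
    rw [norm_inv, inv_eq_one_div, div_le_div_iff₀ (by linarith only [hmpos, h1, h2, h3]) hmpos]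
    linarith only [h1, h2, h3]) (subset_closure (mem_ball_self hρpos))
  have h5 := hn1 b (mem_closedBall_self hρpos.le)
  rw [hgb, dist_zero_left] at h5
  rw [norm_inv, inv_eq_one_div, div_le_div_iff₀
    (norm_pos_iff.2 (hn3 b hb)) hmpos] at hbd
  linarith only [hbd, h5]

end Vale.Agent.P116.FK
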