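import Mathlib

/-!
# Finite Koebe theorem: definitions
-/

open Set Metric Filter Topology Complex Bornology
open scoped ComplexConjugate Real

namespace Vale.Agent.P116.FK

/-- nondegenerate compact connected set -/
structure Cont (K : Set ℂ) : Prop where
  compact : IsCompact K
  conn : IsConnected K
  nontriv : K.Nontrivial

/-- `h` is the exterior Riemann map of `K`, onto the complement of `closedBall c r`. -/
structure Ext (K : Set ℂ) (h : ℂ → ℂ) (c : ℂ) (r : ℝ) : Prop where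
  pos : 0 < r
  diff : DifferentiableOn ℂ h Kᶜ
  inj : InjOn h Kᶜ
  image : h '' Kᶜ = (closedBall c r)ᶜ
  norm : Tendsto (fun z => h z - z) (cobounded ℂ) (𝓝 0)

/-- `e` parametrizes the complement of `K` by `|ζ| > 1`. -/
structure Par (K : Set ℂ) (e : ℂ → ℂ) (c : ℂ) (r : ℝ) : Prop where
  pos : 0 < r
  diff : DifferentiableOn ℂ e {ζ | 1 < ‖ζ‖}
  inj : InjOn e {ζ | 1 < ‖ζ‖}
  image : e '' {ζ | 1 < ‖ζ‖} = Kᶜ
  norm : Tendsto (fun ζ => e ζ - (c + r * ζ)) (cobounded ℂ) (𝓝 0)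

/-- open annulus around `0` -/
def ann (a b : ℝ) : Set ℂ := {ζ | a < ‖ζ‖ ∧ ‖ζ‖ < b}

/-- the data of the family: continua `P j`, exterior parametrizations `e j`,
collars `e j (1 < |ζ| < R)`, everything inside `ball 0 R₀`. -/
structure Fam {n : ℕ} (P : Fin n → Set ℂ) (e : Fin n → ℂ → ℂ) (R R₀ : ℝ) : Prop where
  hR : 1 < R
  cont : ∀ j, Cont (P j)
  disj : Pairwise (Function.onFun Disjoint P)
  conn : IsConnected (⋃ j, P j)ᶜ
  par : ∀ j, ∃ c r, Par (P j) (e j) c r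
  sub : ∀ j, P j ⊆ ball 0 R₀
  collar_sub : ∀ j, e j '' ann 1 R ⊆ ball 0 R₀
  collar_disj : ∀ i j, i ≠ j → Disjoint (e i '' ann 1 R) (P j ∪ e j '' ann 1 R)

/-- `f` maps the complement of the `P j` onto the complement of the `L j`. -/
structure Pic {n : ℕ} (P L : Fin n → Set ℂ) (f : ℂ → ℂ) : Prop where
  cont : ∀ j, Cont (L j)
  disj : Pairwise (Function.onFun Disjoint L)
  diff : DifferentiableOn ℂ f (⋃ j, P j)ᶜ
  inj : InjOn f (⋃ j, P j)ᶜ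
  image : f '' (⋃ j, P j)ᶜ = (⋃ j, L j)ᶜ
  norm : Tendsto (fun z => f z - z) (cobounded ℂ) (𝓝 0)
  bdry : ∀ j, ∀ ε > 0, ∃ δ > 0, ∀ z ∉ ⋃ j, P j, infDist z (P j) < δ → infDist (f z) (L j) < ε

/-- `conj` if the word `w` is odd, the identity if it is even -/
noncomputable def pc {n : ℕ} (w : List (Fin n)) (z : ℂ) : ℂ := if Even w.length then z else conj z

/-- Tower over the set `W` of reduced words. The map `f w` is analytic for even `w`,
antianalytic for odd `w`; `pc w ∘ f w` is analytic. -/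
structure Tower {n : ℕ} (P L : Fin n → Set ℂ) (e : Fin n → ℂ → ℂ) (R : ℝ)
    (W : Set (List (Fin n))) (f : List (Fin n) → ℂ → ℂ) : Prop where
  pic : Pic P L (f [])
  diff : ∀ w ∈ W, DifferentiableOn ℂ (fun z => pc w (f w z)) (⋃ j, P j)ᶜ
  inj : ∀ w ∈ W, InjOn (f w) (⋃ j, P j)ᶜ
  disj : ∀ w ∈ W, ∀ w' ∈ W, w ≠ w' → Disjoint (f w '' (⋃ j, P j)ᶜ) (f w' '' (⋃ j, P j)ᶜ)
  sub : ∀ i w, i :: w ∈ W → f (i :: w) '' (⋃ j, P j)ᶜ ⊆ L i
  glue : ∀ w j, w ∈ W → w ++ [j] ∈ W → ∃ ψ : ℂ → ℂ,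
    DifferentiableOn ℂ (fun ζ => pc w (ψ ζ)) (ann R⁻¹ R) ∧
    (∀ ζ ∈ ann 1 R, ψ ζ = f w (e j ζ)) ∧
    (∀ ζ ∈ ann R⁻¹ 1, ψ ζ = f (w ++ [j]) (e j (conj ζ)⁻¹))

/-- reduced words of length `≤ m`, and those of length `m + 1` with first letter `< k` -/
def Wd (n m k : ℕ) : Set (List (Fin n)) :=
  {w | w.IsChain (· ≠ ·) ∧ (w.length ≤ m ∨ (w.length = m + 1 ∧ ∃ i w', w = i :: w' ∧ i.val < k))}

/-- the words after the step `j` -/
def stepW {n : ℕ} (j : Fin n) (W : Set (List (Fin n))) : Set (List (Fin n)) :=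
  {w | (w ∈ W ∧ w.head? ≠ some j) ∨ ∃ w', w = j :: w' ∧ w' ∈ W ∧ w'.head? ≠ some j}

/-- flux of the 1-form `G dz` through the collar circle `e (|ζ| = ρ)` -/
noncomputable def flux (e : ℂ → ℂ) (ρ : ℝ) (G : ℂ → ℂ) : ℂ :=
  ∮ ζ in C(0, ρ), G (e ζ) * deriv e ζ

end Vale.Agent.P116.FK
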