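import Vale.Agent.P116.FK.Spec

/-!
# Topology: the complement of a disc is connected
-/

open Set Metric Filter Topology Complex Bornology
open scoped ComplexConjugate Real

namespace Vale.Agent.P116.FK

theorem isConnected_ann_aux {S : Set ℝ} (hS : IsConnected S) (h0 : ∀ x ∈ S, 0 ≤ x) :
    IsConnected {z : ℂ | ‖z‖ ∈ S} := by
  have h1 : {z : ℂ | ‖z‖ ∈ S} =
      (fun p : ℝ × ℝ => (p.1 : ℂ) * Complex.exp (p.2 * I)) '' (S ×ˢ univ) := by
    ext z
    constructor
    · intro hz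
      exact ⟨(‖z‖, arg z), ⟨hz, trivial⟩, Complex.norm_mul_exp_arg_mul_I z⟩
    · rintro ⟨⟨r, θ⟩, ⟨hr, -⟩, rfl⟩
      have h2 : ‖(r : ℂ) * Complex.exp (θ * I)‖ = r := by
        rw [norm_mul, Complex.norm_exp_ofReal_mul_I, mul_one, Complex.norm_real, Real.norm_eq_abs,
          abs_of_nonneg (h0 r hr)]
      simp only [mem_ofPred_eq, h2]
      exact hr
  rw [h1]
  exact (hS.prod isConnected_univ).image _ (by fun_prop)

theorem isConnected_far {M : ℝ} (hM : 0 ≤ M) : IsConnected {z : ℂ | M < ‖z‖} :=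
  isConnected_ann_aux (S := Ioi M) isConnected_Ioi fun _ hx => hM.trans (le_of_lt hx)

theorem isConnected_ann {a b : ℝ} (ha : 0 ≤ a) (hab : a < b) : IsConnected (ann a b) :=
  isConnected_ann_aux (S := Ioo a b) (isConnected_Ioo hab) fun _ hx => ha.trans (le_of_lt hx.1)

theorem far_mem_cobounded (M : ℝ) : {z : ℂ | M < ‖z‖} ∈ cobounded ℂ :=
  tendsto_norm_cobounded_atTop.eventually (eventually_gt_atTop M)

/-- two primitives which vanish at infinity agree -/
theorem prim_unique {V : Set ℂ} (hV : IsOpen V) (hVc : IsPreconnected V)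
    (hVb : V ∈ cobounded ℂ) {F Φ Ψ : ℂ → ℂ} (h1 : ∀ z ∈ V, HasDerivAt Φ (F z) z)
    (h2 : ∀ z ∈ V, HasDerivAt Ψ (F z) z) (h3 : Tendsto Φ (cobounded ℂ) (𝓝 0))
    (h4 : Tendsto Ψ (cobounded ℂ) (𝓝 0)) : EqOn Φ Ψ V := by
  have h5 : ∀ z ∈ V, HasDerivAt (fun z => Φ z - Ψ z) 0 z := by
    intro z hz
    have := (h1 z hz).fun_sub (h2 z hz)
    rwa [sub_self] at this
  obtain ⟨a, ha⟩ := hV.exists_is_const_of_deriv_eq_zero hVc
    (fun z hz => (h5 z hz).differentiableAt.differentiableWithinAt) (fun z hz => (h5 z hz).deriv)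
  have h6 : Tendsto (fun z => Φ z - Ψ z) (cobounded ℂ) (𝓝 (0 - 0)) := h3.sub h4
  have h7 : Tendsto (fun z => Φ z - Ψ z) (cobounded ℂ) (𝓝 a) := by
    refine tendsto_const_nhds.congr' ?_
    filter_upwards [hVb] with z hz
    exact (ha z hz).symm
  have h8 := tendsto_nhds_unique h6 h7
  intro z hz
  have := ha z hz
  rw [← h8, sub_zero, sub_eq_zero] at this
  exact this

end Vale.Agent.P116.FK
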