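import Vale.Agent.P116.FK.RF
import Vale.Agent.P116.FK.E
import Vale.Agent.P116.FK.Compact
import Vale.Agent.P116.FK.Top

/-!
# The limit of the step maps
-/

open Set Metric Filter Topology Complex Bornology
open scoped ComplexConjugate Real

namespace Vale.Agent.P116.FK.LM

open Vale.Agent.P116.FK

/-! ### Limits along an ultrafilter -/

theorem lim_bdd (𝒰 : Ultrafilter ℕ) {a : ℕ → ℂ} {B : ℝ} (h : ∀ m, ‖a m‖ ≤ B) :
    ∃ l, Tendsto a 𝒰 (𝓝 l) := by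
  obtain ⟨w, -, hw⟩ := (isCompact_closedBall (0 : ℂ) B).ultrafilter_le_nhds (𝒰.map a) (by
    rw [le_principal_iff, Ultrafilter.coe_map, Filter.mem_map]
    exact Filter.Eventually.of_forall (p := fun n => a n ∈ closedBall (0 : ℂ) B)
      (fun n => by simpa only [mem_closedBall, dist_zero_right] using h n))
  exact ⟨w, hw⟩

theorem lim_fun (𝒰 : Ultrafilter ℕ) {U : Set ℂ} (hU : IsOpen U) {g : ℕ → ℂ → ℂ}
    (hd : ∀ n, DifferentiableOn ℂ (g n) U) {B : ℝ} (hB : 0 < B)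
    (hb : ∀ n, ∀ z ∈ U, ‖g n z‖ ≤ B) : ∃ G, TendstoLocallyUniformlyOn g G (𝒰 : Filter ℕ) U := by
  have hBc : (B : ℂ) ≠ 0 := by exact_mod_cast hB.ne'
  obtain ⟨G, hG⟩ := exists_limit hU 𝒰 (fun n z => (B : ℂ)⁻¹ * g n z)
    (fun n => (hd n).const_mul _) (fun n z hz => by
      rw [norm_mul, norm_inv, Complex.norm_real, Real.norm_eq_abs, abs_of_pos hB,
        inv_mul_le_iff₀ hB, mul_one]
      exact hb n z hz)
  refine ⟨fun z => B * G z, ?_⟩
  rw [Metric.tendstoLocallyUniformlyOn_iff] at hG ⊢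
  intro ε hε x hx
  obtain ⟨t, ht, h⟩ := hG (ε / B) (by positivity) x hx
  refine ⟨t, ht, h.mono fun n hn y hy => ?_⟩
  have h1 := hn y hy
  rw [dist_eq_norm] at h1 ⊢
  have e : (B : ℂ) * G y - g n y = B * (G y - (B : ℂ)⁻¹ * g n y) := by
    rw [mul_sub, mul_inv_cancel_left₀ hBc]
  rw [e, norm_mul, Complex.norm_real, Real.norm_eq_abs, abs_of_pos hB]
  calc B * ‖G y - (B : ℂ)⁻¹ * g n y‖ < B * (ε / B) := by gcongr
    _ = ε := by field_simp

theorem lim_Ω (𝒰 : Ultrafilter ℕ) {Ω : Set ℂ} (hΩ : IsOpen Ω) {g : ℕ → ℂ → ℂ}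
    (hd : ∀ n, DifferentiableOn ℂ (g n) Ω) {β : ℝ → ℝ} (hβ : ∀ x, 0 < β x)
    (hb : ∀ n, ∀ z ∈ Ω, ∀ M, ‖z‖ ≤ M → ‖g n z‖ ≤ β M) :
    ∃ G, TendstoLocallyUniformlyOn g G (𝒰 : Filter ℕ) Ω := by
  have hex : ∀ M : ℝ, ∃ G, TendstoLocallyUniformlyOn g G (𝒰 : Filter ℕ) (Ω ∩ ball 0 M) := fun M =>
    lim_fun 𝒰 (hΩ.inter isOpen_ball) (fun n => (hd n).mono inter_subset_left) (hβ M)
      (fun n z hz => hb n z hz.1 M (mem_ball_zero_iff.1 hz.2).le)
  choose G hG using hex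
  refine ⟨fun z => G (‖z‖ + 1) z, ?_⟩
  have heq : ∀ M, ∀ z ∈ Ω ∩ ball 0 M, G (‖z‖ + 1) z = G M z := by
    intro M z hz
    have h1 := (hG M).tendsto_at hz
    have h2 := (hG (‖z‖ + 1)).tendsto_at (⟨hz.1, by rw [mem_ball_zero_iff]; linarith⟩ :
      z ∈ Ω ∩ ball 0 (‖z‖ + 1))
    exact tendsto_nhds_unique h2 h1
  rw [Metric.tendstoLocallyUniformlyOn_iff]
  intro ε hε x hx
  have hxM : x ∈ Ω ∩ ball 0 (‖x‖ + 1) := ⟨hx, by rw [mem_ball_zero_iff]; linarith⟩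
  obtain ⟨t, ht, h⟩ := Metric.tendstoLocallyUniformlyOn_iff.1 (hG (‖x‖ + 1)) ε hε x hxM
  have hopen : Ω ∩ ball (0 : ℂ) (‖x‖ + 1) ∈ 𝓝 x := (hΩ.inter isOpen_ball).mem_nhds hxM
  refine ⟨t ∩ (Ω ∩ ball 0 (‖x‖ + 1)), ?_, h.mono fun n hn y hy => ?_⟩
  · refine mem_nhdsWithin_of_mem_nhds (inter_mem ?_ hopen)
    rwa [nhdsWithin_eq_nhds.2 hopen] at ht
  · have h3 := hn y hy.1
    rwa [heq _ y hy.2]

/-! ### The data of the limit -/

/-- The limit functions. -/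
structure Dat {n : ℕ} (P : Fin n → Set ℂ) (e : Fin n → ℂ → ℂ) (R : ℝ) (f : ℂ → ℂ)
    (c : Fin n → ℂ) (r : Fin n → ℝ) (Ψ : Fin n → ℂ → ℂ) : Prop where
  diff : DifferentiableOn ℂ f (⋃ j, P j)ᶜ
  inj : InjOn f (⋃ j, P j)ᶜ
  norm : Tendsto (fun z => f z - z) (cobounded ℂ) (𝓝 0)
  out : ∀ j, ∀ z ∈ (⋃ j, P j)ᶜ, r j ≤ ‖f z - c j‖
  nonneg : ∀ j, 0 ≤ r j
  pdiff : ∀ j, DifferentiableOn ℂ (Ψ j) (ann R⁻¹ R)
  pout : ∀ j, ∀ ζ ∈ ann 1 R, Ψ j ζ = f (e j ζ)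
  pcirc : ∀ j ζ, ‖ζ‖ = 1 → ‖Ψ j ζ - c j‖ = r j
  pin : ∀ j, ∀ ζ ∈ ann R⁻¹ R, ‖ζ‖ < 1 → ‖Ψ j ζ - c j‖ ≤ r j

section A

variable {n : ℕ} {P : Fin n → Set ℂ} {e : Fin n → ℂ → ℂ} {R R₀ : ℝ} {f : ℂ → ℂ}
  {c : Fin n → ℂ} {r : Fin n → ℝ} {Ψ : Fin n → ℂ → ℂ}

theorem ann_sub_out (hR : 1 < R) : ann 1 R ⊆ ann R⁻¹ R := fun ζ hζ =>
  ⟨(inv_lt_one_of_one_lt₀ hR).trans hζ.1, hζ.2⟩

theorem ann_sub_in (hR : 1 < R) : ann R⁻¹ 1 ⊆ ann R⁻¹ R := fun ζ hζ => ⟨hζ.1, hζ.2.trans hR⟩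

theorem circ_mem (hR : 1 < R) {ζ : ℂ} (h : ‖ζ‖ = 1) : ζ ∈ ann R⁻¹ R :=
  ⟨by rw [h]; exact inv_lt_one_of_one_lt₀ hR, by rw [h]; exact hR⟩

/-- `Ψ j` is not constant. -/
theorem not_const (F : Fam P e R R₀) (D : Dat P e R f c r Ψ) (j : Fin n) (w : ℂ) :
    ¬ ∀ ζ ∈ ann 1 R, Ψ j ζ = w := by
  intro h
  have hR := F.hR
  obtain ⟨a, h1, h2⟩ := exists_between hR
  obtain ⟨b, h3, h4⟩ := exists_between h2
  have ha : ((a : ℝ) : ℂ) ∈ ann 1 R := by
    constructor <;> rw [Complex.norm_real, Real.norm_eq_abs, abs_of_pos (by linarith)] <;> linarith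
  have hb : ((b : ℝ) : ℂ) ∈ ann 1 R := by
    constructor <;> rw [Complex.norm_real, Real.norm_eq_abs, abs_of_pos (by linarith)] <;> linarith
  have h5 : f (e j a) = f (e j b) := by
    rw [← D.pout j _ ha, ← D.pout j _ hb, h _ ha, h _ hb]
  have h6 := D.inj (F.collar_mem j ha) (F.collar_mem j hb) h5
  have h7 := F.inj j ha.1 hb.1 h6
  have h8 : a = b := by exact_mod_cast h7
  linarith

theorem open_map (F : Fam P e R R₀) (D : Dat P e R f c r Ψ) (j : Fin n) {s : Set ℂ}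
    (hs : s ⊆ ann R⁻¹ R) (hso : IsOpen s) : IsOpen (Ψ j '' s) := by
  have hR := F.hR
  have hA : AnalyticOnNhd ℂ (Ψ j) (ann R⁻¹ R) := (D.pdiff j).analyticOnNhd (isOpen_ann _ _)
  have hc : IsPreconnected (ann R⁻¹ R) :=
    (isConnected_ann (inv_nonneg.2 (by linarith)) ((inv_lt_one_of_one_lt₀ hR).trans hR)).isPreconnected
  rcases hA.is_constant_or_isOpen hc with ⟨w, hw⟩ | h
  · exact (not_const F D j w fun ζ hζ => hw ζ (ann_sub_out hR hζ)).elim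
  · exact h s hs hso

theorem rpos (F : Fam P e R R₀) (D : Dat P e R f c r Ψ) (j : Fin n) : 0 < r j := by
  have hR := F.hR
  refine lt_of_le_of_ne (D.nonneg j) fun h0 => ?_
  -- `Ψ j` is constant inside
  have hin : ∀ ζ ∈ ann R⁻¹ 1, Ψ j ζ = c j := fun ζ hζ => by
    have := D.pin j ζ (ann_sub_in hR hζ) hζ.2
    rw [← h0] at this
    exact sub_eq_zero.1 (norm_le_zero_iff.1 this)
  have h1 := open_map F D j (ann_sub_in hR) (isOpen_ann R⁻¹ 1)
  obtain ⟨a, h2, h3⟩ := exists_between (inv_lt_one_of_one_lt₀ hR)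
  have ha0 : 0 < a := (inv_pos.2 (by linarith)).trans h2
  have ha : ((a : ℝ) : ℂ) ∈ ann R⁻¹ 1 := by
    constructor <;> rw [Complex.norm_real, Real.norm_eq_abs, abs_of_pos ha0]
    · exact h2
    · exact h3
  have h4 : Ψ j '' ann R⁻¹ 1 = {c j} := by
    ext w
    constructor
    · rintro ⟨ζ, hζ, rfl⟩; exact hin ζ hζ
    · rintro rfl; exact ⟨a, ha, hin a ha⟩
  rw [h4] at h1
  have h5 : (closedBall (c j) 0) = {c j} := closedBall_zero
  have h6 := Metric.isOpen_singleton_iff.1 h1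
  obtain ⟨ε, hε, h7⟩ := h6
  have h8 := h7 (c j + (ε / 2 : ℝ)) (by
    rw [dist_self_add_left, Complex.norm_real, Real.norm_eq_abs, abs_of_pos (by positivity)]
    linarith)
  rw [add_eq_left] at h8
  have : (ε / 2 : ℝ) = 0 := by exact_mod_cast h8
  linarith

theorem image_open (F : Fam P e R R₀) (D : Dat P e R f c r Ψ) :
    IsOpen (f '' (⋃ j, P j)ᶜ) := isOpen_image_of_injOn F.isOpen D.diff D.inj

/-- The image avoids the closed discs. -/
theorem out_lt (F : Fam P e R R₀) (D : Dat P e R f c r Ψ) (j : Fin n) {z : ℂ}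
    (hz : z ∈ (⋃ j, P j)ᶜ) : r j < ‖f z - c j‖ := by
  have h1 : f '' (⋃ j, P j)ᶜ ⊆ interior (ball (c j) (r j))ᶜ := by
    refine interior_maximal ?_ (image_open F D)
    rintro _ ⟨w, hw, rfl⟩
    rw [mem_compl_iff, mem_ball_iff_norm, not_lt]
    exact D.out j w hw
  have h2 := h1 (mem_image_of_mem f hz)
  rw [interior_compl, closure_ball _ (rpos F D j).ne', mem_compl_iff, mem_closedBall_iff_norm,
    not_le] at h2
  exact h2

theorem in_lt (F : Fam P e R R₀) (D : Dat P e R f c r Ψ) (j : Fin n) {ζ : ℂ}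
    (hζ : ζ ∈ ann R⁻¹ R) (h1 : ‖ζ‖ < 1) : ‖Ψ j ζ - c j‖ < r j := by
  have h2 : Ψ j '' ann R⁻¹ 1 ⊆ interior (closedBall (c j) (r j)) := by
    refine interior_maximal ?_ (open_map F D j (ann_sub_in F.hR) (isOpen_ann _ _))
    rintro _ ⟨w, hw, rfl⟩
    rw [mem_closedBall_iff_norm]
    exact D.pin j w (ann_sub_in F.hR hw) hw.2
  have h3 := h2 (mem_image_of_mem (Ψ j) (⟨hζ.1, h1⟩ : ζ ∈ ann R⁻¹ 1))
  rw [interior_closedBall _ (rpos F D j).ne', mem_ball_iff_norm] at h3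
  exact h3

/-- The circle is contained in the image of `Ψ j`. -/
theorem sphere_sub (F : Fam P e R R₀) (D : Dat P e R f c r Ψ) (j : Fin n) :
    sphere (c j) (r j) ⊆ Ψ j '' ann R⁻¹ R := by
  have hR := F.hR
  have hr := rpos F D j
  set T : Set ℂ := Ψ j '' sphere 0 1 with hT
  have hTc : IsCompact T := (isCompact_sphere 0 1).image_of_continuousOn
    ((D.pdiff j).continuousOn.mono fun ζ hζ => circ_mem hR (mem_sphere_zero_iff_norm.1 hζ))
  have hkey : ∀ w ∈ sphere (c j) (r j), w ∈ Ψ j '' ann R⁻¹ R → w ∈ T := by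
    rintro _ hw ⟨ζ, hζ, rfl⟩
    rw [mem_sphere_iff_norm] at hw
    rcases lt_trichotomy ‖ζ‖ 1 with h | h | h
    · exact absurd hw (in_lt F D j hζ h).ne
    · exact ⟨ζ, mem_sphere_zero_iff_norm.2 h, rfl⟩
    · have hζ' : ζ ∈ ann 1 R := ⟨h, hζ.2⟩
      rw [D.pout j ζ hζ'] at hw
      exact absurd hw (out_lt F D j (F.collar_mem j hζ')).ne'
  have hpre : IsPreconnected (sphere (c j) (r j)) :=
    isPreconnected_sphere (by rw [Complex.rank_real_complex]; norm_num) _ _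
  by_contra hcon
  rw [not_subset] at hcon
  obtain ⟨w, hw1, hw2⟩ := hcon
  have hUo := open_map F D j subset_rfl (isOpen_ann R⁻¹ R)
  have h1 : (sphere (c j) (r j) ∩ Ψ j '' ann R⁻¹ R).Nonempty := by
    refine ⟨Ψ j 1, ?_, ⟨1, circ_mem hR (by simp), rfl⟩⟩
    rw [mem_sphere_iff_norm]
    exact D.pcirc j 1 (by simp)
  have h2 : (sphere (c j) (r j) ∩ Tᶜ).Nonempty := by
    refine ⟨w, hw1, fun h => hw2 ?_⟩
    obtain ⟨ζ, hζ, rfl⟩ := h
    exact ⟨ζ, circ_mem hR (mem_sphere_zero_iff_norm.1 hζ), rfl⟩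
  obtain ⟨y, hy1, hy2, hy3⟩ := hpre _ _ hUo hTc.isClosed.isOpen_compl (fun y hy => by
    by_cases h : y ∈ T
    · left
      obtain ⟨ζ, hζ, rfl⟩ := h
      exact ⟨ζ, circ_mem hR (mem_sphere_zero_iff_norm.1 hζ), rfl⟩
    · exact Or.inr h) h1 h2
  exact hy3 (hkey y hy1 hy2)

/-- An open neighbourhood of the disc, covered by the disc and the image of the collar. -/
def Nb (c : Fin n → ℂ) (r : Fin n → ℝ) (Ψ : Fin n → ℂ → ℂ) (R : ℝ) (j : Fin n) : Set ℂ :=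
  ball (c j) (r j) ∪ Ψ j '' ann R⁻¹ R

theorem Nb_open (F : Fam P e R R₀) (D : Dat P e R f c r Ψ) (j : Fin n) :
    IsOpen (Nb c r Ψ R j) := isOpen_ball.union (open_map F D j subset_rfl (isOpen_ann R⁻¹ R))

theorem disc_sub (F : Fam P e R R₀) (D : Dat P e R f c r Ψ) (j : Fin n) :
    closedBall (c j) (r j) ⊆ Nb c r Ψ R j := by
  rw [← ball_union_sphere]
  exact union_subset_union_right _ (sphere_sub F D j)

theorem Nb_sub (F : Fam P e R R₀) (D : Dat P e R f c r Ψ) (j : Fin n) {w : ℂ}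
    (hw : w ∈ Nb c r Ψ R j) (hw' : w ∉ closedBall (c j) (r j)) :
    w ∈ f '' (e j '' ann 1 R) := by
  rcases hw with hw | ⟨ζ, hζ, rfl⟩
  · exact (hw' (ball_subset_closedBall hw)).elim
  · rw [mem_closedBall_iff_norm] at hw'
    have h1 : 1 < ‖ζ‖ := by
      rcases lt_trichotomy ‖ζ‖ 1 with h | h | h
      · exact (hw' (D.pin j ζ hζ h)).elim
      · exact (hw' (D.pcirc j ζ h).le).elim
      · exact h
    rw [D.pout j ζ ⟨h1, hζ.2⟩]
    exact mem_image_of_mem f (mem_image_of_mem (e j) ⟨h1, hζ.2⟩)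

theorem Nb_sub' (F : Fam P e R R₀) (D : Dat P e R f c r Ψ) (j : Fin n) {w : ℂ}
    (hw : w ∈ Nb c r Ψ R j) (hw' : w ∉ closedBall (c j) (r j)) : w ∈ f '' (⋃ j, P j)ᶜ := by
  obtain ⟨_, ⟨ζ, hζ, rfl⟩, rfl⟩ := Nb_sub F D j hw hw'
  exact mem_image_of_mem f (F.collar_mem j hζ)

theorem not_disc (F : Fam P e R R₀) (D : Dat P e R f c r Ψ) (j : Fin n) {w : ℂ}
    (hw : w ∈ f '' (⋃ j, P j)ᶜ) : w ∉ closedBall (c j) (r j) := by
  obtain ⟨z, hz, rfl⟩ := hw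
  rw [mem_closedBall_iff_norm, not_le]
  exact out_lt F D j hz

/-- One disc would contain another one. -/
theorem disc_sub_of (F : Fam P e R R₀) (D : Dat P e R f c r Ψ) {j k : Fin n}
    (h : (closedBall (c j) (r j) ∩ closedBall (c k) (r k)).Nonempty) :
    closedBall (c k) (r k) ⊆ closedBall (c j) (r j) := by
  have hpre : IsPreconnected (closedBall (c k) (r k)) :=
    (convex_closedBall _ _).isPreconnected
  by_contra hcon
  rw [not_subset] at hcon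
  obtain ⟨w, hw1, hw2⟩ := hcon
  obtain ⟨x, hx1, hx2⟩ := h
  obtain ⟨y, hy1, hy2, hy3⟩ := hpre _ _ (Nb_open F D j) isClosed_closedBall.isOpen_compl
    (fun y _ => by
      by_cases h : y ∈ closedBall (c j) (r j)
      · exact Or.inl (disc_sub F D j h)
      · exact Or.inr h) ⟨x, hx2, disc_sub F D j hx1⟩ ⟨w, hw1, hw2⟩
  exact not_disc F D k (Nb_sub' F D j hy2 hy3) hy1

theorem discs_disj (F : Fam P e R R₀) (D : Dat P e R f c r Ψ) :
    Pairwise (Function.onFun Disjoint fun i => closedBall (c i) (r i)) := by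
  intro j k hjk
  rw [Function.onFun, Set.disjoint_iff_inter_eq_empty]
  by_contra hne
  have h := Set.nonempty_iff_ne_empty.2 hne
  have h1 := disc_sub_of F D h
  have h2 := disc_sub_of F D (j := k) (k := j) (by rwa [inter_comm] at h)
  have heq : closedBall (c j) (r j) = closedBall (c k) (r k) := subset_antisymm h2 h1
  -- the disc is open
  have h3 : Nb c r Ψ R j ∩ Nb c r Ψ R k = closedBall (c j) (r j) := by
    refine subset_antisymm ?_ (subset_inter (disc_sub F D j) (heq ▸ disc_sub F D k))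
    rintro w ⟨hw1, hw2⟩
    by_contra hw
    obtain ⟨z, hz, hzw⟩ := Nb_sub F D j hw1 hw
    obtain ⟨z', hz', hzw'⟩ := Nb_sub F D k hw2 (by rwa [heq] at hw)
    have hzz : z = z' := by
      obtain ⟨ζ, hζ, rfl⟩ := hz
      obtain ⟨ζ', hζ', rfl⟩ := hz'
      exact D.inj (F.collar_mem j hζ) (F.collar_mem k hζ') (hzw.trans hzw'.symm)
    subst hzz
    exact Set.disjoint_left.1 (F.collar_disj j k hjk) hz (Or.inr hz')
  have h4 : IsOpen (closedBall (c j) (r j)) := h3 ▸ (Nb_open F D j).inter (Nb_open F D k)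
  have h5 : IsClopen (closedBall (c j) (r j)) := ⟨isClosed_closedBall, h4⟩
  rcases isClopen_iff.1 h5 with h6 | h6
  · rw [h6, empty_inter] at hne
    exact hne rfl
  · have h7 : IsBounded (univ : Set ℂ) := h6 ▸ isBounded_closedBall
    exact NoncompactSpace.noncompact_univ (X := ℂ)
      (Metric.isCompact_of_isClosed_isBounded isClosed_univ h7)

/-- Boundary behaviour. -/
theorem bdry (F : Fam P e R R₀) (D : Dat P e R f c r Ψ) (j : Fin n) {ε : ℝ} (hε : 0 < ε) :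
    ∃ δ > 0, ∀ z ∉ ⋃ j, P j, infDist z (P j) < δ →
      infDist (f z) (closedBall (c j) (r j)) < ε := by
  have hR := F.hR
  obtain ⟨a, ha1, haR⟩ := exists_between hR
  -- uniform continuity of `Ψ j`
  set K : Set ℂ := {ζ | 1 ≤ ‖ζ‖ ∧ ‖ζ‖ ≤ a} with hK
  have hKc : IsCompact K := by
    refine Metric.isCompact_of_isClosed_isBounded ?_ ?_
    · exact (isClosed_le continuous_const continuous_norm).inter
        (isClosed_le continuous_norm continuous_const)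
    · exact isBounded_closedBall.subset fun ζ hζ => mem_closedBall_zero_iff.2 hζ.2
  have hKs : K ⊆ ann R⁻¹ R := fun ζ hζ =>
    ⟨(inv_lt_one_of_one_lt₀ hR).trans_le hζ.1, hζ.2.trans_lt haR⟩
  have hu : UniformContinuousOn (Ψ j) K :=
    hKc.uniformContinuousOn_of_continuous ((D.pdiff j).continuousOn.mono hKs)
  obtain ⟨δ₁, hδ₁, hu⟩ := Metric.uniformContinuousOn_iff.1 hu ε hε
  obtain ⟨c₀, r₀, hPar⟩ := F.par j
  obtain ⟨g, hg, hge, heg, hginf⟩ := E.par_inv hPar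
  obtain ⟨δ, hδ, hb⟩ := E.bdry_of_inv (A := P j) (B := closedBall (0 : ℂ) 1) (f := g) (g := e j)
    (F.cont j).compact (F.cont j).conn.nonempty (by
      rw [← E.out_eq]; exact hPar.diff.continuousOn) (by
      rw [← E.out_eq, ← hPar.image]
      exact fun ζ hζ => mem_image_of_mem _ hζ) (fun z hz => (heg z hz).2) (E.par_tendsto hPar)
    (min δ₁ (a - 1)) (lt_min hδ₁ (by linarith))
  refine ⟨δ, hδ, fun z hz hzd => ?_⟩
  have hzj : z ∉ P j := fun h => hz (mem_iUnion.2 ⟨j, h⟩)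
  have h1 := hb z hzj hzd
  obtain ⟨h2, h3⟩ := heg z hzj
  set ζ : ℂ := g z with hζ
  have hζ0 : 0 < ‖ζ‖ := one_pos.trans h2
  have h4 : ‖ζ‖ - 1 < min δ₁ (a - 1) := by
    obtain ⟨y, hy, hy'⟩ := (Metric.infDist_lt_iff ⟨0, mem_closedBall_self zero_le_one⟩).1 h1
    rw [mem_closedBall_zero_iff] at hy
    rw [dist_eq_norm] at hy'
    have := norm_sub_norm_le ζ y
    linarith
  have h5 : ‖ζ‖ - 1 < δ₁ := h4.trans_le (min_le_left _ _)
  have h6 : ‖ζ‖ - 1 < a - 1 := h4.trans_le (min_le_right _ _)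
  have hζK : ζ ∈ K := ⟨h2.le, by linarith⟩
  set η : ℂ := ((‖ζ‖⁻¹ : ℝ) : ℂ) * ζ with hη
  have hη1 : ‖η‖ = 1 := by
    rw [hη, norm_mul, Complex.norm_real, Real.norm_eq_abs, abs_of_pos (inv_pos.2 hζ0),
      inv_mul_cancel₀ hζ0.ne']
  have hηK : η ∈ K := ⟨hη1.ge, by rw [hη1]; linarith⟩
  have h7 : dist ζ η < δ₁ := by
    rw [dist_eq_norm, hη, show ζ - ((‖ζ‖⁻¹ : ℝ) : ℂ) * ζ = ((1 - ‖ζ‖⁻¹ : ℝ) : ℂ) * ζ by
      push_cast; ring, norm_mul, Complex.norm_real, Real.norm_eq_abs,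
      abs_of_nonneg (by rw [sub_nonneg]; exact inv_le_one_of_one_le₀ h2.le), sub_mul, one_mul,
      inv_mul_cancel₀ hζ0.ne']
    exact h5
  have h8 := hu ζ hζK η hηK h7
  have h9 : Ψ j ζ = f z := by
    rw [D.pout j ζ ⟨h2, by linarith⟩, h3]
  rw [← h9]
  refine lt_of_le_of_lt (infDist_le_dist_of_mem (y := Ψ j η) ?_) h8
  rw [mem_closedBall_iff_norm, D.pcirc j η hη1]

theorem exists_min {n : ℕ} {δ : Fin n → ℝ} (h : ∀ j, 0 < δ j) : ∃ d > 0, ∀ j, d ≤ δ j := by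
  have h1 : ∀ᶠ d in 𝓝[>] (0 : ℝ), ∀ j, d ≤ δ j := eventually_all.2 fun j =>
    Filter.mem_of_superset (Ioc_mem_nhdsGT (h j)) fun d hd => hd.2
  obtain ⟨d, h2, h3⟩ := (h1.and self_mem_nhdsWithin).exists
  exact ⟨d, h3, h2⟩

theorem image_eq (F : Fam P e R R₀) (D : Dat P e R f c r Ψ) (hR₀ : 0 < R₀) (hC1 : Spec.C1) :
    f '' (⋃ j, P j)ᶜ = (⋃ j, closedBall (c j) (r j))ᶜ := by
  refine subset_antisymm ?_ ?_
  · intro w hw
    rw [mem_compl_iff, mem_iUnion]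
    rintro ⟨j, hj⟩
    exact not_disc F D j hw hj
  set Ω : Set ℂ := (⋃ j, P j)ᶜ with hΩ
  set B : Set ℂ := ⋃ j, closedBall (c j) (r j) with hB
  have hBcl : IsClosed B := isClosed_iUnion_of_finite fun i => isClosed_closedBall
  set E' : Set ℂ := Bᶜ \ f '' Ω with hE'
  -- closed
  have hcl : IsClosed E' := by
    have h1 : E'ᶜ = f '' Ω ∪ ⋃ j, Nb c r Ψ R j := by
      ext w
      constructor
      · intro hw
        by_cases h : w ∈ B
        · obtain ⟨j, hj⟩ := mem_iUnion.1 h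
          exact Or.inr (mem_iUnion.2 ⟨j, disc_sub F D j hj⟩)
        · left
          by_contra hw'
          exact hw ⟨h, hw'⟩
      · rintro (hw | hw) ⟨h1, h2⟩
        · exact h2 hw
        · obtain ⟨j, hj⟩ := mem_iUnion.1 hw
          exact h2 (Nb_sub' F D j hj fun h => h1 (mem_iUnion.2 ⟨j, h⟩))
    rw [← isOpen_compl_iff, h1]
    exact (image_open F D).union (isOpen_iUnion fun j => Nb_open F D j)
  -- open
  have hop : IsOpen E' := by
    rw [isOpen_iff_mem_nhds]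
    rintro w ⟨hw1, hw2⟩
    have hε : ∀ j, 0 < infDist w (closedBall (c j) (r j)) / 2 := fun j => by
      have h1 : w ∉ closedBall (c j) (r j) := fun h => hw1 (mem_iUnion.2 ⟨j, h⟩)
      have h2 := (isClosed_closedBall.notMem_iff_infDist_pos
        ⟨c j, mem_closedBall_self (rpos F D j).le⟩).1 h1
      linarith
    obtain ⟨ε, hε0, hε1⟩ := exists_min hε
    have hb : ∀ j, ∃ δ > 0, ∀ z ∉ ⋃ j, P j, infDist z (P j) < δ →
      infDist (f z) (closedBall (c j) (r j)) < ε := fun j => bdry F D j hε0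
    choose δ' hδ' hδ'' using hb
    obtain ⟨δ, hδ0, hδ1⟩ := exists_min hδ'
    -- far away
    obtain ⟨M, hM⟩ := E.ev_iff.1 (D.norm.eventually (Metric.ball_mem_nhds (0 : ℂ) one_pos))
    have hfar : ∀ z : ℂ, max M (‖w‖ + 2) < ‖z‖ → ‖w‖ + 1 < ‖f z‖ := by
      intro z hz
      have h1 := hM z ((le_max_left _ _).trans_lt hz)
      have h2 : ‖w‖ + 2 < ‖z‖ := (le_max_right _ _).trans_lt hz
      rw [dist_zero_right] at h1
      have h3 := norm_sub_norm_le z (f z)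
      rw [norm_sub_rev] at h3
      linarith
    set M' := max M (‖w‖ + 2) with hM'
    set K : Set ℂ := {z | ‖z‖ ≤ M' ∧ ∀ j, δ ≤ infDist z (P j)} with hK
    have hKc : IsCompact K := by
      refine Metric.isCompact_of_isClosed_isBounded ?_ ?_
      · have : K = {z : ℂ | ‖z‖ ≤ M'} ∩ ⋂ j, {z : ℂ | δ ≤ infDist z (P j)} := by
          ext z
          simp only [hK, mem_ofPred_eq, mem_inter_iff, mem_iInter]
        rw [this]
        exact (isClosed_le continuous_norm continuous_const).inter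
          (isClosed_iInter fun j => isClosed_le continuous_const (continuous_infDist_pt _))
      · exact isBounded_closedBall.subset fun ζ hζ => mem_closedBall_zero_iff.2 hζ.1
    have hKs : K ⊆ Ω := by
      intro z hz
      rw [hΩ, mem_compl_iff, mem_iUnion]
      rintro ⟨j, hj⟩
      have h1 := hz.2 j
      rw [infDist_zero_of_mem hj] at h1
      linarith
    have hfK : IsCompact (f '' K) := hKc.image_of_continuousOn (D.diff.continuousOn.mono hKs)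
    have hwK : w ∉ f '' K := fun h => hw2 (image_mono hKs h)
    filter_upwards [hfK.isClosed.isOpen_compl.mem_nhds hwK, hBcl.isOpen_compl.mem_nhds hw1,
      ball_mem_nhds w (lt_min hε0 one_pos)] with y hy1 hy2 hy3
    refine ⟨hy2, ?_⟩
    rintro ⟨z, hz, rfl⟩
    rw [mem_ball] at hy3
    have hy4 : dist (f z) w < ε := hy3.trans_le (min_le_left _ _)
    have hy5 : dist (f z) w < 1 := hy3.trans_le (min_le_right _ _)
    by_cases h : ‖z‖ ≤ M'
    · by_cases h' : ∀ j, δ ≤ infDist z (P j)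
      · exact hy1 ⟨z, ⟨h, h'⟩, rfl⟩
      · push Not at h'
        obtain ⟨j, hj⟩ := h'
        have h4 := hδ'' j z hz (hj.trans_le (hδ1 j))
        have h5 := infDist_le_infDist_add_dist (s := closedBall (c j) (r j)) (x := w) (y := f z)
        have h6 := hε1 j
        rw [dist_comm] at h5
        linarith
    · have h1 := hfar z (not_le.1 h)
      rw [dist_eq_norm] at hy5
      have h2 := norm_sub_norm_le (f z) w
      linarith
  -- bounded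
  have hbd : E' ⊆ closedBall 0 (2 * R₀) := by
    rintro w ⟨-, hw⟩
    rw [mem_closedBall_zero_iff]
    have hsub : {z : ℂ | R₀ < ‖z‖} ⊆ Ω := fun z hz => F.far (le_of_lt hz)
    exact hC1 hR₀ (D.diff.mono hsub) (D.inj.mono hsub) D.norm fun h => hw (image_mono hsub h)
  have hempty : E' = ∅ := by
    rcases isClopen_iff.1 (⟨hcl, hop⟩ : IsClopen E') with h6 | h6
    · exact h6
    · have h7 : IsBounded (univ : Set ℂ) := h6 ▸ isBounded_closedBall.subset hbd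
      exact (NoncompactSpace.noncompact_univ (X := ℂ)
        (Metric.isCompact_of_isClosed_isBounded isClosed_univ h7)).elim
  intro w hw
  by_contra hw'
  have : w ∈ E' := ⟨hw, hw'⟩
  rw [hempty] at this
  exact this

theorem pic (F : Fam P e R R₀) (D : Dat P e R f c r Ψ) (hR₀ : 0 < R₀) (hC1 : Spec.C1) :
    Pic P (fun i => closedBall (c i) (r i)) f where
  cont j := by
    have hr := rpos F D j
    refine ⟨isCompact_closedBall _ _, ⟨⟨c j, mem_closedBall_self hr.le⟩,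
      (convex_closedBall _ _).isPreconnected⟩, ?_⟩
    refine ⟨c j, mem_closedBall_self hr.le, c j + r j, ?_, ?_⟩
    · rw [mem_closedBall_iff_norm, add_sub_cancel_left, Complex.norm_real, Real.norm_eq_abs,
        abs_of_pos hr]
    · intro h
      rw [left_eq_add] at h
      exact hr.ne' (by exact_mod_cast h)
  disj := discs_disj F D
  diff := D.diff
  inj := D.inj
  image := image_eq F D hR₀ hC1
  norm := D.norm
  bdry := fun j ε hε => bdry F D j hε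

end A

/-! ### The approximation -/

section B

variable {n : ℕ} {P L : Fin n → Set ℂ} {e : Fin n → ℂ → ℂ} {R R₀ : ℝ} {g : ℂ → ℂ}

theorem far_sub (F : Fam P e R R₀) {ρ : ℝ} (h : R₀ ≤ ρ) : {z : ℂ | ρ < ‖z‖} ⊆ (⋃ j, P j)ᶜ :=
  fun _ hz => F.far (h.trans (le_of_lt hz))

theorem b1 (F : Fam P e R R₀) (hR₀ : 0 < R₀) (hC1 : Spec.C1) (H : Pic P L g) {z : ℂ}
    (hz : z ∈ (⋃ j, P j)ᶜ) {M : ℝ} (hM : ‖z‖ ≤ M) : ‖g z‖ ≤ 2 * max M R₀ := by
  have hsub := far_sub F (le_max_right M R₀)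
  refine hC1 (lt_of_lt_of_le hR₀ (le_max_right _ _)) (H.diff.mono hsub) (H.inj.mono hsub) H.norm ?_
  rintro ⟨w, hw, hw'⟩
  have h1 : w = z := H.inj (hsub hw) hz hw'
  subst h1
  have h2 : max M R₀ < ‖w‖ := hw
  exact absurd (h2.trans_le hM) (not_lt.2 (le_max_left _ _))

theorem b2 (F : Fam P e R R₀) (hR₀ : 0 < R₀) (hC1 : Spec.C1) (H : Pic P L g) {j : Fin n} {w : ℂ}
    (hw : w ∈ L j) : ‖w‖ ≤ 2 * R₀ := by
  have hsub := far_sub F (le_refl R₀)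
  refine hC1 hR₀ (H.diff.mono hsub) (H.inj.mono hsub) H.norm fun h => ?_
  have h1 := image_mono hsub h
  rw [H.image, mem_compl_iff, mem_iUnion] at h1
  exact h1 ⟨j, hw⟩

theorem b3 (F : Fam P e R R₀) (hR₀ : 0 < R₀) (hC2 : Spec.C2) (H : Pic P L g) {z : ℂ}
    (hz : 2 * R₀ ≤ ‖z‖) : ‖g z - z‖ ≤ 20 * R₀ ^ 2 / ‖z‖ := by
  have hsub := far_sub F (le_refl R₀)
  exact hC2 hR₀ (H.diff.mono hsub) (H.inj.mono hsub) H.norm hz

theorem b4 (F : Fam P e R R₀) (hR₀ : 0 < R₀) (hC1 : Spec.C1) (H : Pic P L g) {j : Fin n} {c : ℂ}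
    {r : ℝ} (hr : 0 < r) (hL : L j = closedBall c r) : ‖c‖ ≤ 2 * R₀ ∧ r ≤ 4 * R₀ := by
  have h1 : ‖c‖ ≤ 2 * R₀ := b2 F hR₀ hC1 H (j := j) (by rw [hL]; exact mem_closedBall_self hr.le)
  have h2 : ‖c + r‖ ≤ 2 * R₀ := b2 F hR₀ hC1 H (j := j) (by
    rw [hL, mem_closedBall_iff_norm, add_sub_cancel_left, Complex.norm_real, Real.norm_eq_abs,
      abs_of_pos hr])
  refine ⟨h1, ?_⟩
  have h3 := norm_sub_le (c + r) c
  rw [add_sub_cancel_left, Complex.norm_real, Real.norm_eq_abs, abs_of_pos hr] at h3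
  linarith

/-- reflection of one map -/
theorem refl (F : Fam P e R R₀) (H : Pic P L g) (j : Fin n) {c : ℂ} {r : ℝ} (hr : 0 < r)
    (hL : L j = closedBall c r) :
    ∃ Φ : ℂ → ℂ, DifferentiableOn ℂ Φ (ann R⁻¹ R) ∧ (∀ ζ ∈ ann 1 R, Φ ζ = g (e j ζ)) ∧
      (∀ ζ, ‖ζ‖ = 1 → ‖Φ ζ - c‖ = r) ∧ (∀ ζ ∈ ann R⁻¹ R, ‖ζ‖ < 1 → ‖Φ ζ - c‖ ≤ r) := by
  have hR := F.hR
  have hrc : (r : ℂ) ≠ 0 := by exact_mod_cast hr.ne'
  have hout : ∀ z ∈ (⋃ j, P j)ᶜ, r < ‖g z - c‖ := by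
    intro z hz
    have h1 : g z ∈ (⋃ j, L j)ᶜ := by rw [← H.image]; exact mem_image_of_mem g hz
    have h2 : g z ∉ closedBall c r := fun h => h1 (mem_iUnion.2 ⟨j, by rw [hL]; exact h⟩)
    rwa [mem_closedBall_iff_norm, not_le] at h2
  have hnorm : ∀ w : ℂ, ‖(w - c) / r‖ = ‖w - c‖ / r := fun w => by
    rw [norm_div, Complex.norm_real, Real.norm_eq_abs, abs_of_pos hr]
  have hF1 : ∀ ζ ∈ ann 1 R, 1 < ‖(g (e j ζ) - c) / r‖ := fun ζ hζ => by
    rw [hnorm, one_lt_div hr]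
    exact hout _ (F.collar_mem j hζ)
  obtain ⟨ψ, hψd, hψo, hψr⟩ := rf hR (F := fun ζ => (g (e j ζ) - c) / r) (by
    refine DifferentiableOn.div_const ?_ _
    refine DifferentiableOn.sub_const ?_ _
    exact H.diff.comp ((F.diff j).mono fun ζ hζ => hζ.1) fun ζ hζ => F.collar_mem j hζ)
    (fun ζ hζ h => by
      have := hF1 ζ hζ
      rw [h, norm_zero] at this
      linarith) (by
    intro ε hε
    obtain ⟨δ, hδ, hb⟩ := H.bdry j (ε * r) (by positivity)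
    obtain ⟨c₀, r₀, hPar⟩ := F.par j
    obtain ⟨ρ, hρ, h3⟩ := E.e3 (F.cont j) hPar δ hδ
    refine ⟨min (ρ - 1) (R - 1), lt_min (by linarith) (by linarith), fun ζ h4 h5 => ?_⟩
    have h6 : ‖ζ‖ < ρ := by have := min_le_left (ρ - 1) (R - 1); linarith
    have h7 : ‖ζ‖ < R := by have := min_le_right (ρ - 1) (R - 1); linarith
    have h8 := hb _ (F.collar_mem j (⟨h4, h7⟩ : ζ ∈ ann 1 R)) (h3 ζ h4 h6)
    rw [hL] at h8
    obtain ⟨y, hy, hy'⟩ := (Metric.infDist_lt_iff ⟨c, mem_closedBall_self hr.le⟩).1 h8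
    rw [mem_closedBall_iff_norm] at hy
    rw [dist_eq_norm] at hy'
    have h9 : ‖g (e j ζ) - c‖ < ε * r + r := by
      have := norm_add_le (g (e j ζ) - y) (y - c)
      rw [sub_add_sub_cancel] at this
      linarith
    have h10 := hF1 ζ ⟨h4, h7⟩
    rw [abs_of_pos (by linarith), hnorm, sub_lt_iff_lt_add, div_lt_iff₀ hr, add_mul, one_mul]
    exact h9)
  have hcirc : ∀ ζ, ‖ζ‖ = 1 → ‖ψ ζ‖ = 1 := by
    intro ζ hζ
    have h1 := hψr ζ (circ_mem hR hζ)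
    have h2 : (conj ζ)⁻¹ = ζ := by
      have h3 : conj ζ * ζ = 1 := by
        rw [mul_comm, Complex.mul_conj, Complex.normSq_eq_norm_sq, hζ]
        norm_num
      exact inv_eq_of_mul_eq_one_right h3
    rw [h2, mul_comm, Complex.mul_conj, Complex.normSq_eq_norm_sq] at h1
    have h3 : ‖ψ ζ‖ ^ 2 = 1 := by exact_mod_cast h1
    nlinarith [norm_nonneg (ψ ζ)]
  have hin : ∀ ζ ∈ ann R⁻¹ R, ‖ζ‖ < 1 → ‖ψ ζ‖ ≤ 1 := by
    intro ζ hζ h1
    have hζ0 : 0 < ‖ζ‖ := (inv_pos.2 (by linarith)).trans hζ.1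
    have h2 : (conj ζ)⁻¹ ∈ ann 1 R := by
      constructor
      · rw [norm_cinv]; exact (one_lt_inv₀ hζ0).2 h1
      · rw [norm_cinv, inv_lt_comm₀ hζ0 (by linarith)]; exact hζ.1
    have h3 := hψr ζ hζ
    have h4 : ‖ψ ζ‖ * ‖ψ (conj ζ)⁻¹‖ = 1 := by
      rw [← Complex.norm_conj (ψ ζ), ← norm_mul, h3, norm_one]
    have h5 : 1 < ‖ψ (conj ζ)⁻¹‖ := by rw [hψo _ h2]; exact hF1 _ h2
    nlinarith [norm_nonneg (ψ ζ)]
  refine ⟨fun ζ => c + r * ψ ζ, (hψd.const_mul _).const_add _, fun ζ hζ => ?_, fun ζ hζ => ?_,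
    fun ζ hζ h1 => ?_⟩
  · change c + r * ψ ζ = _
    rw [hψo ζ hζ]
    field_simp
    ring
  · rw [add_sub_cancel_left, norm_mul, Complex.norm_real, Real.norm_eq_abs, abs_of_pos hr,
      hcirc ζ hζ, mul_one]
  · rw [add_sub_cancel_left, norm_mul, Complex.norm_real, Real.norm_eq_abs, abs_of_pos hr]
    have := hin ζ hζ h1
    nlinarith

theorem refl_bound (F : Fam P e R R₀) (hR₀ : 0 < R₀) (hC1 : Spec.C1) (H : Pic P L g) {j : Fin n}
    {c : ℂ} {r : ℝ} (hr : 0 < r) (hL : L j = closedBall c r) {Φ : ℂ → ℂ}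
    (h1 : ∀ ζ ∈ ann 1 R, Φ ζ = g (e j ζ)) (h2 : ∀ ζ, ‖ζ‖ = 1 → ‖Φ ζ - c‖ = r)
    (h3 : ∀ ζ ∈ ann R⁻¹ R, ‖ζ‖ < 1 → ‖Φ ζ - c‖ ≤ r) {ζ : ℂ} (hζ : ζ ∈ ann R⁻¹ R) :
    ‖Φ ζ‖ ≤ 6 * R₀ := by
  obtain ⟨h4, h5⟩ := b4 F hR₀ hC1 H hr hL
  have h6 : ‖Φ ζ - c‖ ≤ r → ‖Φ ζ‖ ≤ 6 * R₀ := fun h => by
    have := norm_add_le (Φ ζ - c) c
    rw [sub_add_cancel] at this
    linarith
  rcases lt_trichotomy ‖ζ‖ 1 with h | h | h
  · exact h6 (h3 ζ hζ h)
  · exact h6 (h2 ζ h).le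
  · have hζ' : ζ ∈ ann 1 R := ⟨h, hζ.2⟩
    rw [h1 ζ hζ']
    have h7 : e j ζ ∈ ball 0 R₀ := F.collar_sub j (mem_image_of_mem _ hζ')
    rw [mem_ball_zero_iff] at h7
    have h8 := b1 F hR₀ hC1 H (F.collar_mem j hζ') h7.le
    rw [max_self] at h8
    linarith

end B

/-! ### The limit -/

section C

variable {n : ℕ} {P : Fin n → Set ℂ} {e : Fin n → ℂ → ℂ} {R R₀ : ℝ}

theorem tendsto_norm_div (a : ℝ) : Tendsto (fun z : ℂ => a / ‖z‖) (cobounded ℂ) (𝓝 0) :=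
  tendsto_const_nhds.div_atTop tendsto_norm_cobounded_atTop

theorem exists_dat (hn : 0 < n) (F : Fam P e R R₀) (hR₀ : 0 < R₀) (hC1 : Spec.C1)
    (hC2 : Spec.C2) (G : Fin n → ℕ → ℂ → ℂ) (L : Fin n → ℕ → Fin n → Set ℂ) (c : Fin n → ℕ → ℂ)
    (r : Fin n → ℕ → ℝ) (H : ∀ j m, Pic P (L j m) (G j m)) (hr : ∀ j m, 0 < r j m)
    (hL : ∀ j m, L j m j = closedBall (c j m) (r j m)) {R₁ : ℝ}
    (hlim : ∀ i j z, R₁ < ‖z‖ → Tendsto (fun m => G i m z - G j m z) atTop (𝓝 0)) :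
    ∃ f c' r' Ψ, Dat P e R f c' r' Ψ := by
  set 𝒰 : Ultrafilter ℕ := hyperfilter ℕ with h𝒰
  have hR := F.hR
  have hΩ := F.isOpen
  have hΩc : IsPreconnected (⋃ j, P j)ᶜ := F.conn.isPreconnected
  -- the limits
  have h1 : ∀ j, ∃ g, TendstoLocallyUniformlyOn (G j) g (𝒰 : Filter ℕ) (⋃ j, P j)ᶜ := fun j =>
    lim_Ω 𝒰 hΩ (fun m => (H j m).diff) (β := fun M => 2 * max M R₀)
      (fun x => by have := lt_max_of_lt_right (b := x) hR₀; linarith)
      (fun m z hz M hM => b1 F hR₀ hC1 (H j m) hz hM)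
  choose g hg using h1
  have hgd : ∀ j, DifferentiableOn ℂ (g j) (⋃ j, P j)ᶜ := fun j =>
    (hg j).differentiableOn (Eventually.of_forall fun m => (H j m).diff) hΩ
  set j₀ : Fin n := ⟨0, hn⟩ with hj₀
  set f : ℂ → ℂ := g j₀ with hf
  set M₁ : ℝ := max R₁ R₀ with hM₁
  have hM₁0 : 0 < M₁ := lt_max_of_lt_right hR₀
  have hfarΩ : ∀ {z : ℂ}, M₁ < ‖z‖ → z ∈ (⋃ j, P j)ᶜ := fun {z} hz =>
    F.far ((le_max_right _ _).trans (le_of_lt hz))
  obtain ⟨z₀, hz₀⟩ : ∃ z₀ : ℂ, M₁ < ‖z₀‖ := by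
    refine ⟨((M₁ + 1 : ℝ) : ℂ), ?_⟩
    rw [Complex.norm_real, Real.norm_eq_abs, abs_of_pos (by linarith)]
    linarith
  have heq : ∀ j, EqOn (g j) f (⋃ j, P j)ᶜ := by
    intro j
    refine ((hgd j).analyticOnNhd hΩ).eqOn_of_preconnected_of_eventuallyEq
      ((hgd j₀).analyticOnNhd hΩ) hΩc (hfarΩ hz₀) ?_
    have h2 : {z : ℂ | M₁ < ‖z‖} ∈ 𝓝 z₀ :=
      (isOpen_lt continuous_const continuous_norm).mem_nhds hz₀
    filter_upwards [h2] with z hz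
    have h3 := ((hg j).tendsto_at (hfarΩ hz)).sub ((hg j₀).tendsto_at (hfarΩ hz))
    have h4 := (hlim j j₀ z ((le_max_left _ _).trans_lt hz)).mono_left Nat.hyperfilter_le_atTop
    exact sub_eq_zero.1 (tendsto_nhds_unique h3 h4)
  have hG : ∀ j, TendstoLocallyUniformlyOn (G j) f (𝒰 : Filter ℕ) (⋃ j, P j)ᶜ := fun j =>
    (hg j).congr_right (heq j)
  have hGz : ∀ j, ∀ z ∈ (⋃ j, P j)ᶜ, Tendsto (fun m => G j m z) (𝒰 : Filter ℕ) (𝓝 (f z)) :=
    fun j z hz => (hG j).tendsto_at hz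
  have hfd : DifferentiableOn ℂ f (⋃ j, P j)ᶜ := hgd j₀
  -- behaviour at infinity
  have hfb : ∀ z : ℂ, 2 * R₀ ≤ ‖z‖ → ‖f z - z‖ ≤ 20 * R₀ ^ 2 / ‖z‖ := by
    intro z hz
    have h2 : Tendsto (fun m => ‖G j₀ m z - z‖) (𝒰 : Filter ℕ) (𝓝 ‖f z - z‖) :=
      ((hGz j₀ z (F.far (by linarith))).sub_const z).norm
    exact le_of_tendsto h2 (Eventually.of_forall fun m => b3 F hR₀ hC2 (H j₀ m) hz)
  have hfn : Tendsto (fun z => f z - z) (cobounded ℂ) (𝓝 0) := by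
    refine squeeze_zero_norm' ?_ (tendsto_norm_div (20 * R₀ ^ 2))
    filter_upwards [far_mem_cobounded (2 * R₀)] with z hz
    exact hfb z (le_of_lt hz)
  -- not constant
  have hfc : ∀ w, ¬ EqOn f (fun _ => w) (⋃ j, P j)ᶜ := by
    intro w hw
    have h2 : Tendsto (fun z : ℂ => w - z) (cobounded ℂ) (𝓝 0) := by
      refine hfn.congr' ?_
      filter_upwards [far_mem_cobounded M₁] with z hz
      rw [hw (hfarΩ hz)]
    obtain ⟨M, hM⟩ := E.ev_iff.1 (h2.eventually (Metric.ball_mem_nhds (0 : ℂ) one_pos))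
    have h3 := hM (((max M (‖w‖ + 2) + 1 : ℝ)) : ℂ) (by
      have h4 : 0 < max M (‖w‖ + 2) := lt_max_of_lt_right (by positivity)
      rw [Complex.norm_real, Real.norm_eq_abs, abs_of_pos (by linarith)]
      have := le_max_left M (‖w‖ + 2)
      linarith)
    rw [dist_zero_right] at h3
    have h4 := norm_sub_norm_le (((max M (‖w‖ + 2) + 1 : ℝ)) : ℂ) w
    rw [norm_sub_rev] at h4
    have h5 : 0 < max M (‖w‖ + 2) := lt_max_of_lt_right (by positivity)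
    rw [Complex.norm_real, Real.norm_eq_abs, abs_of_pos (by linarith)] at h4
    have := le_max_right M (‖w‖ + 2)
    linarith
  -- injectivity
  have hfi : InjOn f (⋃ j, P j)ᶜ := by
    intro z₁ hz₁ z₂ hz₂ h12
    by_contra hne
    have hU : IsOpen ((⋃ j, P j)ᶜ \ {z₁} : Set ℂ) := hΩ.sdiff isClosed_singleton
    have hb : z₂ ∈ ((⋃ j, P j)ᶜ \ {z₁} : Set ℂ) := ⟨hz₂, fun h => hne h.symm⟩
    have hc : TendstoLocallyUniformlyOn (fun m _ => G j₀ m z₁) (fun _ : ℂ => f z₁)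
        (𝒰 : Filter ℕ) ((⋃ j, P j)ᶜ \ {z₁} : Set ℂ) := by
      rw [Metric.tendstoLocallyUniformlyOn_iff]
      intro ε hε x hx
      refine ⟨univ, univ_mem, ?_⟩
      filter_upwards [(hGz j₀ z₁ hz₁).eventually (ball_mem_nhds _ hε)] with m hm y _
      rw [dist_comm]
      exact hm
    have hF : TendstoLocallyUniformlyOn (fun m z => G j₀ m z - G j₀ m z₁) (fun z => f z - f z₁)
        (𝒰 : Filter ℕ) ((⋃ j, P j)ᶜ \ {z₁} : Set ℂ) := ((hG j₀).mono diff_subset).sub hc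
    refine hurwitz hU hF (Eventually.of_forall fun m =>
      ((H j₀ m).diff.mono diff_subset).sub_const _) hb (Eventually.of_forall fun m z hz h => ?_) ?_
      (sub_eq_zero.2 h12.symm)
    · exact hz.2 ((H j₀ m).inj hz.1 hz₁ (sub_eq_zero.1 h))
    · intro hev
      refine hfc (f z₁) ((hfd.analyticOnNhd hΩ).eqOn_of_preconnected_of_eventuallyEq
        analyticOnNhd_const hΩc hz₂ ?_)
      filter_upwards [hev] with z hz
      exact sub_eq_zero.1 hz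
  -- centers and radii
  have hcl : ∀ j, ∃ l, Tendsto (c j) (𝒰 : Filter ℕ) (𝓝 l) := fun j =>
    lim_bdd 𝒰 (B := 2 * R₀) fun m => (b4 F hR₀ hC1 (H j m) (hr j m) (hL j m)).1
  choose c' hc' using hcl
  have hrl : ∀ j, ∃ l : ℝ, Tendsto (r j) (𝒰 : Filter ℕ) (𝓝 l) := fun j => by
    obtain ⟨l, hl⟩ := lim_bdd 𝒰 (a := fun m => (r j m : ℂ)) (B := 4 * R₀) fun m => by
      rw [Complex.norm_real, Real.norm_eq_abs, abs_of_pos (hr j m)]
      exact (b4 F hR₀ hC1 (H j m) (hr j m) (hL j m)).2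
    refine ⟨l.re, ?_⟩
    have := (Complex.continuous_re.tendsto l).comp hl
    exact this
  choose r' hr' using hrl
  -- reflections
  choose Φ hΦd hΦo hΦc hΦi using fun j m => refl F (H j m) j (hr j m) (hL j m)
  have hΨl : ∀ j, ∃ g, TendstoLocallyUniformlyOn (Φ j) g (𝒰 : Filter ℕ) (ann R⁻¹ R) := fun j =>
    lim_fun 𝒰 (isOpen_ann _ _) (fun m => hΦd j m) (B := 6 * R₀) (by linarith)
      (fun m ζ hζ => refl_bound F hR₀ hC1 (H j m) (hr j m) (hL j m) (hΦo j m) (hΦc j m)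
        (hΦi j m) hζ)
  choose Ψ hΨ using hΨl
  have hΨz : ∀ j, ∀ ζ ∈ ann R⁻¹ R, Tendsto (fun m => Φ j m ζ) (𝒰 : Filter ℕ) (𝓝 (Ψ j ζ)) :=
    fun j ζ hζ => (hΨ j).tendsto_at hζ
  refine ⟨f, c', r', Ψ, ⟨hfd, hfi, hfn, ?_, ?_, ?_, ?_, ?_, ?_⟩⟩
  · intro j z hz
    refine le_of_tendsto_of_tendsto' (hr' j) ((hGz j z hz).sub (hc' j)).norm fun m => ?_
    have h1 : G j m z ∈ (⋃ i, L j m i)ᶜ := by rw [← (H j m).image]; exact mem_image_of_mem _ hz
    have h2 : G j m z ∉ closedBall (c j m) (r j m) := fun h =>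
      h1 (mem_iUnion.2 ⟨j, by rw [hL]; exact h⟩)
    rw [mem_closedBall_iff_norm, not_le] at h2
    exact h2.le
  · intro j
    exact ge_of_tendsto' (hr' j) fun m => (hr j m).le
  · intro j
    exact (hΨ j).differentiableOn (Eventually.of_forall fun m => hΦd j m) (isOpen_ann _ _)
  · intro j ζ hζ
    refine tendsto_nhds_unique (hΨz j ζ (ann_sub_out hR hζ)) ?_
    refine (hGz j _ (F.collar_mem j hζ)).congr fun m => ?_
    exact (hΦo j m ζ hζ).symm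
  · intro j ζ hζ
    refine tendsto_nhds_unique ((hΨz j ζ (circ_mem hR hζ)).sub (hc' j)).norm ?_
    refine (hr' j).congr fun m => ?_
    exact (hΦc j m ζ hζ).symm
  · intro j ζ hζ h1
    exact le_of_tendsto_of_tendsto' ((hΨz j ζ hζ).sub (hc' j)).norm (hr' j)
      fun m => hΦi j m ζ hζ h1

theorem R₀_pos (hn : 0 < n) (F : Fam P e R R₀) : 0 < R₀ := by
  obtain ⟨x, hx⟩ := (F.cont ⟨0, hn⟩).conn.nonempty
  have := F.sub _ hx
  rw [mem_ball_zero_iff] at this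
  exact (norm_nonneg x).trans_lt this

end C

end LM

/-- **Block LM.** -/
theorem lm (hC1 : Spec.C1) (hC2 : Spec.C2) : Spec.LM := by
  intro n P e R R₀ hn F G L c r H hr hL R₁ hlim
  have hR₀ := LM.R₀_pos hn F
  obtain ⟨f, c', r', Ψ, D⟩ := LM.exists_dat hn F hR₀ hC1 hC2 G L c r H hr hL hlim
  exact ⟨f, c', r', fun i => LM.rpos F D i, LM.pic F D hR₀ hC1⟩

end Vale.Agent.P116.FK
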