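import Vale.Agent.P116.FK.RMT

open Filter Metric Set Topology Complex Bornology
open scoped Pointwise ComplexConjugate

namespace Vale.Agent.P116.FK

/-! ### Exterior Riemann map -/

/-- the inverted complement of `K` -/
def invDom (K : Set ℂ) (a : ℂ) : Set ℂ := {w | w = 0 ∨ a + w⁻¹ ∉ K}

lemma invDom_zero {K : Set ℂ} {a : ℂ} : (0 : ℂ) ∈ invDom K a := Or.inl rfl

lemma invDom_ne {K : Set ℂ} {a w : ℂ} (hw : w ≠ 0) : w ∈ invDom K a ↔ a + w⁻¹ ∉ K := by
  simp [invDom, hw]

lemma tendsto_far (a : ℂ) : Tendsto (fun w : ℂ => a + w⁻¹) (𝓝[≠] 0) (cobounded ℂ) :=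
  (_root_.tendsto_const_add_cobounded a).comp (tendsto_inv₀_nhdsNE_zero (α := ℂ))

lemma tendsto_near (a : ℂ) : Tendsto (fun z : ℂ => (z - a)⁻¹) (cobounded ℂ) (𝓝[≠] 0) := by
  have h1 : Tendsto (fun z : ℂ => z + -a) (cobounded ℂ) (cobounded ℂ) :=
    _root_.tendsto_add_const_cobounded (-a)
  have := (tendsto_inv₀_cobounded' (α := ℂ)).comp h1
  simpa [Function.comp_def, sub_eq_add_neg] using this

lemma cobounded_compl {K : Set ℂ} (hK : IsCompact K) : ∀ᶠ z in cobounded ℂ, z ∉ K :=
  Metric.cobounded_eq_cocompact (α := ℂ) ▸ hK.compl_mem_cocompact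

lemma isOpen_invDom {K : Set ℂ} (hK : IsCompact K) {a : ℂ} : IsOpen (invDom K a) := by
  rw [isOpen_iff_mem_nhds]
  intro w hw
  by_cases h0 : w = 0
  · subst h0
    have h1 : ∀ᶠ w in 𝓝[≠] (0 : ℂ), a + w⁻¹ ∉ K := (tendsto_far a).eventually (cobounded_compl hK)
    rw [eventually_nhdsWithin_iff] at h1
    filter_upwards [h1] with w hw
    by_cases h : w = 0
    · exact Or.inl h
    · exact Or.inr (hw h)
  · have h1 : a + w⁻¹ ∉ K := (invDom_ne h0).1 hw
    have hc : ContinuousAt (fun w : ℂ => a + w⁻¹) w := continuousAt_const.add (continuousAt_inv₀ h0)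
    filter_upwards [hc.eventually (hK.isClosed.isOpen_compl.mem_nhds h1)] with y hy
    exact Or.inr hy

lemma isPreconnected_invDom {K : Set ℂ} (hK : IsCompact K) (hK' : IsConnected Kᶜ) {a : ℂ}
    (ha : a ∈ K) : IsPreconnected (invDom K a) := by
  have hcont : ContinuousOn (fun z : ℂ => (z - a)⁻¹) Kᶜ := by
    apply ContinuousOn.inv₀ (by fun_prop)
    intro z hz h
    rw [sub_eq_zero.1 h] at hz
    exact hz ha
  have h1 := hK'.isPreconnected.image _ hcont
  have heq : (fun z : ℂ => (z - a)⁻¹) '' Kᶜ = invDom K a \ {0} := by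
    ext w
    constructor
    · rintro ⟨z, hz, rfl⟩
      have hne : z - a ≠ 0 := fun h => hz (by rw [sub_eq_zero.1 h]; exact ha)
      refine ⟨Or.inr ?_, inv_ne_zero hne⟩
      simpa using hz
    · rintro ⟨hw, hw0⟩
      have h2 := (invDom_ne hw0).1 hw
      exact ⟨a + w⁻¹, h2, by simp⟩
  rw [heq] at h1
  refine h1.subset_closure sdiff_subset ?_
  intro w hw
  by_cases h0 : w = 0
  · subst h0
    rw [mem_closure_iff_frequently]
    have h2 : ∀ᶠ w in 𝓝[≠] (0 : ℂ), w ∈ invDom K a \ {0} := by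
      have : ∀ᶠ w in 𝓝[≠] (0 : ℂ), a + w⁻¹ ∉ K := (tendsto_far a).eventually (cobounded_compl hK)
      filter_upwards [this, self_mem_nhdsWithin] with w h3 h4
      exact ⟨Or.inr h3, h4⟩
    exact (h2.frequently).filter_mono nhdsWithin_le_nhds
  · exact subset_closure ⟨hw, h0⟩

lemma sqrtProp_invDom (h5 : Spec.S5) {K : Set ℂ} (hK : Cont K) (hK' : IsConnected Kᶜ) {a : ℂ}
    (ha : a ∈ K) : SqrtProp (invDom K a) := by
  intro f hf hne
  have hU := isOpen_invDom hK.compact (a := a)
  have hza : ∀ z, z ∉ K → z - a ≠ 0 := fun z hz h => hz (by rw [sub_eq_zero.1 h]; exact ha)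
  have hmem : ∀ z, z ∉ K → (z - a)⁻¹ ∈ invDom K a := fun z hz => Or.inr (by simpa using hz)
  have h1 : DifferentiableOn ℂ (fun z => f (z - a)⁻¹) Kᶜ := by
    intro z hz
    have h2 : DifferentiableAt ℂ f (z - a)⁻¹ := (hf _ (hmem z hz)).differentiableAt (hU.mem_nhds (hmem z hz))
    have h3 : DifferentiableAt ℂ (fun z : ℂ => (z - a)⁻¹) z :=
      DifferentiableAt.fun_inv (differentiableAt_id.sub_const a) (hza z hz)
    exact (h2.comp z h3).differentiableWithinAt
  have hfc : ContinuousAt f 0 := (hf.continuousOn).continuousAt (hU.mem_nhds invDom_zero)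
  have h2 : Tendsto (fun z => f (z - a)⁻¹) (cobounded ℂ) (𝓝 (f 0)) :=
    hfc.tendsto.comp ((tendsto_near a).mono_right nhdsWithin_le_nhds)
  obtain ⟨q, hq, hsq, b, hb⟩ := h5 hK.compact hK.conn hK' h1 (fun z hz => hne _ (hmem z hz))
    (hne 0 invDom_zero) h2
  set Q : ℂ → ℂ := fun w => if w = 0 then b else q (a + w⁻¹) with hQ
  have hQne : ∀ w, w ≠ 0 → Q w = q (a + w⁻¹) := fun w hw => by simp [hQ, hw]
  have hQ0 : Q 0 = b := by simp [hQ]
  refine ⟨Q, ?_, ?_⟩
  · rw [← Complex.differentiableOn_compl_singleton_and_continuousAt_iff (hU.mem_nhds invDom_zero)]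
    constructor
    · intro w hw
      have hw0 : w ≠ 0 := hw.2
      have h3 : a + w⁻¹ ∉ K := (invDom_ne hw0).1 hw.1
      have h4 : DifferentiableAt ℂ q (a + w⁻¹) :=
        (hq _ h3).differentiableAt (hK.compact.isClosed.isOpen_compl.mem_nhds h3)
      have h5 : DifferentiableAt ℂ (fun w : ℂ => a + w⁻¹) w :=
        (differentiableAt_const a).add (differentiableAt_inv hw0)
      have h6 : DifferentiableAt ℂ Q w := by
        refine (h4.comp w h5).congr_of_eventuallyEq ?_
        filter_upwards [isOpen_ne.mem_nhds hw0] with y hy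
        exact hQne y hy
      exact h6.differentiableWithinAt
    · rw [continuousAt_iff_punctured_nhds, hQ0]
      have h3 := hb.comp (tendsto_far a)
      refine h3.congr' ?_
      filter_upwards [self_mem_nhdsWithin] with w hw
      exact (hQne w hw).symm
  · intro w hw
    by_cases h0 : w = 0
    · subst h0
      rw [hQ0]
      have h3 : Tendsto (fun z => q z ^ 2) (cobounded ℂ) (𝓝 (b ^ 2)) := hb.pow 2
      have h4 : Tendsto (fun z => q z ^ 2) (cobounded ℂ) (𝓝 (f 0)) := by
        refine h2.congr' ?_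
        filter_upwards [cobounded_compl hK.compact] with z hz
        exact (hsq z hz).symm
      exact tendsto_nhds_unique h3 h4
    · rw [hQne w h0, hsq _ ((invDom_ne h0).1 hw)]
      simp

/-- **Block M** -/
theorem ext_exists (h5 : Spec.S5) : Spec.M := by
  intro K hK hK'
  obtain ⟨a, ha, b, hb, hab⟩ := hK.nontriv
  set U := invDom K a with hUd
  have hU : IsOpen U := isOpen_invDom hK.compact
  have hUc : IsPreconnected U := isPreconnected_invDom hK.compact hK' ha
  have hS : SqrtProp U := sqrtProp_invDom h5 hK hK' ha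
  have h0U : (0 : ℂ) ∈ U := invDom_zero
  have hba : b - a ≠ 0 := sub_ne_zero.2 hab.symm
  have hne : U ≠ univ := by
    intro h
    have h1 : (b - a)⁻¹ ∈ U := by rw [h]; exact mem_univ _
    rw [hUd, invDom_ne (inv_ne_zero hba)] at h1
    simp [hb] at h1
  obtain ⟨g, hg, hgi, hgim, hgd, hg0⟩ := exists_onto_disc hU hUc hS hne h0U
  set α := deriv g 0 with hα
  have hα0 : α ≠ 0 := hgd 0 h0U
  set G := dslope g 0 with hG
  have hGd : DifferentiableOn ℂ G U := (Complex.differentiableOn_dslope (hU.mem_nhds h0U)).2 hg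
  have hG0 : G 0 = α := by rw [hG, dslope_same]
  have hgG : ∀ w, g w = w * G w := by
    intro w
    have := sub_smul_dslope g 0 w
    rw [hg0, sub_zero, sub_zero, smul_eq_mul] at this
    exact this.symm
  have hza : ∀ z, z ∉ K → z - a ≠ 0 := fun z hz h => hz (by rw [sub_eq_zero.1 h]; exact ha)
  have hmem : ∀ z, z ∉ K → (z - a)⁻¹ ∈ U := fun z hz => Or.inr (by simpa using hz)
  have hgne : ∀ w ∈ U, w ≠ 0 → g w ≠ 0 := by
    intro w hw hw0 h
    rw [← hg0] at h
    exact hw0 (hgi hw h0U h)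
  set κ := a + deriv G 0 / α with hκ
  set h : ℂ → ℂ := fun z => κ + α / g (z - a)⁻¹ with hh
  refine ⟨h, κ, ‖α‖, norm_pos_iff.2 hα0, ?_, ?_, ?_, ?_⟩
  · intro z hz
    have h2 : DifferentiableAt ℂ g (z - a)⁻¹ := (hg _ (hmem z hz)).differentiableAt (hU.mem_nhds (hmem z hz))
    have h3 : DifferentiableAt ℂ (fun z : ℂ => (z - a)⁻¹) z :=
      DifferentiableAt.fun_inv (differentiableAt_id.sub_const a) (hza z hz)
    have h4 : DifferentiableAt ℂ (fun z : ℂ => g (z - a)⁻¹) z := h2.comp z h3
    exact ((differentiableAt_const _).add ((differentiableAt_const _).div h4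
      (hgne _ (hmem z hz) (inv_ne_zero (hza z hz))))).differentiableWithinAt
  · intro z hz z' hz' heq
    simp only [hh, add_right_inj] at heq
    rw [div_eq_div_iff (hgne _ (hmem z hz) (inv_ne_zero (hza z hz)))
      (hgne _ (hmem z' hz') (inv_ne_zero (hza z' hz')))] at heq
    have h2 := mul_left_cancel₀ hα0 heq
    have h3 := hgi (hmem z' hz') (hmem z hz) h2
    have h4 := inv_injective h3
    exact (sub_left_injective h4).symm
  · ext y
    rw [mem_compl_iff, mem_closedBall, dist_eq_norm, not_le]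
    constructor
    · rintro ⟨z, hz, rfl⟩
      simp only [hh, add_sub_cancel_left]
      have h2 : g (z - a)⁻¹ ≠ 0 := hgne _ (hmem z hz) (inv_ne_zero (hza z hz))
      have h3 : g (z - a)⁻¹ ∈ ball (0 : ℂ) 1 := by rw [← hgim]; exact mem_image_of_mem _ (hmem z hz)
      rw [mem_ball_zero_iff] at h3
      rw [norm_div, lt_div_iff₀ (norm_pos_iff.2 h2)]
      have := norm_pos_iff.2 hα0
      nlinarith
    · intro hy
      have hyκ : y - κ ≠ 0 := by
        intro h0
        rw [h0, norm_zero] at hy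
        exact absurd hy (not_lt.2 (norm_nonneg _))
      have h2 : α / (y - κ) ∈ ball (0 : ℂ) 1 := by
        rw [mem_ball_zero_iff, norm_div, div_lt_one (norm_pos_iff.2 hyκ)]
        exact hy
      rw [← hgim] at h2
      obtain ⟨w, hw, hgw⟩ := h2
      have hw0 : w ≠ 0 := by
        rintro rfl
        rw [hg0] at hgw
        exact (div_ne_zero hα0 hyκ) hgw.symm
      refine ⟨a + w⁻¹, (invDom_ne hw0).1 hw, ?_⟩
      simp only [hh, add_sub_cancel_left, inv_inv]
      rw [hgw]
      field_simp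
      ring
  · have hGG : DifferentiableOn ℂ (dslope G 0) U :=
      (Complex.differentiableOn_dslope (hU.mem_nhds h0U)).2 hGd
    have hlim : Tendsto (fun w => deriv G 0 / α - dslope G 0 w / G w) (𝓝[≠] 0) (𝓝 0) := by
      have c1 : ContinuousAt (dslope G 0) 0 := (hGG.continuousOn).continuousAt (hU.mem_nhds h0U)
      have c2 : ContinuousAt G 0 := (hGd.continuousOn).continuousAt (hU.mem_nhds h0U)
      have c3 : ContinuousAt (fun w => deriv G 0 / α - dslope G 0 w / G w) 0 :=
        continuousAt_const.sub (c1.div c2 (by rw [hG0]; exact hα0))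
      have c4 := c3.tendsto
      rw [dslope_same, hG0, sub_self] at c4
      exact c4.mono_left nhdsWithin_le_nhds
    have h1 := hlim.comp (tendsto_near a)
    refine h1.congr' ?_
    filter_upwards [cobounded_compl hK.compact] with z hz
    have hw0 : (z - a)⁻¹ ≠ 0 := inv_ne_zero (hza z hz)
    have hza' := hza z hz
    simp only [Function.comp, hh]
    set w := (z - a)⁻¹ with hw
    have hz' : z = a + w⁻¹ := by rw [hw]; simp
    have hGw : G w ≠ 0 := by
      intro h2
      have := hgG w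
      rw [h2, mul_zero] at this
      exact hgne w (hmem z hz) hw0 this
    have h3 : dslope G 0 w = (G w - α) / w := by
      rw [dslope_of_ne _ hw0, slope_def_field, hG0, sub_zero]
    rw [h3, hgG w, hκ, hz']
    field_simp
    ring

end Vale.Agent.P116.FK
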