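import Mathlib

/-!
The Cauchy–Pompeiu formula for compactly supported `C¹` functions on `ℂ`
(copy of the file of P136/P071).
-/

open Filter Topology MeasureTheory Set
open scoped ContDiff Real

namespace Vale.Agent.P116.FK

/-- `e^{iθ}` -/
noncomputable def uu (θ : ℝ) : ℂ := Complex.exp (θ * Complex.I)

theorem norm_uu (θ : ℝ) : ‖uu θ‖ = 1 := Complex.norm_exp_ofReal_mul_I θ

theorem continuous_uu : Continuous uu := by unfold uu; fun_prop

theorem hasDerivAt_uu (θ : ℝ) : HasDerivAt uu (Complex.I * uu θ) θ := by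
  unfold uu
  have h1 : HasDerivAt (fun θ : ℝ => (θ : ℂ) * Complex.I) (1 * Complex.I) θ :=
    (Complex.ofRealCLM.hasDerivAt (x := θ)).mul_const Complex.I
  have h2 := h1.cexp
  simpa [mul_comm] using h2

theorem polar_eq (p : ℝ × ℝ) : Complex.polarCoord.symm p = (p.1 : ℂ) * uu p.2 := by
  rw [Complex.polarCoord_symm_apply, uu, Complex.exp_mul_I]
  push_cast
  rfl

section

variable {ψ : ℂ → ℂ}

/-- twice the Wirtinger derivative -/
noncomputable def db (ψ : ℂ → ℂ) (w : ℂ) : ℂ := fderiv ℝ ψ w 1 + Complex.I * fderiv ℝ ψ w Complex.I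

/-- the polar form of the d-bar operator -/
theorem db_polar (D : ℂ →L[ℝ] ℂ) (θ : ℝ) :
    (uu θ)⁻¹ * (D 1 + Complex.I * D Complex.I) =
      D (uu θ) + Complex.I * D (Complex.I * uu θ) := by
  have h1 : uu θ = (Real.cos θ : ℂ) + (Real.sin θ : ℂ) * Complex.I := by
    rw [uu, Complex.exp_mul_I]; simp
  have h2 : (uu θ)⁻¹ = (Real.cos θ : ℂ) - (Real.sin θ : ℂ) * Complex.I := by
    rw [uu, ← Complex.exp_neg, ← neg_mul, Complex.exp_mul_I]
    simp only [Complex.cos_neg, Complex.sin_neg, neg_mul, Complex.ofReal_cos, Complex.ofReal_sin, sub_eq_add_neg]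
  have h3 : D (uu θ) = (Real.cos θ : ℂ) * D 1 + (Real.sin θ : ℂ) * D Complex.I := by
    have : uu θ = Real.cos θ • (1 : ℂ) + Real.sin θ • Complex.I := by
      rw [h1]; simp
    rw [this, map_add, map_smul, map_smul]
    simp only [Complex.real_smul, Complex.ofReal_cos, Complex.ofReal_sin]
  have h4 : D (Complex.I * uu θ) = (Real.cos θ : ℂ) * D Complex.I - (Real.sin θ : ℂ) * D 1 := by
    have : Complex.I * uu θ = Real.cos θ • Complex.I + (-Real.sin θ) • (1 : ℂ) := by
      rw [h1]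
      simp only [Complex.real_smul]
      push_cast
      ring_nf
      rw [Complex.I_sq]
      ring
    rw [this, map_add, map_smul, map_smul]
    simp only [Complex.real_smul]
    push_cast
    ring
  rw [h2, h3, h4]
  ring_nf
  rw [Complex.I_sq]
  ring

theorem radial_integral (h : ContDiff ℝ 1 ψ) (hs : HasCompactSupport ψ) (θ : ℝ) :
    ∫ r in Ioi (0 : ℝ), fderiv ℝ ψ ((r : ℂ) * uu θ) (uu θ) = - ψ 0 := by
  set g : ℝ → ℂ := fun r => ψ ((r : ℂ) * uu θ) with hg
  have hder : ∀ r : ℝ, HasDerivAt g (fderiv ℝ ψ ((r : ℂ) * uu θ) (uu θ)) r := by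
    intro r
    have h1 : HasDerivAt (fun r : ℝ => (r : ℂ) * uu θ) (uu θ) r := by
      simpa only [Complex.ofRealCLM_apply, Complex.ofReal_one, one_mul] using     (Complex.ofRealCLM.hasDerivAt (x := r)).mul_const (uu θ)
    exact ((h.differentiable (by simp) _).hasFDerivAt).comp_hasDerivAt r h1
  have hgs : HasCompactSupport g := by
    apply hs.comp_isClosedEmbedding
    apply Isometry.isClosedEmbedding
    intro x y
    rw [edist_dist, edist_dist, dist_eq_norm, dist_eq_norm, ← sub_mul, norm_mul, norm_uu, mul_one,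
      ← Complex.ofReal_sub, Complex.norm_real]
  have hgc : ContDiff ℝ 1 g := by
    apply h.comp
    exact (Complex.ofRealCLM.contDiff).mul contDiff_const
  have h2 := hgs.integral_Ioi_deriv_eq hgc 0
  have h3 : (fun r : ℝ => fderiv ℝ ψ ((r : ℂ) * uu θ) (uu θ)) = deriv g := by
    funext r
    exact (hder r).deriv.symm
  rw [h3, h2, hg]
  simp

theorem angular_integral (h : ContDiff ℝ 1 ψ) {r : ℝ} (hr : 0 < r) :
    ∫ θ in Ioo (-π) π, fderiv ℝ ψ ((r : ℂ) * uu θ) (Complex.I * uu θ) = 0 := by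
  rw [← integral_Ioc_eq_integral_Ioo, ← intervalIntegral.integral_of_le (by linarith only [Real.pi_pos])]
  have hder : ∀ θ : ℝ, HasDerivAt (fun θ : ℝ => ψ ((r : ℂ) * uu θ))
      (fderiv ℝ ψ ((r : ℂ) * uu θ) ((r : ℂ) * (Complex.I * uu θ))) θ := by
    intro θ
    have h1 : HasDerivAt (fun θ : ℝ => (r : ℂ) * uu θ) ((r : ℂ) * (Complex.I * uu θ)) θ :=
      (hasDerivAt_uu θ).const_mul _
    exact ((h.differentiable (by simp) _).hasFDerivAt).comp_hasDerivAt θ h1
  have hcont : Continuous fun θ : ℝ =>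
      fderiv ℝ ψ ((r : ℂ) * uu θ) ((r : ℂ) * (Complex.I * uu θ)) := by
    have := h.continuous_fderiv (by simp)
    have := continuous_uu
    fun_prop
  have h2 := intervalIntegral.integral_eq_sub_of_hasDerivAt (a := -π) (b := π)
    (fun θ _ => hder θ) (hcont.intervalIntegrable _ _)
  have h3 : uu π = uu (-π) := by
    unfold uu
    rw [Complex.exp_pi_mul_I]
    push_cast
    rw [neg_mul, Complex.exp_neg, Complex.exp_pi_mul_I]
    norm_num
  rw [h3, sub_self] at h2
  have h4 : ∀ θ : ℝ, fderiv ℝ ψ ((r : ℂ) * uu θ) ((r : ℂ) * (Complex.I * uu θ)) =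
      (r : ℂ) * fderiv ℝ ψ ((r : ℂ) * uu θ) (Complex.I * uu θ) := by
    intro θ
    have : (r : ℂ) * (Complex.I * uu θ) = r • (Complex.I * uu θ) := by simp
    rw [this, map_smul]
    simp only [Complex.real_smul]
  simp_rw [h4] at h2
  rw [intervalIntegral.integral_const_mul] at h2
  rcases mul_eq_zero.1 h2 with h5 | h5
  · exact absurd h5 (by exact_mod_cast hr.ne')
  · exact h5

theorem integrableOn_polar {v : ℝ → ℂ} (hv : Continuous v) (h : ContDiff ℝ 1 ψ)
    (hs : HasCompactSupport ψ) :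
    IntegrableOn (fun p : ℝ × ℝ => fderiv ℝ ψ ((p.1 : ℂ) * uu p.2) (v p.2))
      (Ioi (0 : ℝ) ×ˢ Ioo (-π) π) := by
  have hD := h.continuous_fderiv (by simp only [ne_eq, one_ne_zero, not_false_eq_true])
  have hDs : HasCompactSupport (fderiv ℝ ψ) := hs.fderiv ℝ
  obtain ⟨R, hR⟩ := hDs.isCompact.isBounded.subset_closedBall 0
  have hcont : Continuous fun p : ℝ × ℝ => fderiv ℝ ψ ((p.1 : ℂ) * uu p.2) (v p.2) := by
    have := continuous_uu
    fun_prop
  have h1 : IntegrableOn (fun p : ℝ × ℝ => fderiv ℝ ψ ((p.1 : ℂ) * uu p.2) (v p.2))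
      (Icc (0 : ℝ) R ×ˢ Icc (-π) π) :=
    hcont.continuousOn.integrableOn_compact (isCompact_Icc.prod isCompact_Icc)
  refine h1.of_forall_sdiff_eq_zero (measurableSet_Ioi.prod measurableSet_Ioo) ?_
  rintro ⟨r, θ⟩ ⟨h2, h3⟩
  have h4 : R < r := by
    by_contra hcon
    push Not at hcon
    exact h3 ⟨⟨(mem_Ioi.1 h2.1).le, hcon⟩, ⟨h2.2.1.le, h2.2.2.le⟩⟩
  have h5 : fderiv ℝ ψ ((r : ℂ) * uu θ) = 0 := by
    by_contra hcon
    have h6 : (r : ℂ) * uu θ ∈ tsupport (fderiv ℝ ψ) := subset_tsupport _ hcon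
    have h7 := hR h6
    rw [mem_closedBall_zero_iff, norm_mul, norm_uu, mul_one, Complex.norm_real] at h7
    have := le_abs_self r
    rw [Real.norm_eq_abs] at h7
    linarith
  simp only
  rw [h5]
  rfl

/-- Cauchy–Pompeiu -/
theorem pompeiu (h : ContDiff ℝ 1 ψ) (hs : HasCompactSupport ψ) :
    ∫ w : ℂ, w⁻¹ * db ψ w = - (2 * π) * ψ 0 := by
  rw [← Complex.integral_comp_polarCoord_symm, polarCoord_target]
  have h1 : ∀ p ∈ Ioi (0 : ℝ) ×ˢ Ioo (-π) π,
      p.1 • ((Complex.polarCoord.symm p)⁻¹ * db ψ (Complex.polarCoord.symm p)) =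
      fderiv ℝ ψ ((p.1 : ℂ) * uu p.2) (uu p.2) +
        Complex.I * fderiv ℝ ψ ((p.1 : ℂ) * uu p.2) (Complex.I * uu p.2) := by
    rintro ⟨r, θ⟩ ⟨hr, -⟩
    have hr0 : (r : ℂ) ≠ 0 := by exact_mod_cast (mem_Ioi.1 hr).ne'
    rw [polar_eq, ← db_polar, db, Complex.real_smul]
    simp only
    rw [mul_inv]
    field_simp
  rw [setIntegral_congr_fun (measurableSet_Ioi.prod measurableSet_Ioo) h1]
  have hA := integrableOn_polar (v := uu) continuous_uu h hs
  have hB := integrableOn_polar (v := fun θ => Complex.I * uu θ)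
    (continuous_const.mul continuous_uu) h hs
  rw [integral_add hA (hB.const_mul Complex.I), integral_const_mul]
  have e1 : ∫ p in Ioi (0 : ℝ) ×ˢ Ioo (-π) π, fderiv ℝ ψ ((p.1 : ℂ) * uu p.2) (uu p.2) =
      - (2 * π) * ψ 0 := by
    rw [IntegrableOn, Measure.volume_eq_prod, ← Measure.prod_restrict] at hA
    rw [Measure.volume_eq_prod, ← Measure.prod_restrict, integral_prod_symm _ hA]
    simp_rw [radial_integral h hs]
    rw [setIntegral_const]
    simp only [Real.volume_real_Ioo, sub_neg_eq_add]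
    rw [max_eq_left (by linarith [Real.pi_pos]), Complex.real_smul]
    push_cast
    ring
  have e2 : ∫ p in Ioi (0 : ℝ) ×ˢ Ioo (-π) π,
      fderiv ℝ ψ ((p.1 : ℂ) * uu p.2) (Complex.I * uu p.2) = 0 := by
    rw [Measure.volume_eq_prod, setIntegral_prod _ hB]
    rw [setIntegral_congr_fun measurableSet_Ioi (g := fun _ => 0)]
    · simp
    · intro r hr
      exact angular_integral h hr
  rw [e1, e2, mul_zero, add_zero]

end

end Vale.Agent.P116.FK
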