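import Vale.Agent.P116.FK.Basic

/-!
# Schwarz reflection in an annulus
-/

open Set Metric Filter Topology Complex Bornology
open scoped ComplexConjugate Real

namespace Vale.Agent.P116.FK

/-- The Cauchy integral over a circle is analytic off the circle. -/
theorem ci_diff {g : ℂ → ℂ} {ρ : ℝ} (hρ : 0 < ρ) (hg : ContinuousOn g (sphere 0 ρ)) {w₀ : ℂ}
    (hw : ‖w₀‖ ≠ ρ) : DifferentiableAt ℂ (fun w => ∮ ζ in C(0, ρ), g ζ / (ζ - w)) w₀ := by
  set d : ℝ := |‖w₀‖ - ρ| with hd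
  have hd0 : 0 < d := abs_pos.2 (sub_ne_zero.2 hw)
  obtain ⟨M, hM⟩ := (isCompact_sphere (0 : ℂ) ρ).exists_bound_of_continuousOn hg
  have hM0 : 0 ≤ M := (norm_nonneg _).trans (hM (ρ : ℂ) (by
    rw [mem_sphere_zero_iff_norm, Complex.norm_real, Real.norm_eq_abs, abs_of_pos hρ]))
  have hfar : ∀ ζ ∈ sphere (0 : ℂ) ρ, d ≤ ‖ζ - w₀‖ := by
    intro ζ hζ
    rw [mem_sphere_zero_iff_norm] at hζ
    rw [hd, ← hζ, abs_sub_comm]
    exact abs_norm_sub_norm_le ζ w₀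
  have hfar2 : ∀ w, ‖w - w₀‖ < d / 2 → ∀ ζ ∈ sphere (0 : ℂ) ρ, d / 2 ≤ ‖ζ - w‖ := by
    intro w hw ζ hζ
    have h1 := hfar ζ hζ
    have h2 : ‖ζ - w₀‖ ≤ ‖ζ - w‖ + ‖w - w₀‖ := norm_sub_le_norm_sub_add_norm_sub _ _ _
    linarith
  have hne : ∀ w, ‖w - w₀‖ < d / 2 → ∀ ζ ∈ sphere (0 : ℂ) ρ, ζ - w ≠ 0 := by
    intro w hw ζ hζ h0
    have := hfar2 w hw ζ hζ
    rw [h0, norm_zero] at this
    linarith
  have hint : ∀ w, ‖w - w₀‖ < d / 2 → ContinuousOn (fun ζ => g ζ / (ζ - w)) (sphere 0 ρ) := by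
    intro w hw
    exact hg.div (by fun_prop) (hne w hw)
  have hww : ‖w₀ - w₀‖ < d / 2 := by rw [sub_self, norm_zero]; positivity
  refine HasDerivAt.differentiableAt (f' := ∮ ζ in C(0, ρ), g ζ / (ζ - w₀) ^ 2) ?_
  rw [hasDerivAt_iff_isLittleO]
  have hO : (fun w => (∮ ζ in C(0, ρ), g ζ / (ζ - w)) - (∮ ζ in C(0, ρ), g ζ / (ζ - w₀)) -
      (w - w₀) • ∮ ζ in C(0, ρ), g ζ / (ζ - w₀) ^ 2) =O[𝓝 w₀] fun w => (w - w₀) ^ 2 := by
    refine Asymptotics.IsBigO.of_bound (2 * π * ρ * (M / (d / 2 * d ^ 2))) ?_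
    have hnear : ∀ᶠ w in 𝓝 w₀, ‖w - w₀‖ < d / 2 := by
      have := Metric.ball_mem_nhds w₀ (half_pos hd0)
      filter_upwards [this] with w hw
      rwa [mem_ball_iff_norm] at hw
    filter_upwards [hnear] with w hw
    have h1 : (∮ ζ in C(0, ρ), g ζ / (ζ - w)) - (∮ ζ in C(0, ρ), g ζ / (ζ - w₀)) -
      (w - w₀) • (∮ ζ in C(0, ρ), g ζ / (ζ - w₀) ^ 2) =
      ∮ ζ in C(0, ρ), (w - w₀) ^ 2 * (g ζ / ((ζ - w) * (ζ - w₀) ^ 2)) := by
      have c1 := (hint w hw).circleIntegrable hρ.le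
      have c2 := (hint w₀ hww).circleIntegrable hρ.le
      have c3 : CircleIntegrable (fun ζ => (w - w₀) • (g ζ / (ζ - w₀) ^ 2)) 0 ρ := by
        refine ContinuousOn.circleIntegrable hρ.le ?_
        have c4 : ContinuousOn (fun ζ : ℂ => (ζ - w₀) ^ 2) (sphere 0 ρ) := by fun_prop
        have c5 : ContinuousOn (fun ζ : ℂ => g ζ / (ζ - w₀) ^ 2) (sphere 0 ρ) :=
          hg.div c4 fun ζ hζ => pow_ne_zero _ (hne w₀ hww ζ hζ)
        simp only [smul_eq_mul]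
        exact continuousOn_const.mul c5
      rw [← circleIntegral.integral_smul, ← circleIntegral.integral_sub c1 c2,
        ← circleIntegral.integral_sub (f := fun ζ => g ζ / (ζ - w) - g ζ / (ζ - w₀))
          (c1.sub c2) c3]
      refine circleIntegral.integral_congr hρ.le fun ζ hζ => ?_
      have e1 := hne w hw ζ hζ
      have e2 := hne w₀ hww ζ hζ
      simp only [smul_eq_mul]
      field_simp
      ring
    rw [h1]
    have h2 := circleIntegral.norm_integral_le_of_norm_le_const (f := fun ζ =>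
      (w - w₀) ^ 2 * (g ζ / ((ζ - w) * (ζ - w₀) ^ 2))) (c := 0) (R := ρ)
      (C := ‖(w - w₀) ^ 2‖ * (M / (d / 2 * d ^ 2))) hρ.le (fun ζ hζ => by
        rw [norm_mul, norm_div, norm_mul, norm_pow (ζ - w₀)]
        refine mul_le_mul_of_nonneg_left ?_ (norm_nonneg _)
        refine div_le_div₀ hM0 (hM ζ hζ) (by positivity) ?_
        exact mul_le_mul (hfar2 w hw ζ hζ) (pow_le_pow_left₀ hd0.le (hfar ζ hζ) 2) (by positivity)
          (norm_nonneg _))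
    calc _ ≤ _ := h2
      _ = _ := by ring
  refine hO.trans_isLittleO ?_
  have : (fun w : ℂ => (w - w₀) ^ 2) =o[𝓝 w₀] fun w => w - w₀ := by
    have h3 : (fun w : ℂ => w - w₀) =o[𝓝 w₀] fun _ => (1 : ℂ) := by
      rw [Asymptotics.isLittleO_one_iff]
      have : Continuous fun w : ℂ => w - w₀ := by fun_prop
      have h4 := this.tendsto w₀
      rwa [sub_self] at h4
    have h5 := h3.mul_isBigO (Asymptotics.isBigO_refl (fun w : ℂ => w - w₀) (𝓝 w₀))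
    simpa [sq] using h5
  exact this

/-- Cauchy's theorem for an annulus. -/
theorem ann_eq {g : ℂ → ℂ} {a b r s : ℝ} (h0 : 0 < r) (hr : a < r) (hrs : r ≤ s) (hs : s < b)
    (hg : DifferentiableOn ℂ g (ann a b)) :
    (∮ ζ in C(0, s), g ζ) = ∮ ζ in C(0, r), g ζ := by
  refine Complex.circleIntegral_eq_of_differentiable_on_annulus_off_countable h0 hrs
    (Set.countable_empty) ?_ ?_
  · refine hg.continuousOn.mono fun z hz => ?_
    rw [Set.mem_sdiff, mem_closedBall_zero_iff, mem_ball_zero_iff] at hz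
    exact ⟨by linarith [hz.1, not_lt.1 hz.2], by linarith [hz.1]⟩
  · intro z hz
    have hz' : z ∈ ball (0 : ℂ) s \ closedBall 0 r := hz.1
    rw [Set.mem_sdiff, mem_closedBall_zero_iff, mem_ball_zero_iff] at hz'
    exact hg.differentiableAt ((isOpen_ann a b).mem_nhds ⟨by linarith [hz'.2, not_le.1 hz'.2],
      by linarith [hz'.1]⟩)

/-- Cauchy's formula for an annulus, for a point outside. -/
theorem cauchy_out {g : ℂ → ℂ} {a b r s : ℝ} (h0 : 0 < r) (hr : a < r) (hrs : r ≤ s) (hs : s < b)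
    (hg : DifferentiableOn ℂ g (ann a b)) {z : ℂ} (hz : ‖z‖ < r ∨ s < ‖z‖) :
    (∮ ζ in C(0, s), g ζ / (ζ - z)) = ∮ ζ in C(0, r), g ζ / (ζ - z) := by
  rcases hz with hz | hz
  · refine ann_eq (a := max a ‖z‖) (b := b) h0 (max_lt hr hz) hrs hs ?_
    refine DifferentiableOn.div (hg.mono fun ζ hζ => ⟨(le_max_left _ _).trans_lt hζ.1, hζ.2⟩)
      (by fun_prop) fun ζ hζ h => ?_
    have h1 : ‖z‖ < ‖ζ‖ := (le_max_right _ _).trans_lt hζ.1
    rw [sub_eq_zero.1 h] at h1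
    exact lt_irrefl _ h1
  · refine ann_eq (a := a) (b := min b ‖z‖) h0 hr hrs (lt_min hs hz) ?_
    refine DifferentiableOn.div (hg.mono fun ζ hζ => ⟨hζ.1, hζ.2.trans_le (min_le_left _ _)⟩)
      (by fun_prop) fun ζ hζ h => ?_
    have h1 : ‖ζ‖ < ‖z‖ := hζ.2.trans_le (min_le_right _ _)
    rw [sub_eq_zero.1 h] at h1
    exact lt_irrefl _ h1

/-- Cauchy's formula for an annulus. -/
theorem cauchy_ann {g : ℂ → ℂ} {a b r s : ℝ} (h0 : 0 < r) (hr : a < r) (hs : s < b)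
    (hg : DifferentiableOn ℂ g (ann a b)) {z : ℂ} (hz : r < ‖z‖) (hz' : ‖z‖ < s) :
    (∮ ζ in C(0, s), g ζ / (ζ - z)) - (∮ ζ in C(0, r), g ζ / (ζ - z)) = 2 * π * I * g z := by
  have hrs : r ≤ s := (hz.trans hz').le
  have hmem : ann a b ∈ 𝓝 z := (isOpen_ann a b).mem_nhds ⟨hr.trans hz, hz'.trans hs⟩
  have hd : DifferentiableOn ℂ (dslope g z) (ann a b) := (differentiableOn_dslope hmem).2 hg
  have h1 := ann_eq h0 hr hrs hs hd
  have key : ∀ ρ : ℝ, 0 < ρ → a < ρ → ρ < b → ρ ≠ ‖z‖ →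
      (∮ ζ in C(0, ρ), dslope g z ζ) = (∮ ζ in C(0, ρ), g ζ / (ζ - z)) -
        g z * ∮ ζ in C(0, ρ), (ζ - z)⁻¹ := by
    intro ρ h0 ha hb hne
    have hne' : ∀ ζ ∈ sphere (0 : ℂ) ρ, ζ - z ≠ 0 := by
      intro ζ hζ h
      rw [mem_sphere_zero_iff_norm, sub_eq_zero.1 h] at hζ
      exact hne hζ.symm
    have hsub : sphere (0 : ℂ) ρ ⊆ ann a b := fun ζ hζ => by
      rw [mem_sphere_zero_iff_norm] at hζ
      exact ⟨hζ.symm ▸ ha, hζ.symm ▸ hb⟩
    have c1 : CircleIntegrable (fun ζ => g ζ / (ζ - z)) 0 ρ :=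
      ((hg.continuousOn.mono hsub).div (by fun_prop) hne').circleIntegrable h0.le
    have c2 : CircleIntegrable (fun ζ => g z * (ζ - z)⁻¹) 0 ρ :=
      (ContinuousOn.mul continuousOn_const (ContinuousOn.inv₀ (by fun_prop) hne')).circleIntegrable
        h0.le
    rw [← circleIntegral.integral_const_mul, ← circleIntegral.integral_sub c1 c2]
    refine circleIntegral.integral_congr h0.le fun ζ hζ => ?_
    have hζz : ζ ≠ z := fun h => hne' ζ hζ (sub_eq_zero.2 h)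
    rw [dslope_of_ne _ hζz, slope_def_field]
    field_simp
  rw [key s (h0.trans_le hrs) (hr.trans_le hrs) hs hz'.ne', key r h0 hr (hrs.trans_lt hs) hz.ne,
    circleIntegral.integral_sub_inv_of_mem_ball (mem_ball_zero_iff.2 hz')] at h1
  have h2 : (∮ ζ in C(0, r), (ζ - z)⁻¹) = 0 := by
    refine Complex.circleIntegral_eq_zero_of_differentiable_on_off_countable h0.le
      Set.countable_empty ?_ ?_
    · refine ContinuousOn.inv₀ (by fun_prop) fun ζ hζ h => ?_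
      rw [mem_closedBall_zero_iff, sub_eq_zero.1 h] at hζ
      exact absurd hz (not_lt.2 hζ)
    · intro ζ hζ
      have hζ' : ζ ∈ ball (0 : ℂ) r := hζ.1
      refine DifferentiableAt.inv (by fun_prop) fun h => ?_
      rw [mem_ball_zero_iff, sub_eq_zero.1 h] at hζ'
      exact absurd hz (not_lt.2 hζ'.le)
  rw [h2] at h1
  linear_combination h1

/-- The reflected function. -/
noncomputable def rfl' (F : ℂ → ℂ) (ζ : ℂ) : ℂ := (conj (F (conj ζ)⁻¹))⁻¹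

theorem norm_cinv (ζ : ℂ) : ‖(conj ζ)⁻¹‖ = ‖ζ‖⁻¹ := by
  rw [norm_inv, RCLike.norm_conj]

theorem cinv_cinv (ζ : ℂ) : (conj (conj ζ)⁻¹)⁻¹ = ζ := by
  rw [map_inv₀, Complex.conj_conj, inv_inv]

theorem rfl'_diff {R : ℝ} (hR : 1 < R) {F : ℂ → ℂ} (hF : DifferentiableOn ℂ F (ann 1 R))
    (h0 : ∀ ζ ∈ ann 1 R, F ζ ≠ 0) : DifferentiableOn ℂ (rfl' F) (ann R⁻¹ 1) := by
  intro ζ hζ
  have hζ0 : 0 < ‖ζ‖ := (inv_pos.2 (by linarith)).trans hζ.1
  have hmem : (conj ζ)⁻¹ ∈ ann 1 R := by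
    refine ⟨?_, ?_⟩
    · rw [norm_cinv]; exact (one_lt_inv₀ hζ0).2 hζ.2
    · rw [norm_cinv]; exact inv_lt_of_inv_lt₀ (by linarith) hζ.1
  have h1 : DifferentiableAt ℂ F (conj ζ)⁻¹ := hF.differentiableAt ((isOpen_ann _ _).mem_nhds hmem)
  have h2 := h1.conj_conj
  have h3 : conj (conj ζ)⁻¹ = ζ⁻¹ := by rw [map_inv₀, Complex.conj_conj]
  rw [h3] at h2
  have h4 : DifferentiableAt ℂ (fun ζ : ℂ => ζ⁻¹) ζ :=
    differentiableAt_inv (norm_pos_iff.1 hζ0)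
  have h5 := h2.comp ζ h4
  have h6 : rfl' F = fun ζ => ((conj ∘ F ∘ conj) ((fun ζ : ℂ => ζ⁻¹) ζ))⁻¹ := by
    ext ζ
    simp only [rfl', Function.comp_apply, map_inv₀]
  rw [h6]
  refine (DifferentiableAt.inv h5 ?_).differentiableWithinAt
  simp only [Function.comp_apply, map_inv₀]
  exact (map_ne_zero _).2 (h0 _ hmem)

theorem jump_alg (ρ σ e u v z : ℂ) (h1 : ρ * e - z ≠ 0) (h2 : σ * e - z ≠ 0) :
    (ρ * e * I) * (u / (ρ * e - z)) - (σ * e * I) * (v / (σ * e - z)) =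
      e * I * (ρ * (u - v) / (ρ * e - z) - v * z * (ρ - σ) / ((ρ * e - z) * (σ * e - z))) := by
  have hA : (ρ * e - z) * (ρ * e - z)⁻¹ = 1 := mul_inv_cancel₀ h1
  have hB : (σ * e - z) * (σ * e - z)⁻¹ = 1 := mul_inv_cancel₀ h2
  simp only [div_eq_mul_inv, mul_inv]
  generalize (ρ * e - z)⁻¹ = A at *
  generalize (σ * e - z)⁻¹ = B at *
  linear_combination e * I * v * (σ * B * hA - ρ * A * hB)

section Jump

variable {R : ℝ} {F : ℂ → ℂ}

/-- The difference of the two Cauchy integrals tends to `0`. -/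
theorem jump_small (hR : 1 < R) (hF : DifferentiableOn ℂ F (ann 1 R))
    (h0 : ∀ ζ ∈ ann 1 R, F ζ ≠ 0)
    (hb : ∀ ε > 0, ∃ δ > 0, ∀ ζ, 1 < ‖ζ‖ → ‖ζ‖ < 1 + δ → |‖F ζ‖ - 1| < ε) {z : ℂ}
    (hz : ‖z‖ ≠ 1) {ε : ℝ} (hε : 0 < ε) : ∃ ρ₀ > 1, ∀ ρ, 1 < ρ → ρ < ρ₀ →
      ‖(∮ ζ in C(0, ρ), F ζ / (ζ - z)) - ∮ ζ in C(0, ρ⁻¹), rfl' F ζ / (ζ - z)‖ ≤ ε := by
  set d : ℝ := |1 - ‖z‖| with hd
  have hd0 : 0 < d := abs_pos.2 (sub_ne_zero.2 hz.symm)
  -- the size of the errors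
  set K : ℝ := 2 * π * (2 * 5 * (2 / d) + 2 * ‖z‖ * 2 * (2 / d * (2 / d))) + 1 with hK
  have hK0 : 0 < K := by positivity
  set η : ℝ := min (1 / 2) (ε / K) with hη
  have hη0 : 0 < η := by positivity
  obtain ⟨δ, hδ, hb⟩ := hb η hη0
  refine ⟨1 + min (min δ η) (min (d / 2) (min (R - 1) 1)), ?_, fun ρ h1 h2 => ?_⟩
  · have : 0 < min (min δ η) (min (d / 2) (min (R - 1) 1)) :=
      lt_min (lt_min hδ hη0) (lt_min (by positivity) (lt_min (by linarith) one_pos))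
    linarith
  have hρδ : ρ < 1 + δ := by
    have := (min_le_left (min δ η) (min (d / 2) (min (R - 1) 1))).trans (min_le_left _ _)
    linarith
  have hρη : ρ - 1 < η := by
    have := (min_le_left (min δ η) (min (d / 2) (min (R - 1) 1))).trans (min_le_right _ _)
    linarith
  have hρd : ρ - 1 < d / 2 := by
    have := (min_le_right (min δ η) (min (d / 2) (min (R - 1) 1))).trans (min_le_left _ _)
    linarith
  have hρR : ρ < R := by
    have := ((min_le_right (min δ η) (min (d / 2) (min (R - 1) 1))).trans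
      (min_le_right _ _)).trans (min_le_left _ _)
    linarith
  have hρ2 : ρ < 2 := by
    have := ((min_le_right (min δ η) (min (d / 2) (min (R - 1) 1))).trans
      (min_le_right _ _)).trans (min_le_right _ _)
    linarith
  have hρ0 : 0 < ρ := by linarith
  have hinv : 1 - ρ⁻¹ ≤ ρ - 1 := by
    have : 1 ≤ ρ * ρ := by nlinarith
    have h3 : ρ⁻¹ = 1 / ρ := by rw [one_div]
    rw [h3, sub_le_iff_le_add, ← sub_le_iff_le_add', le_div_iff₀ hρ0]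
    nlinarith
  have hinv1 : ρ⁻¹ < 1 := inv_lt_one_of_one_lt₀ h1
  have hinv0 : 0 < ρ⁻¹ := inv_pos.2 hρ0
  have hfar1 : ∀ e : ℂ, ‖e‖ = 1 → d / 2 ≤ ‖(ρ : ℂ) * e - z‖ := by
    intro e he
    have h3 : |‖(ρ : ℂ) * e‖ - ‖z‖| ≤ ‖(ρ : ℂ) * e - z‖ := abs_norm_sub_norm_le _ _
    rw [norm_mul, he, mul_one, Complex.norm_real, Real.norm_eq_abs, abs_of_pos hρ0] at h3
    have h4 : d ≤ |ρ - ‖z‖| + (ρ - 1) := by
      rw [hd]
      have h5 : |1 - ‖z‖| ≤ |ρ - ‖z‖| + |1 - ρ| := by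
        have := abs_sub_le 1 ρ ‖z‖
        linarith
      rw [abs_sub_comm 1 ρ, abs_of_pos (by linarith : (0 : ℝ) < ρ - 1)] at h5
      exact h5
    linarith
  have hfar2 : ∀ e : ℂ, ‖e‖ = 1 → d / 2 ≤ ‖((ρ⁻¹ : ℝ) : ℂ) * e - z‖ := by
    intro e he
    have h3 : |‖((ρ⁻¹ : ℝ) : ℂ) * e‖ - ‖z‖| ≤ ‖((ρ⁻¹ : ℝ) : ℂ) * e - z‖ := abs_norm_sub_norm_le _ _
    rw [norm_mul, he, mul_one, Complex.norm_real, Real.norm_eq_abs, abs_of_pos hinv0] at h3
    have h4 : d ≤ |ρ⁻¹ - ‖z‖| + (ρ - 1) := by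
      rw [hd]
      have h5 : |1 - ‖z‖| ≤ |ρ⁻¹ - ‖z‖| + |1 - ρ⁻¹| := by
        have := abs_sub_le 1 ρ⁻¹ ‖z‖
        linarith
      rw [abs_of_pos (by linarith : (0 : ℝ) < 1 - ρ⁻¹)] at h5
      linarith
    linarith
  have hcirc : ∀ (r : ℝ) (θ : ℝ), circleMap 0 r θ = (r : ℂ) * circleMap 0 1 θ := by
    intro r θ
    simp [circleMap]
  have hnorm1 : ∀ θ : ℝ, ‖circleMap 0 1 θ‖ = 1 := fun θ => by simp
  -- continuity of the integrands
  have hsub1 : sphere (0 : ℂ) ρ ⊆ ann 1 R := fun ζ hζ => by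
    rw [mem_sphere_zero_iff_norm] at hζ
    exact ⟨hζ.symm ▸ h1, hζ.symm ▸ hρR⟩
  have hsub2 : sphere (0 : ℂ) ρ⁻¹ ⊆ ann R⁻¹ 1 := fun ζ hζ => by
    rw [mem_sphere_zero_iff_norm] at hζ
    exact ⟨hζ.symm ▸ (inv_lt_inv₀ (by linarith) hρ0).2 hρR, hζ.symm ▸ hinv1⟩
  have c1 : CircleIntegrable (fun ζ => F ζ / (ζ - z)) 0 ρ := by
    refine ((hF.continuousOn.mono hsub1).div (by fun_prop) fun ζ hζ h => ?_).circleIntegrable hρ0.le
    rw [mem_sphere_zero_iff_norm] at hζ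
    have h3 := hfar1 (ζ / ρ) (by
      rw [norm_div, hζ, Complex.norm_real, Real.norm_eq_abs, abs_of_pos hρ0, div_self hρ0.ne'])
    rw [mul_div_cancel₀ _ (by exact_mod_cast hρ0.ne' : (ρ : ℂ) ≠ 0), h, norm_zero] at h3
    linarith
  have c2 : CircleIntegrable (fun ζ => rfl' F ζ / (ζ - z)) 0 ρ⁻¹ := by
    refine (((rfl'_diff hR hF h0).continuousOn.mono hsub2).div (by fun_prop)
      fun ζ hζ h => ?_).circleIntegrable hinv0.le
    rw [mem_sphere_zero_iff_norm] at hζ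
    have h3 := hfar2 (ζ / (ρ⁻¹ : ℝ)) (by
      rw [norm_div, hζ, Complex.norm_real, Real.norm_eq_abs, abs_of_pos hinv0,
        div_self hinv0.ne'])
    rw [mul_div_cancel₀ _ (by exact_mod_cast hinv0.ne' : ((ρ⁻¹ : ℝ) : ℂ) ≠ 0), h, norm_zero] at h3
    linarith
  have hbound : ∀ θ ∈ Set.uIoc 0 (2 * π), ‖deriv (circleMap 0 ρ) θ • (F (circleMap 0 ρ θ) /
      (circleMap 0 ρ θ - z)) - deriv (circleMap 0 ρ⁻¹) θ • (rfl' F (circleMap 0 ρ⁻¹ θ) /
      (circleMap 0 ρ⁻¹ θ - z))‖ ≤ (2 * 5 * (2 / d) + 2 * ‖z‖ * 2 * (2 / d * (2 / d))) * η := by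
    intro θ _
    rw [deriv_circleMap, deriv_circleMap]
    set e : ℂ := circleMap 0 1 θ with he
    have he1 : ‖e‖ = 1 := hnorm1 θ
    have he0 : e ≠ 0 := fun h => by rw [h, norm_zero] at he1; exact zero_ne_one he1
    rw [hcirc ρ θ, hcirc ρ⁻¹ θ, ← he]
    have hρe : ‖(ρ : ℂ) * e‖ = ρ := by
      rw [norm_mul, he1, mul_one, Complex.norm_real, Real.norm_eq_abs, abs_of_pos hρ0]
    have hrf : rfl' F (((ρ⁻¹ : ℝ) : ℂ) * e) = (conj (F ((ρ : ℂ) * e)))⁻¹ := by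
      rw [rfl']
      congr 3
      rw [map_mul, Complex.conj_ofReal, mul_inv, ← Complex.ofReal_inv, inv_inv]
      congr 1
      rw [Complex.inv_def, Complex.conj_conj, Complex.normSq_conj, Complex.normSq_eq_norm_sq, he1]
      simp
    rw [hrf]
    set u : ℂ := F ((ρ : ℂ) * e) with hu
    have hu1 : |‖u‖ - 1| < η := hb _ (by rw [hρe]; exact h1) (by rw [hρe]; exact hρδ)
    have hη2 : η ≤ 1 / 2 := min_le_left _ _
    have hu2 : 1 / 2 < ‖u‖ := by have := (abs_lt.1 hu1).1; linarith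
    have hu3 : ‖u‖ < 3 / 2 := by have := (abs_lt.1 hu1).2; linarith
    have hu0 : u ≠ 0 := norm_pos_iff.1 (by linarith)
    have hcu0 : conj u ≠ 0 := (map_ne_zero _).2 hu0
    have hv : ‖(conj u)⁻¹‖ ≤ 2 := by
      rw [norm_inv, RCLike.norm_conj]
      rw [inv_le_comm₀ (by linarith) (by norm_num)]
      linarith
    have huv : ‖u - (conj u)⁻¹‖ ≤ 5 * η := by
      have h3 : u - (conj u)⁻¹ = ((‖u‖ ^ 2 - 1 : ℝ) : ℂ) * (conj u)⁻¹ := by
        have : u * conj u = ((‖u‖ ^ 2 : ℝ) : ℂ) := by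
          rw [Complex.mul_conj, Complex.normSq_eq_norm_sq]
        field_simp
        rw [this]
        push_cast
        ring
      rw [h3, norm_mul, Complex.norm_real, Real.norm_eq_abs]
      have h4 : |‖u‖ ^ 2 - 1| ≤ 5 / 2 * η := by
        rw [show ‖u‖ ^ 2 - 1 = (‖u‖ - 1) * (‖u‖ + 1) by ring, abs_mul,
          abs_of_pos (by linarith : (0 : ℝ) < ‖u‖ + 1)]
        nlinarith [hu1.le, abs_nonneg (‖u‖ - 1)]
      calc |‖u‖ ^ 2 - 1| * ‖(conj u)⁻¹‖ ≤ 5 / 2 * η * 2 :=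
            mul_le_mul h4 hv (norm_nonneg _) (by positivity)
        _ = 5 * η := by ring
    have hf1 := hfar1 e he1
    have hf2 := hfar2 e he1
    have hn1 : (ρ : ℂ) * e - z ≠ 0 := norm_pos_iff.1 (by linarith)
    have hn2 : ((ρ⁻¹ : ℝ) : ℂ) * e - z ≠ 0 := norm_pos_iff.1 (by linarith)
    have key : ((ρ : ℂ) * e * I) • (u / ((ρ : ℂ) * e - z)) -
        (((ρ⁻¹ : ℝ) : ℂ) * e * I) • ((conj u)⁻¹ / (((ρ⁻¹ : ℝ) : ℂ) * e - z)) =
        e * I * ((ρ : ℂ) * (u - (conj u)⁻¹) / ((ρ : ℂ) * e - z) -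
          (conj u)⁻¹ * z * ((ρ - ρ⁻¹ : ℝ) : ℂ) /
            (((ρ : ℂ) * e - z) * (((ρ⁻¹ : ℝ) : ℂ) * e - z))) := by
      rw [Complex.ofReal_sub]
      exact jump_alg _ _ _ _ _ _ hn1 hn2
    rw [key, norm_mul, norm_mul, he1, Complex.norm_I, one_mul, one_mul]
    refine (norm_sub_le _ _).trans ?_
    rw [norm_div, norm_div, norm_mul, norm_mul, norm_mul, norm_mul, Complex.norm_real,
      Complex.norm_real, Real.norm_eq_abs, Real.norm_eq_abs, abs_of_pos hρ0,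
      abs_of_pos (by linarith : (0 : ℝ) < ρ - ρ⁻¹)]
    have hdd : 0 < d / 2 := by positivity
    have e1 : ρ * ‖u - (conj u)⁻¹‖ / ‖(ρ : ℂ) * e - z‖ ≤ 2 * (5 * η) / (d / 2) :=
      div_le_div₀ (by positivity) (mul_le_mul hρ2.le huv (norm_nonneg _) (by norm_num)) hdd hf1
    have e2 : ‖(conj u)⁻¹‖ * ‖z‖ * (ρ - ρ⁻¹) / (‖(ρ : ℂ) * e - z‖ * ‖((ρ⁻¹ : ℝ) : ℂ) * e - z‖) ≤
        2 * ‖z‖ * (2 * η) / (d / 2 * (d / 2)) := by
      refine div_le_div₀ (by positivity) ?_ (by positivity) (mul_le_mul hf1 hf2 hdd.le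
        (norm_nonneg _))
      refine mul_le_mul (mul_le_mul_of_nonneg_right hv (norm_nonneg _)) (by linarith)
        (by linarith) (by positivity)
    calc _ ≤ 2 * (5 * η) / (d / 2) + 2 * ‖z‖ * (2 * η) / (d / 2 * (d / 2)) := add_le_add e1 e2
      _ = _ := by field_simp
  have hI : (∮ ζ in C(0, ρ), F ζ / (ζ - z)) - (∮ ζ in C(0, ρ⁻¹), rfl' F ζ / (ζ - z)) =
      ∫ θ in (0 : ℝ)..2 * π, (deriv (circleMap 0 ρ) θ • (F (circleMap 0 ρ θ) /
        (circleMap 0 ρ θ - z)) - deriv (circleMap 0 ρ⁻¹) θ • (rfl' F (circleMap 0 ρ⁻¹ θ) /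
        (circleMap 0 ρ⁻¹ θ - z))) := by
    rw [circleIntegral, circleIntegral, ← intervalIntegral.integral_sub c1.out c2.out]
  rw [hI]
  refine (intervalIntegral.norm_integral_le_of_norm_le_const hbound).trans ?_
  rw [sub_zero, abs_of_pos (by positivity : (0 : ℝ) < 2 * π)]
  have hηK : η ≤ ε / K := min_le_right _ _
  calc (2 * 5 * (2 / d) + 2 * ‖z‖ * 2 * (2 / d * (2 / d))) * η * (2 * π) = (K - 1) * η := by
        rw [hK]; ring
    _ ≤ K * η := by nlinarith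
    _ ≤ K * (ε / K) := mul_le_mul_of_nonneg_left hηK hK0.le
    _ = ε := by field_simp

/-- The Cauchy integral which extends `F` across the circle. -/
noncomputable def Psi (F : ℂ → ℂ) (r : ℝ) (z : ℂ) : ℂ :=
  (2 * π * I)⁻¹ * ((∮ ζ in C(0, r), F ζ / (ζ - z)) - ∮ ζ in C(0, r⁻¹), rfl' F ζ / (ζ - z))

theorem two_pi_I_ne : (2 * π * I : ℂ) ≠ 0 := by
  simp [Real.pi_ne_zero]

theorem Psi_eq (hR : 1 < R) (hF : DifferentiableOn ℂ F (ann 1 R))
    (h0 : ∀ ζ ∈ ann 1 R, F ζ ≠ 0)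
    (hb : ∀ ε > 0, ∃ δ > 0, ∀ ζ, 1 < ‖ζ‖ → ‖ζ‖ < 1 + δ → |‖F ζ‖ - 1| < ε) {r : ℝ} (hr : 1 < r)
    (hrR : r < R) {z : ℂ} (hz : ‖z‖ ≠ 1) (hz1 : r⁻¹ < ‖z‖) (hz2 : ‖z‖ < r) :
    Psi F r z = if 1 < ‖z‖ then F z else rfl' F z := by
  have hF' := rfl'_diff hR hF h0
  have hr0 : 0 < r := by linarith
  have hrR' : R⁻¹ < r⁻¹ := (inv_lt_inv₀ (by linarith) hr0).2 hrR
  set v : ℂ := if 1 < ‖z‖ then F z else rfl' F z with hv
  have key : ∀ ε > 0, ‖((∮ ζ in C(0, r), F ζ / (ζ - z)) -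
      ∮ ζ in C(0, r⁻¹), rfl' F ζ / (ζ - z)) - 2 * π * I * v‖ ≤ ε := by
    intro ε hε
    obtain ⟨ρ₀, hρ₀, hρ⟩ := jump_small hR hF h0 hb hz hε
    by_cases h1 : 1 < ‖z‖
    · obtain ⟨ρ, h3, h4⟩ := exists_between (lt_min hρ₀ h1)
      have h5 : ρ < ‖z‖ := h4.trans_le (min_le_right _ _)
      have h6 := hρ ρ h3 (h4.trans_le (min_le_left _ _))
      have h7 := cauchy_ann (by linarith) h3 hrR hF h5 hz2
      have h8 := cauchy_out (r := r⁻¹) (s := ρ⁻¹) (z := z) (inv_pos.2 hr0) hrR'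
        ((inv_le_inv₀ hr0 (by linarith)).2 (h5.trans hz2).le) (inv_lt_one_of_one_lt₀ h3) hF'
        (Or.inr ((inv_lt_one_of_one_lt₀ h3).trans h1))
      rw [hv, if_pos h1, ← h7, ← h8]
      convert h6 using 2
      ring
    · have h1' : ‖z‖ < 1 := lt_of_le_of_ne (not_lt.1 h1) hz
      have hz0 : 0 < ‖z‖ := (inv_pos.2 hr0).trans hz1
      obtain ⟨ρ, h3, h4⟩ := exists_between (lt_min (lt_min hρ₀ ((one_lt_inv₀ hz0).2 h1')) hr)
      have h5 : ρ < ‖z‖⁻¹ := h4.trans_le ((min_le_left _ _).trans (min_le_right _ _))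
      have h5' : ‖z‖ < ρ⁻¹ := by
        rw [lt_inv_comm₀ hz0 (by linarith)]
        exact h5
      have h6 := hρ ρ h3 (h4.trans_le ((min_le_left _ _).trans (min_le_left _ _)))
      have hρr : ρ < r := h4.trans_le (min_le_right _ _)
      have h7 := cauchy_ann (inv_pos.2 hr0) hrR' (inv_lt_one_of_one_lt₀ h3) hF' hz1 h5'
      have h8 := cauchy_out (r := ρ) (s := r) (z := z) (by linarith) h3 hρr.le hrR hF
        (Or.inl (h1'.trans h3))
      rw [hv, if_neg h1, ← h7, h8]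
      convert h6 using 2
      ring
  have h9 : ((∮ ζ in C(0, r), F ζ / (ζ - z)) -
      ∮ ζ in C(0, r⁻¹), rfl' F ζ / (ζ - z)) - 2 * π * I * v = 0 := by
    rw [← norm_le_zero_iff]
    exact le_of_forall_pos_le_add fun ε hε => by rw [zero_add]; exact key ε hε
  rw [Psi, sub_eq_zero.1 h9, inv_mul_cancel_left₀ two_pi_I_ne]

theorem Psi_diff (hR : 1 < R) (hF : DifferentiableOn ℂ F (ann 1 R))
    (h0 : ∀ ζ ∈ ann 1 R, F ζ ≠ 0) {r : ℝ} (hr : 1 < r)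
    (hrR : r < R) {z : ℂ} (hz1 : r⁻¹ < ‖z‖) (hz2 : ‖z‖ < r) : DifferentiableAt ℂ (Psi F r) z := by
  have hr0 : 0 < r := by linarith
  have hrR' : R⁻¹ < r⁻¹ := (inv_lt_inv₀ (by linarith) hr0).2 hrR
  have h1 := ci_diff (g := F) (ρ := r) hr0 (hF.continuousOn.mono fun ζ hζ => by
    rw [mem_sphere_zero_iff_norm] at hζ
    exact ⟨hζ.symm ▸ hr, hζ.symm ▸ hrR⟩) hz2.ne
  have h2 := ci_diff (g := rfl' F) (ρ := r⁻¹) (inv_pos.2 hr0)
    ((rfl'_diff hR hF h0).continuousOn.mono fun ζ hζ => by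
      rw [mem_sphere_zero_iff_norm] at hζ
      exact ⟨hζ.symm ▸ hrR', hζ.symm ▸ inv_lt_one_of_one_lt₀ hr⟩) hz1.ne'
  exact (h1.sub h2).const_mul _

end Jump

/-- RF: Schwarz reflection in an annulus. -/
theorem rf : Spec.RF := by
  intro R hR F hF h0 hb
  obtain ⟨r, hr, hrR⟩ := exists_between hR
  have hr0 : 0 < r := by linarith
  have hF' := rfl'_diff hR hF h0
  set ψ : ℂ → ℂ := fun z => if 1 < ‖z‖ then F z else if ‖z‖ < 1 then rfl' F z else Psi F r z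
    with hψ
  have hout : ∀ z, 1 < ‖z‖ → ψ z = F z := fun z h => if_pos h
  have hin : ∀ z, ‖z‖ < 1 → ψ z = rfl' F z := fun z h => by
    rw [hψ]
    dsimp only
    rw [if_neg (not_lt.2 h.le), if_pos h]
  have hPsi : ∀ z, r⁻¹ < ‖z‖ → ‖z‖ < r → ψ z = Psi F r z := by
    intro z h1 h2
    by_cases h3 : 1 < ‖z‖
    · rw [hout z h3, Psi_eq hR hF h0 hb hr hrR h3.ne' h1 h2, if_pos h3]
    · by_cases h4 : ‖z‖ < 1
      · rw [hin z h4, Psi_eq hR hF h0 hb hr hrR h4.ne h1 h2, if_neg h3]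
      · rw [hψ]
        dsimp only
        rw [if_neg h3, if_neg h4]
  have hd : DifferentiableOn ℂ ψ (ann R⁻¹ R) := by
    intro z hz
    refine DifferentiableAt.differentiableWithinAt ?_
    rcases lt_trichotomy ‖z‖ 1 with h | h | h
    · have h1 : DifferentiableAt ℂ (rfl' F) z :=
        hF'.differentiableAt ((isOpen_ann _ _).mem_nhds ⟨hz.1, h⟩)
      refine h1.congr_of_eventuallyEq ?_
      filter_upwards [(isOpen_lt continuous_norm continuous_const).mem_nhds h] with w hw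
      exact hin w hw
    · have hz1 : r⁻¹ < ‖z‖ := by rw [h]; exact inv_lt_one_of_one_lt₀ hr
      have hz2 : ‖z‖ < r := by rw [h]; exact hr
      refine (Psi_diff hR hF h0 hr hrR hz1 hz2).congr_of_eventuallyEq ?_
      filter_upwards [(isOpen_ann r⁻¹ r).mem_nhds ⟨hz1, hz2⟩] with w hw
      exact hPsi w hw.1 hw.2
    · have h1 : DifferentiableAt ℂ F z :=
        hF.differentiableAt ((isOpen_ann _ _).mem_nhds ⟨h, hz.2⟩)
      refine h1.congr_of_eventuallyEq ?_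
      filter_upwards [(isOpen_lt continuous_const continuous_norm).mem_nhds h] with w hw
      exact hout w hw
  refine ⟨ψ, hd, fun ζ hζ => hout ζ hζ.1, fun ζ hζ => ?_⟩
  have hζ0 : 0 < ‖ζ‖ := (inv_pos.2 (by linarith)).trans hζ.1
  rcases lt_trichotomy ‖ζ‖ 1 with h | h | h
  · have h1 : 1 < ‖(conj ζ)⁻¹‖ := by rw [norm_cinv]; exact (one_lt_inv₀ hζ0).2 h
    have h2 : (conj ζ)⁻¹ ∈ ann 1 R :=
      ⟨h1, by rw [norm_cinv]; exact inv_lt_of_inv_lt₀ (by linarith) hζ.1⟩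
    rw [hin ζ h, hout _ h1, rfl', map_inv₀, Complex.conj_conj, inv_mul_cancel₀ (h0 _ h2)]
  · -- on the circle
    have h1 : (conj ζ)⁻¹ = ζ := by
      rw [Complex.inv_def, Complex.conj_conj, Complex.normSq_conj, Complex.normSq_eq_norm_sq, h]
      simp
    rw [h1]
    have hc : ContinuousAt ψ ζ := (hd.differentiableAt ((isOpen_ann _ _).mem_nhds hζ)).continuousAt
    have hn : ‖ψ ζ‖ = 1 := by
      have h2 : Tendsto (fun t : ℝ => ‖ψ ((t : ℂ) * ζ)‖) (𝓝[>] 1) (𝓝 ‖ψ ζ‖) := by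
        have h3 : Tendsto (fun t : ℝ => (t : ℂ) * ζ) (𝓝[>] 1) (𝓝 ζ) := by
          have : Continuous fun t : ℝ => (t : ℂ) * ζ := by fun_prop
          have h4 := this.tendsto 1
          simp only [Complex.ofReal_one, one_mul] at h4
          exact h4.mono_left nhdsWithin_le_nhds
        exact (hc.tendsto.comp h3).norm
      have h5 : Tendsto (fun t : ℝ => ‖ψ ((t : ℂ) * ζ)‖) (𝓝[>] 1) (𝓝 1) := by
        rw [Metric.tendsto_nhds]
        intro ε hε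
        obtain ⟨δ, hδ, hb⟩ := hb ε hε
        filter_upwards [Ioo_mem_nhdsGT (show (1 : ℝ) < 1 + δ by linarith)] with t ht
        have h6 : ‖(t : ℂ) * ζ‖ = t := by
          rw [norm_mul, h, mul_one, Complex.norm_real, Real.norm_eq_abs,
            abs_of_pos (by linarith [ht.1])]
        rw [hout _ (by rw [h6]; exact ht.1), Real.dist_eq]
        exact hb _ (by rw [h6]; exact ht.1) (by rw [h6]; exact ht.2)
      exact tendsto_nhds_unique h2 h5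
    rw [mul_comm, Complex.mul_conj, Complex.normSq_eq_norm_sq, hn]
    simp
  · have h1 : ‖(conj ζ)⁻¹‖ < 1 := by rw [norm_cinv]; exact inv_lt_one_of_one_lt₀ h
    rw [hout ζ h, hin _ h1, rfl', cinv_cinv, mul_inv_cancel₀]
    exact (map_ne_zero _).2 (h0 _ ⟨h, hζ.2⟩)

end Vale.Agent.P116.FK
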