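import Vale.Agent.P116.FK.Basic
import Vale.Agent.P116.FK.Compact

/-!
# Riemann mapping theorem for domains with the square root property
(adapted from `Vale.Agent.P071.Bdl.B11`)
-/

open Function Filter Metric Set Topology Complex
open scoped Pointwise ComplexConjugate

namespace Vale.Agent.P116.FK

/-- every nonvanishing analytic function on `U` has an analytic square root -/
def SqrtProp (U : Set ℂ) : Prop := ∀ f : ℂ → ℂ, DifferentiableOn ℂ f U → (∀ z ∈ U, f z ≠ 0) →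
  ∃ q : ℂ → ℂ, DifferentiableOn ℂ q U ∧ ∀ z ∈ U, q z ^ 2 = f z

theorem sqrt_der {U : Set ℂ} (hU : IsOpen U) {q h : ℂ → ℂ} (hq : DifferentiableOn ℂ q U)
    (hsq : ∀ x ∈ U, q x ^ 2 = h x) {z h' : ℂ} (hz : z ∈ U) (hz0 : q z ≠ 0)
    (hh : HasDerivAt h h' z) : HasDerivAt q (h' / (2 * q z)) z := by
  have h1 : HasDerivAt q (deriv q z) z := ((hq z hz).differentiableAt (hU.mem_nhds hz)).hasDerivAt
  have h2 : HasDerivAt (fun x => q x ^ 2) (2 * q z * deriv q z) z := by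
    have := h1.fun_pow 2
    simpa using this
  have h3 : HasDerivAt (fun x => q x ^ 2) h' z := by
    refine hh.congr_of_eventuallyEq ?_
    filter_upwards [hU.mem_nhds hz] with x hx
    exact hsq x hx
  have h4 := h2.unique h3
  have h5 : deriv q z = h' / (2 * q z) := by
    rw [← h4]; field_simp
  rw [← h5]; exact h1

theorem step2 {U : Set ℂ} (hU : IsOpen U) (hS : SqrtProp U) (hne : U ≠ univ) {z₀ : ℂ}
    (hz₀ : z₀ ∈ U) :
    ∃ f : ℂ → ℂ, MapsTo f U (ball 0 1) ∧ InjOn f U ∧ ∀ z ∈ U, deriv f z ≠ 0 := by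
  obtain ⟨a, ha⟩ := (ne_univ_iff_exists_notMem U).1 hne
  obtain ⟨q, hq, hsq⟩ := hS (fun z => z - a) (by fun_prop) (fun z hz h => ha (by
    rw [sub_eq_zero.1 h] at hz; exact hz))
  have hq0 : ∀ z ∈ U, q z ≠ 0 := by
    intro z hz h
    have := hsq z hz
    rw [h] at this
    simp only [ne_eq, OfNat.ofNat_ne_zero, not_false_eq_true, zero_pow] at this
    exact ha (by rw [← sub_eq_zero.1 this.symm]; exact hz)
  have hqi : InjOn q U := by
    intro z hz w hw h
    have h1 := hsq z hz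
    have h2 := hsq w hw
    rw [h, h2] at h1
    exact (sub_left_injective h1).symm
  have hop := isOpen_image_of_injOn hU hq hqi
  obtain ⟨ε, hε, hball⟩ := Metric.isOpen_iff.1 hop (q z₀) (mem_image_of_mem _ hz₀)
  have hfar : ∀ z ∈ U, ε ≤ ‖q z + q z₀‖ := by
    intro z hz
    by_contra hcon
    rw [not_le] at hcon
    have h1 : -q z ∈ ball (q z₀) ε := by
      rw [mem_ball, dist_eq_norm, ← norm_neg]
      have : -(-q z - q z₀) = q z + q z₀ := by ring
      rw [this]; exact hcon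
    obtain ⟨z', hz', h2⟩ := hball h1
    have h3 := hsq z' hz'
    rw [h2, neg_sq, hsq z hz] at h3
    have h4 : z = z' := sub_left_injective h3
    subst h4
    exact hq0 z hz (by linear_combination (1/2 : ℂ) * h2)
  have hne0 : ∀ z ∈ U, q z + q z₀ ≠ 0 := by
    intro z hz h
    have := hfar z hz
    rw [h, norm_zero] at this
    linarith
  refine ⟨fun z => ((ε / 2 : ℝ) : ℂ) / (q z + q z₀), ?_, ?_, ?_⟩
  · intro z hz
    rw [mem_ball_zero_iff, norm_div, Complex.norm_real, Real.norm_of_nonneg (by positivity),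
      div_lt_one (norm_pos_iff.2 (hne0 z hz))]
    have := hfar z hz
    linarith
  · intro z hz w hw h
    have hε' : ((ε / 2 : ℝ) : ℂ) ≠ 0 := by
      rw [Ne, Complex.ofReal_eq_zero]; positivity
    simp only at h
    rw [div_eq_div_iff (hne0 z hz) (hne0 w hw)] at h
    have h2 := mul_left_cancel₀ hε' h
    exact hqi hz hw (by linear_combination -h2)
  · have hd : DifferentiableOn ℂ (fun z => ((ε / 2 : ℝ) : ℂ) / (q z + q z₀)) U :=
      (differentiableOn_const _).div (hq.add_const _) hne0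
    refine fun z hz => injOn_deriv_ne_zero hU hd ?_ hz
    intro z hz w hw h
    have hε' : ((ε / 2 : ℝ) : ℂ) ≠ 0 := by
      rw [Ne, Complex.ofReal_eq_zero]; positivity
    simp only at h
    rw [div_eq_div_iff (hne0 z hz) (hne0 w hw)] at h
    have h2 := mul_left_cancel₀ hε' h
    exact hqi hz hw (by linear_combination -h2)

/-! ### Moebius maps of the disc -/

/-- the Moebius map `(z - w) / (1 - conj w * z)` -/
noncomputable def mob (w z : ℂ) : ℂ := (z - w) / (1 - conj w * z)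

theorem mob_den {w z : ℂ} (hw : ‖w‖ < 1) (hz : ‖z‖ < 1) : 1 - conj w * z ≠ 0 := by
  intro h
  have h1 : conj w * z = 1 := by linear_combination -h
  have h2 : ‖conj w * z‖ = 1 := by rw [h1]; simp
  rw [norm_mul, RCLike.norm_conj] at h2
  have := mul_lt_one_of_nonneg_of_lt_one_left (norm_nonneg w) hw hz.le
  linarith only [h2, this]

theorem mob_norm {w z : ℂ} (hw : ‖w‖ < 1) (hz : ‖z‖ < 1) : ‖mob w z‖ < 1 := by
  unfold mob
  have h0 := mob_den hw hz
  rw [norm_div, div_lt_one (norm_pos_iff.2 h0)]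
  have h1 : ‖z - w‖ ^ 2 < ‖1 - conj w * z‖ ^ 2 := by
    have e1 : ‖1 - conj w * z‖ ^ 2 - ‖z - w‖ ^ 2 = (1 - ‖w‖ ^ 2) * (1 - ‖z‖ ^ 2) := by
      rw [← Complex.normSq_eq_norm_sq, ← Complex.normSq_eq_norm_sq, ← Complex.normSq_eq_norm_sq,
        ← Complex.normSq_eq_norm_sq]
      simp only [Complex.normSq_apply, Complex.sub_re, Complex.sub_im, Complex.mul_re,
        Complex.mul_im, Complex.one_re, Complex.one_im, Complex.conj_re, Complex.conj_im]
      ring
    have h2 : 0 < (1 - ‖w‖ ^ 2) * (1 - ‖z‖ ^ 2) := by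
      apply mul_pos
      · nlinarith only [hw, norm_nonneg w]
      · nlinarith only [hz, norm_nonneg z]
    linarith only [e1, h2]
  exact lt_of_pow_lt_pow_left₀ 2 (norm_nonneg _) h1

theorem mob_hasDerivAt {w z : ℂ} (hw : ‖w‖ < 1) (hz : ‖z‖ < 1) :
    HasDerivAt (mob w) ((1 - ‖w‖ ^ 2) / (1 - conj w * z) ^ 2) z := by
  have h0 := mob_den hw hz
  have h1 : HasDerivAt (fun z : ℂ => z - w) 1 z := (hasDerivAt_id z).sub_const w
  have h2 : HasDerivAt (fun z : ℂ => 1 - conj w * z) (-(conj w)) z := by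
    simpa only [id_eq, mul_one] using ((hasDerivAt_id z).const_mul (conj w)).const_sub 1
  have h3 := h1.fun_div h2 h0
  refine h3.congr_deriv ?_
  congr 1
  have : (‖w‖ ^ 2 : ℂ) = conj w * w := by
    rw [Complex.conj_mul']
  rw [this]
  ring

theorem mob_deriv_ne {w z : ℂ} (hw : ‖w‖ < 1) (hz : ‖z‖ < 1) :
    (1 - (‖w‖ : ℂ) ^ 2) / (1 - conj w * z) ^ 2 ≠ 0 := by
  apply div_ne_zero
  · have : (1 - (‖w‖ : ℂ) ^ 2) = ((1 - ‖w‖ ^ 2 : ℝ) : ℂ) := by push_cast; rfl
    rw [this]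
    have : 0 < 1 - ‖w‖ ^ 2 := by nlinarith only [hw, norm_nonneg w]
    exact_mod_cast this.ne'
  · exact pow_ne_zero 2 (mob_den hw hz)

theorem mob_inj {w z z' : ℂ} (hw : ‖w‖ < 1) (hz : ‖z‖ < 1) (hz' : ‖z'‖ < 1)
    (h : mob w z = mob w z') : z = z' := by
  unfold mob at h
  rw [div_eq_div_iff (mob_den hw hz) (mob_den hw hz')] at h
  have h1 : (z - z') * (1 - conj w * w) = 0 := by linear_combination h
  have h2 : (1 - conj w * w) ≠ 0 := mob_den hw hw
  have h3 := (mul_eq_zero.1 h1).resolve_right h2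
  exact sub_eq_zero.1 h3

theorem mob_self (w : ℂ) : mob w w = 0 := by simp only [mob, sub_self, zero_div]

theorem mob_zero (w : ℂ) : mob w 0 = -w := by simp only [mob, zero_sub, mul_zero, sub_zero, div_one]

theorem mob_eq_zero {w z : ℂ} (hw : ‖w‖ < 1) (hz : ‖z‖ < 1) (h : mob w z = 0) : z = w := by
  apply mob_inj hw hz hw
  rw [h, mob_self]
/-- the family of competitors -/
def Cmp (U : Set ℂ) (z₀ : ℂ) (f : ℂ → ℂ) : Prop :=
  DifferentiableOn ℂ f U ∧ MapsTo f U (ball 0 1) ∧ InjOn f U ∧ (∀ z ∈ U, deriv f z ≠ 0) ∧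
    f z₀ = 0

theorem fam_mob {U : Set ℂ} (hU : IsOpen U) {z₀ : ℂ} (hz₀ : z₀ ∈ U) {f : ℂ → ℂ}
    (h1 : DifferentiableOn ℂ f U) (h2 : MapsTo f U (ball 0 1)) (h3 : InjOn f U)
    (h4 : ∀ z ∈ U, deriv f z ≠ 0) : Cmp U z₀ (fun z => mob (f z₀) (f z)) ∧
      deriv (fun z => mob (f z₀) (f z)) z₀ = deriv f z₀ / (1 - ‖f z₀‖ ^ 2) := by
  have hb : ∀ z ∈ U, ‖f z‖ < 1 := fun z hz => by simpa only [mem_ball, dist_zero_right] using h2 hz
  have hder : ∀ z ∈ U, HasDerivAt (fun z => mob (f z₀) (f z))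
      ((1 - ‖f z₀‖ ^ 2) / (1 - conj (f z₀) * f z) ^ 2 * deriv f z) z := by
    intro z hz
    have e1 := (h1.differentiableAt (hU.mem_nhds hz)).hasDerivAt
    exact (mob_hasDerivAt (hb z₀ hz₀) (hb z hz)).comp z e1
  refine ⟨⟨fun z hz => (hder z hz).differentiableAt.differentiableWithinAt, ?_, ?_, ?_, ?_⟩, ?_⟩
  · intro z hz
    simpa only [mem_ball, dist_zero_right] using mob_norm (hb z₀ hz₀) (hb z hz)
  · intro z hz z' hz' h
    exact h3 hz hz' (mob_inj (hb z₀ hz₀) (hb z hz) (hb z' hz') h)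
  · intro z hz
    rw [(hder z hz).deriv]
    exact mul_ne_zero (mob_deriv_ne (hb z₀ hz₀) (hb z hz)) (h4 z hz)
  · exact mob_self _
  · rw [(hder z₀ hz₀).deriv]
    have e1 : (1 : ℂ) - conj (f z₀) * f z₀ = 1 - ‖f z₀‖ ^ 2 := by
      rw [Complex.conj_mul']
    have e2 : (1 : ℂ) - ‖f z₀‖ ^ 2 ≠ 0 := by
      rw [← e1]; exact mob_den (hb z₀ hz₀) (hb z₀ hz₀)
    rw [e1]
    field_simp
/-- if a competitor is not onto the disc, there is a better one -/
theorem fam_improve {U : Set ℂ} (hU : IsOpen U) (hS : SqrtProp U) {z₀ : ℂ}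
    (hz₀ : z₀ ∈ U) {f : ℂ → ℂ} (hf : Cmp U z₀ f) {w : ℂ} (hw : ‖w‖ < 1) (hwf : w ∉ f '' U) :
    ∃ F, Cmp U z₀ F ∧ ‖deriv f z₀‖ < ‖deriv F z₀‖ := by
  obtain ⟨h1, h2, h3, h4, h5⟩ := hf
  have hb : ∀ z ∈ U, ‖f z‖ < 1 := fun z hz => by simpa only [mem_ball, dist_zero_right] using h2 hz
  set h : ℂ → ℂ := fun z => mob w (f z) with hh
  have hder : ∀ z ∈ U, HasDerivAt h
      ((1 - ‖w‖ ^ 2) / (1 - conj w * f z) ^ 2 * deriv f z) z := by
    intro z hz
    have e1 := (h1.differentiableAt (hU.mem_nhds hz)).hasDerivAt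
    exact (mob_hasDerivAt hw (hb z hz)).comp z e1
  have hne : ∀ z ∈ U, h z ≠ 0 := by
    intro z hz h0
    exact hwf ⟨z, hz, mob_eq_zero hw (hb z hz) h0⟩
  have hcont : ContinuousOn h U := fun z hz => (hder z hz).continuousAt.continuousWithinAt
  obtain ⟨q, hqd', hq⟩ := hS h (fun z hz => (hder z hz).differentiableAt.differentiableWithinAt) hne
  have hq0 : ∀ z ∈ U, q z ≠ 0 := by
    intro z hz h0
    apply hne z hz
    rw [← hq z hz, h0]; simp
  have hqder : ∀ z ∈ U, HasDerivAt q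
      (((1 - ‖w‖ ^ 2) / (1 - conj w * f z) ^ 2 * deriv f z) / (2 * q z)) z := by
    intro z hz
    exact sqrt_der hU hqd' hq hz (hq0 z hz) (hder z hz)
  have hqb : ∀ z ∈ U, ‖q z‖ < 1 := by
    intro z hz
    have e1 : ‖q z‖ ^ 2 < 1 := by
      rw [← norm_pow, hq z hz]; exact mob_norm hw (hb z hz)
    by_contra hcon
    push Not at hcon
    nlinarith only [e1, hcon]
  have hqd : DifferentiableOn ℂ q U := fun z hz =>
    (hqder z hz).differentiableAt.differentiableWithinAt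
  have hqinj : InjOn q U := by
    intro z hz z' hz' he
    have e1 : h z = h z' := by rw [← hq z hz, ← hq z' hz', he]
    exact h3 hz hz' (mob_inj hw (hb z hz) (hb z' hz') e1)
  have hqne : ∀ z ∈ U, deriv q z ≠ 0 := by
    intro z hz
    rw [(hqder z hz).deriv]
    exact div_ne_zero (mul_ne_zero (mob_deriv_ne hw (hb z hz)) (h4 z hz))
      (mul_ne_zero two_ne_zero (hq0 z hz))
  obtain ⟨hF, hFd⟩ := fam_mob hU hz₀ hqd (fun z hz => by simpa only [mem_ball, dist_zero_right] using hqb z hz) hqinj hqne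
  refine ⟨_, hF, ?_⟩
  rw [hFd, (hqder z₀ hz₀).deriv, h5]
  set t := ‖q z₀‖ with ht
  have hwt : ‖w‖ = t ^ 2 := by
    rw [ht, ← norm_pow, hq z₀ hz₀, hh]
    simp only
    rw [h5, mob_zero, norm_neg]
  have ht0 : 0 < t := norm_pos_iff.2 (hq0 z₀ hz₀)
  have ht1 : t < 1 := hqb z₀ hz₀
  have hd0 : 0 < ‖deriv f z₀‖ := norm_pos_iff.2 (h4 z₀ hz₀)
  have e1 : ‖(1 - (‖w‖ : ℂ) ^ 2) / (1 - conj w * 0) ^ 2 * deriv f z₀ / (2 * q z₀) /
      (1 - (t : ℂ) ^ 2)‖ = (1 - t ^ 4) * ‖deriv f z₀‖ / (2 * t) / (1 - t ^ 2) := by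
    have a1 : (1 : ℂ) - (‖w‖ : ℂ) ^ 2 = ((1 - t ^ 4 : ℝ) : ℂ) := by
      rw [hwt]; push_cast; ring
    have a2 : (1 : ℂ) - (t : ℂ) ^ 2 = ((1 - t ^ 2 : ℝ) : ℂ) := by push_cast; ring
    rw [a1, a2]
    simp only [norm_div, norm_mul, Complex.norm_real, Real.norm_eq_abs, mul_zero, sub_zero,
      one_pow, norm_one, div_one, Complex.norm_ofNat]
    rw [abs_of_nonneg (by nlinarith only [pow_le_one₀ ht0.le ht1.le (n := 4)] : 0 ≤ 1 - t ^ 4),
      abs_of_nonneg (by linarith : 0 ≤ 1 - t ^ 2)]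
  rw [e1]
  have h6 : 0 < 1 - t ^ 2 := by nlinarith only [hw, hwt]
  rw [div_div, lt_div_iff₀ (by (clear * - ht0 h6; positivity))]
  have h7 : ‖deriv f z₀‖ * (2 * t * (1 - t ^ 2)) < ‖deriv f z₀‖ * (1 - t ^ 4) := by
    apply mul_lt_mul_of_pos_left _ hd0
    have : 1 - t ^ 4 = (1 - t ^ 2) * (1 + t ^ 2) := by ring
    rw [this]
    have h8 : 2 * t < 1 + t ^ 2 := by nlinarith only [ht1]
    (clear * - hwt hw h8 ht0; nlinarith)
  linarith only [h7]
theorem exists_extremal {U : Set ℂ} (hU : IsOpen U) (hUc : IsPreconnected U) (hS : SqrtProp U)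
    (hne : U ≠ univ) {z₀ : ℂ} (hz₀ : z₀ ∈ U) :
    ∃ g, Cmp U z₀ g ∧ ∀ f, Cmp U z₀ f → ‖deriv f z₀‖ ≤ ‖deriv g z₀‖ := by
  -- nonempty
  obtain ⟨f0, hf01, hf02, hf03⟩ := step2 hU hS hne hz₀
  have hf0d : DifferentiableOn ℂ f0 U := fun z hz =>
    (differentiableAt_of_deriv_ne_zero (hf03 z hz)).differentiableWithinAt
  obtain ⟨hF0, -⟩ := fam_mob hU hz₀ hf0d hf01 hf02 hf03
  set S : Set ℝ := {x | ∃ f, Cmp U z₀ f ∧ x = ‖deriv f z₀‖} with hS
  have hSne : S.Nonempty := ⟨_, _, hF0, rfl⟩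
  obtain ⟨R, hR, hRU⟩ := Metric.isOpen_iff.1 hU z₀ hz₀
  have hSb : BddAbove S := by
    refine ⟨1 / R, ?_⟩
    rintro _ ⟨f, ⟨h1, h2, -, -, h5⟩, rfl⟩
    apply Complex.norm_deriv_le_div_of_mapsTo_ball (h1.mono hRU) _ hR
    intro z hz
    rw [h5]
    exact ball_subset_closedBall (h2 (hRU hz))
  have hseq : ∀ n : ℕ, ∃ f, Cmp U z₀ f ∧ sSup S - 1 / ((n : ℝ) + 1) < ‖deriv f z₀‖ := by
    intro n
    obtain ⟨x, ⟨f, hf, rfl⟩, hx⟩ := exists_lt_of_lt_csSup hSne
      (show sSup S - 1 / ((n : ℝ) + 1) < sSup S by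
        have : (0 : ℝ) < 1 / ((n : ℝ) + 1) := by (clear * -; positivity)
        linarith only [this])
    exact ⟨f, hf, hx⟩
  choose f hf hfx using hseq
  let 𝒰 : Ultrafilter ℕ := hyperfilter ℕ
  have h𝒰 : (𝒰 : Filter ℕ) ≤ atTop := Nat.hyperfilter_le_atTop
  obtain ⟨g, hg⟩ := exists_limit hU 𝒰 f (fun n => (hf n).1)
    (fun n z hz => by
      have := (hf n).2.1 hz
      rw [mem_ball_zero_iff] at this
      exact this.le)
  have hdall : ∀ᶠ n in (𝒰 : Filter ℕ), DifferentiableOn ℂ (f n) U :=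
    Filter.Eventually.of_forall fun n => (hf n).1
  have hgd : DifferentiableOn ℂ g U := hg.differentiableOn hdall hU
  have hgder := hg.deriv hdall hU
  have hpt : ∀ z ∈ U, Tendsto (fun n => f n z) 𝒰 (𝓝 (g z)) := fun z hz =>
    hg.tendsto_at hz
  have hptd : ∀ z ∈ U, Tendsto (fun n => deriv (f n) z) 𝒰 (𝓝 (deriv g z)) := fun z hz =>
    hgder.tendsto_at hz
  have hMle : sSup S ≤ ‖deriv g z₀‖ := by
    have h1 : Tendsto (fun n : ℕ => sSup S - 1 / ((n : ℝ) + 1)) 𝒰 (𝓝 (sSup S - 0)) :=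
      (tendsto_one_div_add_atTop_nhds_zero_nat.mono_left h𝒰).const_sub _
    rw [sub_zero] at h1
    exact le_of_tendsto_of_tendsto' h1 (hptd z₀ hz₀).norm (fun n => (hfx n).le)
  have hMpos : 0 < sSup S := by
    refine lt_of_lt_of_le (norm_pos_iff.2 (hF0.2.2.2.1 z₀ hz₀)) (le_csSup hSb ⟨_, hF0, rfl⟩)
  have hgz₀ : deriv g z₀ ≠ 0 := norm_pos_iff.1 (lt_of_lt_of_le hMpos hMle)
  have hconn : IsPreconnected U := hUc
  -- derivative does not vanish
  have hderne : ∀ z ∈ U, deriv g z ≠ 0 := by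
    intro b hb
    have hdd : ∀ᶠ n in (𝒰 : Filter ℕ), DifferentiableOn ℂ ((deriv ∘ f) n) U :=
      Filter.Eventually.of_forall fun n => (hf n).1.deriv hU
    refine hurwitz hU hgder hdd hb (Filter.Eventually.of_forall fun n => (hf n).2.2.2.1) ?_
    intro h0
    have han : AnalyticOnNhd ℂ (deriv g) U := (hgd.deriv hU).analyticOnNhd hU
    exact hgz₀ (han.eqOn_zero_of_preconnected_of_eventuallyEq_zero hconn hb h0 hz₀)
  have hgle : ∀ z ∈ U, ‖g z‖ ≤ 1 := by
    intro z hz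
    refine le_of_tendsto (hpt z hz).norm (Filter.Eventually.of_forall fun n => ?_)
    have := (hf n).2.1 hz
    rw [mem_ball_zero_iff] at this
    exact this.le
  have hglt : MapsTo g U (ball 0 1) := by
    intro z hz
    rw [mem_ball_zero_iff]
    refine lt_of_le_of_ne (hgle z hz) ?_
    intro h1
    have hmax : IsMaxOn (norm ∘ g) U z := by
      intro y hy
      simp only [Function.comp]
      show ‖g y‖ ≤ ‖g z‖
      rw [h1]; exact hgle y hy
    have hconst := Complex.eqOn_of_isPreconnected_of_isMaxOn_norm hconn hU hgd hz hmax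
    have h2 : deriv g z₀ = 0 := by
      have : g =ᶠ[𝓝 z₀] fun _ => g z := by
        filter_upwards [hU.mem_nhds hz₀] with y hy
        exact hconst hy
      rw [this.deriv_eq]; simp
    exact hgz₀ h2
  have hinj : InjOn g U := by
    intro a ha b hb hab
    by_contra hne
    have hU' : IsOpen (U \ {a}) := hU.sdiff isClosed_singleton
    have hbU' : b ∈ U \ {a} := ⟨hb, fun h => hne (by rw [mem_singleton_iff] at h; exact h.symm)⟩
    have hconv : TendstoLocallyUniformlyOn (fun n z => f n z - f n a) (fun z => g z - g a)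
        (𝒰 : Filter ℕ) (U \ {a}) := by
      have h1 : TendstoLocallyUniformlyOn f g (𝒰 : Filter ℕ) (U \ {a}) :=
        hg.mono sdiff_subset
      rw [Metric.tendstoLocallyUniformlyOn_iff] at h1 ⊢
      intro ε hε x hx
      obtain ⟨t, ht, h2⟩ := h1 (ε / 2) (by (clear * - hε; positivity)) x hx
      refine ⟨t, ht, ?_⟩
      have h3 := (hpt a ha).eventually (ball_mem_nhds _ (show 0 < ε / 2 by (clear * - hε; positivity)))
      filter_upwards [h2, h3] with n hn hn2 y hy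
      have h4 := hn y hy
      rw [dist_eq_norm] at hn2 h4 ⊢
      have h5 : g y - g a - (f n y - f n a) = (g y - f n y) + (f n a - g a) := by ring
      rw [h5]
      have := norm_add_le (g y - f n y) (f n a - g a)
      linarith only [hn2, h4, this]
    have h0 : ∀ᶠ n in (𝒰 : Filter ℕ), ∀ z ∈ U \ {a}, f n z - f n a ≠ 0 := by
      refine Filter.Eventually.of_forall fun n z hz h => ?_
      have := (hf n).2.2.1 hz.1 ha (sub_eq_zero.1 h)
      exact hz.2 (by rw [mem_singleton_iff]; exact this)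
    have hdd : ∀ᶠ n in (𝒰 : Filter ℕ), DifferentiableOn ℂ (fun z => f n z - f n a) (U \ {a}) :=
      Filter.Eventually.of_forall fun n => ((hf n).1.mono sdiff_subset).sub_const _
    refine hurwitz hU' hconv hdd hbU' h0 ?_ (by rw [hab]; ring)
    intro h1
    have h2 : deriv (fun z => g z - g a) b = 0 := by
      have : (fun z => g z - g a) =ᶠ[𝓝 b] fun _ => 0 := h1
      rw [this.deriv_eq]; simp
    rw [deriv_sub_const] at h2
    exact hderne b hb h2
  have hg0 : g z₀ = 0 := by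
    refine tendsto_nhds_unique (hpt z₀ hz₀) ?_
    refine tendsto_const_nhds.congr (fun n => ?_)
    exact ((hf n).2.2.2.2).symm
  refine ⟨g, ⟨hgd, hglt, hinj, hderne, hg0⟩, fun f hf => ?_⟩
  exact (le_csSup hSb ⟨f, hf, rfl⟩).trans hMle
/-- Riemann mapping theorem, map onto the disc -/
theorem exists_onto_disc {U : Set ℂ} (hU : IsOpen U) (hUc : IsPreconnected U) (hS : SqrtProp U)
    (hne : U ≠ univ) {z₀ : ℂ} (hz₀ : z₀ ∈ U) :
    ∃ g : ℂ → ℂ, DifferentiableOn ℂ g U ∧ InjOn g U ∧ g '' U = ball 0 1 ∧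
      (∀ z ∈ U, deriv g z ≠ 0) ∧ g z₀ = 0 := by
  obtain ⟨g, hg, hmax⟩ := exists_extremal hU hUc hS hne hz₀
  refine ⟨g, hg.1, hg.2.2.1, ?_, hg.2.2.2.1, hg.2.2.2.2⟩
  apply Subset.antisymm
  · exact hg.2.1.image_subset
  · intro w hw
    by_contra hwf
    rw [mem_ball_zero_iff] at hw
    obtain ⟨F, hF, hlt⟩ := fam_improve hU hS hz₀ hg hw hwf
    exact absurd (hmax F hF) (not_le.2 hlt)

end Vale.Agent.P116.FK
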