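import Vale.Agent.P116.FK.Defs

/-!
# Finite Koebe theorem: exact statements of the blocks (as Props)
-/

open Set Metric Filter Topology Complex Bornology MeasureTheory
open scoped ComplexConjugate Real

namespace Vale.Agent.P116.FK.Spec

open Vale.Agent.P116.FK

/-- S1 -/
def S1 : Prop := ∀ {K : Set ℂ} (_ : IsCompact K) {F : ℂ → ℂ} (_ : DifferentiableOn ℂ F Kᶜ)
    (_ : Tendsto F (cobounded ℂ) (𝓝 0)) {δ : ℝ} (_ : 0 < δ),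
    ∃ (t : Finset ℂ) (G : ℂ → ℂ → ℂ), ↑t ⊆ K ∧
      (∀ x ∈ t, DifferentiableOn ℂ (G x) (closedBall x δ)ᶜ ∧ Tendsto (G x) (cobounded ℂ) (𝓝 0)) ∧
      ∀ z, δ < infDist z K → F z = ∑ x ∈ t, G x z

/-- S2 -/
def S2 : Prop := ∀ {x : ℂ} {δ : ℝ} (_ : 0 < δ) {G : ℂ → ℂ}
    (_ : DifferentiableOn ℂ G (closedBall x δ)ᶜ) (_ : Tendsto G (cobounded ℂ) (𝓝 0)),
    ∃ (a : ℂ) (Φ : ℂ → ℂ), (∀ z ∉ closedBall x δ, HasDerivAt Φ (G z - a / (z - x)) z) ∧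
      Tendsto Φ (cobounded ℂ) (𝓝 0) ∧ Tendsto (fun z => z * G z) (cobounded ℂ) (𝓝 a)

/-- S3 -/
def S3 : Prop := ∀ {K : Set ℂ} (_ : IsCompact K) (_ : IsConnected K) {a b : ℂ} (_ : a ∈ K)
    (_ : b ∈ K) {δ : ℝ} (_ : 0 < δ),
    ∃ L : ℂ → ℂ, (∀ z, δ < infDist z K → HasDerivAt L (1 / (z - a) - 1 / (z - b)) z) ∧
      Tendsto L (cobounded ℂ) (𝓝 0)

/-- S4 (uses S1 S2 S3) -/
def S4 : Prop := ∀ {K : Set ℂ} (_ : IsCompact K) (_ : IsConnected K) (_ : IsConnected Kᶜ)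
    {F : ℂ → ℂ} (_ : DifferentiableOn ℂ F Kᶜ)
    (_ : Tendsto (fun z => z * F z) (cobounded ℂ) (𝓝 0)),
    ∃ Φ : ℂ → ℂ, (∀ z ∉ K, HasDerivAt Φ (F z) z) ∧ Tendsto Φ (cobounded ℂ) (𝓝 0)

/-- S5 (uses S4) -/
def S5 : Prop := ∀ {K : Set ℂ} (_ : IsCompact K) (_ : IsConnected K) (_ : IsConnected Kᶜ)
    {f : ℂ → ℂ} (_ : DifferentiableOn ℂ f Kᶜ) (_ : ∀ z ∉ K, f z ≠ 0) {a : ℂ} (_ : a ≠ 0)
    (_ : Tendsto f (cobounded ℂ) (𝓝 a)),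
    ∃ q : ℂ → ℂ, DifferentiableOn ℂ q Kᶜ ∧ (∀ z ∉ K, q z ^ 2 = f z) ∧
      ∃ b, Tendsto q (cobounded ℂ) (𝓝 b)

/-- M: exterior Riemann map (uses S5) -/
def M : Prop := ∀ {K : Set ℂ} (_ : Cont K) (_ : IsConnected Kᶜ), ∃ h c r, Ext K h c r

/-- E1 -/
def E1 : Prop := ∀ {K h c r} (_ : Cont K) (_ : Ext K h c r),
    ∃ e, Par K e c r ∧ ∀ ζ, 1 < ‖ζ‖ → h (e ζ) = c + r * ζ

/-- E2 -/
def E2 : Prop := ∀ {K h c r} (_ : Cont K) (_ : Ext K h c r),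
    ∀ ε > 0, ∃ δ > 0, ∀ z ∉ K, infDist z K < δ → infDist (h z) (closedBall c r) < ε

/-- E3 -/
def E3 : Prop := ∀ {K e c r} (_ : Cont K) (_ : Par K e c r),
    ∀ ε > 0, ∃ ρ > 1, ∀ ζ, 1 < ‖ζ‖ → ‖ζ‖ < ρ → infDist (e ζ) K < ε

/-- E4 -/
def E4 : Prop := ∀ {K e c r} (_ : Cont K) (_ : Par K e c r) {x : ℂ} (_ : x ∈ K) {ρ : ℝ}
    (_ : 1 < ρ), (∮ ζ in C(0, ρ), deriv e ζ / (e ζ - x)) = 2 * π * I

/-- E5 -/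
def E5 : Prop := ∀ {K e c r} (_ : Cont K) (_ : Par K e c r) {η : ℂ} {ρ : ℝ}
    (_ : 1 < ρ) (_ : ρ < ‖η‖), (∮ ζ in C(0, ρ), deriv e ζ / (e ζ - e η)) = 0

/-- E6 -/
def E6 : Prop := ∀ {n : ℕ} {P : Fin n → Set ℂ} (_ : ∀ j, Cont (P j))
    (_ : Pairwise (Function.onFun Disjoint P)) (_ : IsConnected (⋃ j, P j)ᶜ) (j : Fin n),
    IsConnected (P j)ᶜ

/-- E7 (uses M, E1, E3, E6) -/
def E7 : Prop := ∀ {n : ℕ} {P : Fin n → Set ℂ} (_ : ∀ j, Cont (P j))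
    (_ : Pairwise (Function.onFun Disjoint P)) (_ : IsConnected (⋃ j, P j)ᶜ),
    ∃ e R R₀, Fam P e R R₀

/-- Q: Stokes (uses S1, S2, E4, E5, E3) -/
def Q : Prop := ∀ {n : ℕ} {P : Fin n → Set ℂ} {e R R₀} (_ : Fam P e R R₀) {G : ℂ → ℂ}
    (_ : DifferentiableOn ℂ G (⋃ j, P j)ᶜ) {a : ℂ}
    (_ : Tendsto (fun z => z * G z) (cobounded ℂ) (𝓝 a)) {ρ : ℝ} (_ : 1 < ρ) (_ : ρ < R),
    ∑ j, flux (e j) ρ G = 2 * π * I * a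

/-- RF: reflection (uses S1, S2 or a Laurent splitting) -/
def RF : Prop := ∀ {R : ℝ} (_ : 1 < R) {F : ℂ → ℂ} (_ : DifferentiableOn ℂ F (ann 1 R))
    (_ : ∀ ζ ∈ ann 1 R, F ζ ≠ 0)
    (_ : ∀ ε > 0, ∃ δ > 0, ∀ ζ, 1 < ‖ζ‖ → ‖ζ‖ < 1 + δ → |‖F ζ‖ - 1| < ε),
    ∃ ψ : ℂ → ℂ, DifferentiableOn ℂ ψ (ann R⁻¹ R) ∧ (∀ ζ ∈ ann 1 R, ψ ζ = F ζ) ∧
      ∀ ζ ∈ ann R⁻¹ R, conj (ψ ζ) * ψ (conj ζ)⁻¹ = 1

/-- C1: omitted values -/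
def C1 : Prop := ∀ {R : ℝ} (_ : 0 < R) {f : ℂ → ℂ} (_ : DifferentiableOn ℂ f {z | R < ‖z‖})
    (_ : InjOn f {z | R < ‖z‖}) (_ : Tendsto (fun z => f z - z) (cobounded ℂ) (𝓝 0)) {w : ℂ}
    (_ : w ∉ f '' {z | R < ‖z‖}), ‖w‖ ≤ 2 * R

/-- C2: uniform bound at infinity -/
def C2 : Prop := ∀ {R : ℝ} (_ : 0 < R) {f : ℂ → ℂ} (_ : DifferentiableOn ℂ f {z | R < ‖z‖})
    (_ : InjOn f {z | R < ‖z‖}) (_ : Tendsto (fun z => f z - z) (cobounded ℂ) (𝓝 0)) {z : ℂ}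
    (_ : 2 * R ≤ ‖z‖), ‖f z - z‖ ≤ 20 * R ^ 2 / ‖z‖

/-- V: area of the image of a disc -/
def V : Prop := ∀ {g : ℂ → ℂ} {z : ℂ} {δ : ℝ} (_ : 0 < δ) (_ : DifferentiableOn ℂ g (ball z δ))
    (_ : InjOn g (ball z δ)),
    ENNReal.ofReal (π * δ ^ 2 * ‖deriv g z‖ ^ 2) ≤ volume (g '' ball z δ)

/-- T1: one step (uses E1 E2 E3 RF) -/
def T1 : Prop := ∀ {n : ℕ} {P L : Fin n → Set ℂ} {e R R₀} {W : Set (List (Fin n))} {f}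
    (_ : Fam P e R R₀) (_ : [] ∈ W) (_ : Tower P L e R W f) (j : Fin n) {h c r}
    (_ : Ext (L j) h c r),
    ∃ f', Tower P (fun i => if i = j then closedBall c r else h '' L i) e R (stepW j W) f'

/-- T2 (uses T1, M, E6, combinatorics of `Wd`) -/
def T2 : Prop := ∀ {n : ℕ} {P : Fin n → Set ℂ} {e R R₀} (_ : Fam P e R R₀) (m : ℕ),
    ∃ L f, Tower P L e R (Wd n m 0) f

/-- T3 (uses T1, M, E6) -/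
def T3 : Prop := ∀ {n : ℕ} {P L : Fin n → Set ℂ} {e R R₀ f} (_ : Fam P e R R₀) (m : ℕ)
    (_ : Tower P L e R (Wd n m 0) f) (j : Fin n),
    ∃ L' f' c r, 0 < r ∧ Tower P L' e R (Wd n m 0) f' ∧ L' j = closedBall c r

/-- Z: rigidity (uses Q, C1, V) -/
def Z : Prop := ∀ {n : ℕ} {P : Fin n → Set ℂ} {e R R₀} (_ : Fam P e R R₀),
    ∃ C R₁ : ℝ, ∀ m : ℕ, 1 ≤ m → ∀ L L' f f', Tower P L e R (Wd n m 0) f →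
      Tower P L' e R (Wd n m 0) f' → ∀ z, R₁ < ‖z‖ → ‖f [] z - f' [] z‖ ≤ C / m

/-- LM: the limit (uses C1, C2, RF, compactness) -/
def LM : Prop := ∀ {n : ℕ} {P : Fin n → Set ℂ} {e R R₀} (_ : 0 < n) (_ : Fam P e R R₀)
    (G : Fin n → ℕ → ℂ → ℂ)
    (L : Fin n → ℕ → Fin n → Set ℂ) (c : Fin n → ℕ → ℂ) (r : Fin n → ℕ → ℝ)
    (_ : ∀ j m, Pic P (L j m) (G j m)) (_ : ∀ j m, 0 < r j m)
    (_ : ∀ j m, L j m j = closedBall (c j m) (r j m)) {R₁ : ℝ}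
    (_ : ∀ i j z, R₁ < ‖z‖ → Tendsto (fun m => G i m z - G j m z) atTop (𝓝 0)),
    ∃ (f : ℂ → ℂ) (c' : Fin n → ℂ) (r' : Fin n → ℝ), (∀ i, 0 < r' i) ∧
      Pic P (fun i => closedBall (c' i) (r' i)) f

/-- FK: the theorem -/
def FK : Prop := ∀ {ι : Type} [Finite ι] (P : ι → Set ℂ) (_ : ∀ i, IsCompact (P i))
    (_ : ∀ i, IsConnected (P i)) (_ : ∀ i, (P i).Nontrivial)
    (_ : Pairwise (Function.onFun Disjoint P)) (_ : IsConnected (⋃ i, P i)ᶜ),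
    ∃ (f : ℂ → ℂ) (c : ι → ℂ) (r : ι → ℝ), (∀ i, 0 < r i) ∧
      Pairwise (Function.onFun Disjoint fun i => closedBall (c i) (r i)) ∧
      DifferentiableOn ℂ f (⋃ i, P i)ᶜ ∧ InjOn f (⋃ i, P i)ᶜ ∧
      f '' (⋃ i, P i)ᶜ = (⋃ i, closedBall (c i) (r i))ᶜ ∧
      Tendsto (fun z => f z - z) (cobounded ℂ) (𝓝 0) ∧
      ∀ i, ∀ ε > 0, ∃ δ > 0, ∀ z ∉ ⋃ i, P i, infDist z (P i) < δ →
        infDist (f z) (closedBall (c i) (r i)) < ε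

end Vale.Agent.P116.FK.Spec
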