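import Vale.Agent.P116.FK.E

/-!
# Block T1: one step of the tower
-/

open Set Metric Filter Topology Complex Bornology MeasureTheory
open scoped ComplexConjugate Real

namespace Vale.Agent.P116.FK.T

variable {n : ℕ}

/-- conjugating an analytic function by `pc w` -/
lemma pc_conj_diff (w : List (Fin n)) {U : Set ℂ} (hU : IsOpen U) {h : ℂ → ℂ}
    (hh : DifferentiableOn ℂ h U) :
    DifferentiableOn ℂ (fun z => pc w (h (pc w z))) {z | pc w z ∈ U} := by
  by_cases hw : Even w.length
  · have h1 : ∀ z : ℂ, pc w z = z := fun z => by simp [pc, hw]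
    simp only [h1]
    exact hh
  · have h1 : ∀ z : ℂ, pc w z = conj z := fun z => by simp [pc, hw]
    simp only [h1]
    intro z hz
    have h2 : DifferentiableAt ℂ h (conj z) := (hh _ hz).differentiableAt (hU.mem_nhds hz)
    have h3 := h2.conj_conj
    rw [conj_conj] at h3
    exact h3.differentiableWithinAt

/-- composing -/
lemma pc_comp_diff (w : List (Fin n)) {U V : Set ℂ} (hU : IsOpen U) {h f : ℂ → ℂ}
    (hh : DifferentiableOn ℂ h U) (hf : DifferentiableOn ℂ (fun z => pc w (f z)) V)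
    (hm : ∀ z ∈ V, f z ∈ U) : DifferentiableOn ℂ (fun z => pc w (h (f z))) V := by
  have h1 := (pc_conj_diff w hU hh).comp hf (fun z hz => by
    show pc w (pc w (f z)) ∈ U
    rw [pc_pc]
    exact hm z hz)
  refine h1.congr fun z _ => ?_
  simp only [Function.comp, pc_pc]

/-- reflection in the circle `|z - c| = r` -/
noncomputable def sg (c : ℂ) (r : ℝ) (z : ℂ) : ℂ := c + r ^ 2 / conj (z - c)

/-- the conjugate of the reflection -/
noncomputable def tau (c : ℂ) (r : ℝ) (z : ℂ) : ℂ := conj c + r ^ 2 / (z - c)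

lemma sg_eq (c : ℂ) (r : ℝ) (z : ℂ) : sg c r z = conj (tau c r z) := by
  unfold sg tau
  simp

lemma sg_injOn {c : ℂ} {r : ℝ} (hr : 0 < r) : InjOn (sg c r) {c}ᶜ := by
  intro a ha b hb hab
  have ha' : conj (a - c) ≠ 0 := by
    rw [Ne, map_eq_zero, sub_eq_zero]; exact ha
  have hb' : conj (b - c) ≠ 0 := by
    rw [Ne, map_eq_zero, sub_eq_zero]; exact hb
  have hr2 : ((r : ℂ)) ^ 2 ≠ 0 := pow_ne_zero 2 (ofReal_ne_zero.2 hr.ne')
  unfold sg at hab
  have h1 := add_left_cancel hab
  rw [div_eq_div_iff ha' hb'] at h1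
  have h2 := mul_left_cancel₀ hr2 h1
  have h3 := (starRingEnd ℂ).injective h2
  exact (sub_left_injective h3).symm

lemma sg_mem {c : ℂ} {r : ℝ} (hr : 0 < r) {z : ℂ} (hz : z ∈ (closedBall c r)ᶜ) :
    sg c r z ∈ closedBall c r := by
  rw [mem_compl_iff, mem_closedBall, dist_eq_norm, not_le] at hz
  rw [mem_closedBall, dist_eq_norm]
  unfold sg
  rw [add_sub_cancel_left, norm_div, norm_pow, norm_real, Real.norm_eq_abs, abs_of_pos hr,
    norm_conj, div_le_iff₀ (hr.trans hz)]
  nlinarith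

lemma ne_center {c : ℂ} {r : ℝ} (hr : 0 < r) {z : ℂ} (hz : z ∈ (closedBall c r)ᶜ) : z ≠ c := by
  rintro rfl
  exact hz (mem_closedBall_self hr.le)

/-- the new maps -/
noncomputable def step (f : List (Fin n) → ℂ → ℂ) (j : Fin n) (h : ℂ → ℂ) (c : ℂ) (r : ℝ)
    (w : List (Fin n)) (z : ℂ) : ℂ :=
  if w.head? = some j then sg c r (h (f w.tail z)) else h (f w z)

lemma step_ne {f : List (Fin n) → ℂ → ℂ} {j : Fin n} {h : ℂ → ℂ} {c : ℂ} {r : ℝ}
    {w : List (Fin n)} (hw : w.head? ≠ some j) (z : ℂ) : step f j h c r w z = h (f w z) :=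
  if_neg hw

lemma step_cons {f : List (Fin n) → ℂ → ℂ} {j : Fin n} {h : ℂ → ℂ} {c : ℂ} {r : ℝ}
    (w : List (Fin n)) (z : ℂ) : step f j h c r (j :: w) z = sg c r (h (f w z)) := by
  unfold step
  rw [if_pos (by simp)]
  simp

variable {P L : Fin n → Set ℂ} {e : Fin n → ℂ → ℂ} {R R₀ : ℝ} {W : Set (List (Fin n))}
  {f : List (Fin n) → ℂ → ℂ}

/-- images of the maps with first letter `≠ j` avoid `L j` -/
lemma Tower.notMem (hT : Tower P L e R W f) {w : List (Fin n)} (hw : w ∈ W) {j : Fin n}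
    (hj : w.head? ≠ some j) {z : ℂ} (hz : z ∈ (⋃ i, P i)ᶜ) : f w z ∈ (L j)ᶜ := by
  cases w with
  | nil =>
    have h1 : f [] z ∈ (⋃ i, L i)ᶜ := by
      rw [← hT.pic.image]; exact mem_image_of_mem _ hz
    intro h2
    exact h1 (mem_iUnion.2 ⟨j, h2⟩)
  | cons i w' =>
    have hij : i ≠ j := by
      rintro rfl
      exact hj (by simp)
    have h1 : f (i :: w') z ∈ L i := hT.sub i w' hw (mem_image_of_mem _ hz)
    intro h2
    exact Set.disjoint_left.1 (hT.pic.disj hij) h1 h2

lemma star_mem {R : ℝ} (hR : 1 < R) {ζ : ℂ} (hζ : ζ ∈ ann R⁻¹ 1) : (conj ζ)⁻¹ ∈ ann 1 R := by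
  obtain ⟨h1, h2⟩ := hζ
  have hpos : 0 < ‖ζ‖ := lt_trans (inv_pos.2 (one_pos.trans hR)) h1
  constructor
  · rw [norm_inv, norm_conj, one_lt_inv₀ hpos]; exact h2
  · rw [norm_inv, norm_conj, inv_lt_comm₀ hpos (one_pos.trans hR)]; exact h1

lemma ann_out {R : ℝ} (hR : 1 < R) {ζ : ℂ} (hζ : ζ ∈ ann 1 R) : ζ ∈ ann R⁻¹ R :=
  ⟨lt_trans (inv_lt_one_of_one_lt₀ hR) hζ.1, hζ.2⟩

lemma ann_in {R : ℝ} (hR : 1 < R) {ζ : ℂ} (hζ : ζ ∈ ann R⁻¹ 1) : ζ ∈ ann R⁻¹ R :=
  ⟨hζ.1, hζ.2.trans hR⟩

/-- the glued map avoids `L j` if the first letter of `w ++ [k]` is not `j` -/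
lemma Tower.glue_notMem (F : Fam P e R R₀) (hT : Tower P L e R W f) {w : List (Fin n)}
    {k : Fin n} (hw : w ∈ W) (hwk : w ++ [k] ∈ W) {j : Fin n} (hj : (w ++ [k]).head? ≠ some j)
    {ψ : ℂ → ℂ} (hψ : DifferentiableOn ℂ (fun ζ => pc w (ψ ζ)) (ann R⁻¹ R))
    (h1 : ∀ ζ ∈ ann 1 R, ψ ζ = f w (e k ζ))
    (h2 : ∀ ζ ∈ ann R⁻¹ 1, ψ ζ = f (w ++ [k]) (e k (conj ζ)⁻¹)) :
    ∀ ζ ∈ ann R⁻¹ R, ψ ζ ∈ (L j)ᶜ := by
  have hwj : w.head? ≠ some j := by
    cases w with
    | nil => simp
    | cons i w' => simpa using hj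
  intro ζ hζ
  rcases lt_trichotomy ‖ζ‖ 1 with hlt | heq | hgt
  · have h3 : ζ ∈ ann R⁻¹ 1 := ⟨hζ.1, hlt⟩
    rw [h2 ζ h3]
    exact Tower.notMem hT hwk hj (F.collar_mem k (star_mem F.hR h3))
  · -- on the circle
    obtain ⟨i, w', hiw⟩ : ∃ i w', w ++ [k] = i :: w' := by
      cases w with
      | nil => exact ⟨k, [], rfl⟩
      | cons i w' => exact ⟨i, w' ++ [k], rfl⟩
    have hij : i ≠ j := by
      rintro rfl
      exact hj (by rw [hiw]; simp)
    have hmem : ψ ζ ∈ L i := by
      have hcont : ContinuousAt ψ ζ := by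
        have h3 : ContinuousAt (fun ζ => pc w (ψ ζ)) ζ :=
          (hψ.continuousOn ζ hζ).continuousAt ((isOpen_ann _ _).mem_nhds hζ)
        have h4 := (continuous_pc w).continuousAt.comp h3
        have h5 : (pc w ∘ fun ζ => pc w (ψ ζ)) = ψ := by
          funext y
          simp [pc_pc]
        rwa [h5] at h4
      have htend : Tendsto (fun t : ℝ => ψ ((t : ℂ) * ζ)) (𝓝[<] 1) (𝓝 (ψ ζ)) := by
        have h3 : Tendsto (fun t : ℝ => (t : ℂ) * ζ) (𝓝[<] 1) (𝓝 ζ) := by
          have h4 : Continuous (fun t : ℝ => (t : ℂ) * ζ) := by fun_prop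
          have h5 := h4.tendsto 1
          simp only [ofReal_one, one_mul] at h5
          exact h5.mono_left nhdsWithin_le_nhds
        exact hcont.tendsto.comp h3
      refine (hT.pic.cont i).compact.isClosed.mem_of_tendsto htend ?_
      have hRi : R⁻¹ < 1 := inv_lt_one_of_one_lt₀ F.hR
      have hev : ∀ᶠ t : ℝ in 𝓝[<] 1, R⁻¹ < t := by
        exact (lt_mem_nhds hRi).filter_mono nhdsWithin_le_nhds
      filter_upwards [hev, self_mem_nhdsWithin] with t ht ht1
      have ht1' : t < 1 := ht1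
      have ht0 : 0 < t := lt_trans (inv_pos.2 (one_pos.trans F.hR)) ht
      have hn : ‖(t : ℂ) * ζ‖ = t := by
        rw [norm_mul, norm_real, Real.norm_eq_abs, abs_of_pos ht0, heq, mul_one]
      have h3 : (t : ℂ) * ζ ∈ ann R⁻¹ 1 := ⟨by rw [hn]; exact ht, by rw [hn]; exact ht1'⟩
      rw [h2 _ h3, hiw]
      exact hT.sub i w' (hiw ▸ hwk) (mem_image_of_mem _ (F.collar_mem k (star_mem F.hR h3)))
    intro h3
    exact Set.disjoint_left.1 (hT.pic.disj hij) hmem h3
  · have h3 : ζ ∈ ann 1 R := ⟨hgt, hζ.2⟩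
    rw [h1 ζ h3]
    exact Tower.notMem hT hw hwj (F.collar_mem k h3)

/-- a tower restricts to smaller sets of words -/
lemma Tower.mono (hT : Tower P L e R W f) {W' : Set (List (Fin n))} (h : W' ⊆ W) :
    Tower P L e R W' f where
  pic := hT.pic
  diff := fun w hw => hT.diff w (h hw)
  inj := fun w hw => hT.inj w (h hw)
  disj := fun w hw w' hw' => hT.disj w (h hw) w' (h hw')
  sub := fun i w hw => hT.sub i w (h hw)
  glue := fun w j hw hwj => hT.glue w j (h hw) (h hwj)

/-- continuity near a compact set -/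
lemma near_compact {K U : Set ℂ} (hK : IsCompact K) (hn : K.Nonempty) (hU : IsOpen U)
    (hKU : K ⊆ U) {h : ℂ → ℂ} (hh : ContinuousOn h U) {ε : ℝ} (hε : 0 < ε) :
    ∃ δ > 0, ∀ z, infDist z K < δ → infDist (h z) (h '' K) < ε := by
  have hV : IsOpen (U ∩ h ⁻¹' {y | infDist y (h '' K) < ε}) :=
    hh.isOpen_inter_preimage hU (isOpen_lt (continuous_infDist_pt _) continuous_const)
  have hKV : K ⊆ U ∩ h ⁻¹' {y | infDist y (h '' K) < ε} := by
    intro z hz
    refine ⟨hKU hz, ?_⟩
    show infDist (h z) (h '' K) < ε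
    rw [infDist_zero_of_mem (mem_image_of_mem h hz)]
    exact hε
  obtain ⟨δ, hδ, hsub⟩ := hK.exists_thickening_subset_open hV hKV
  refine ⟨δ, hδ, fun z hz => ?_⟩
  have : z ∈ Metric.thickening δ K := by
    rw [Metric.mem_thickening_iff]
    exact (infDist_lt_iff hn).1 hz
  exact (hsub this).2

theorem t1 (hRF : Spec.RF) : Spec.T1 := by
  intro n P L e R R₀ W f F hW0 hT j h c r hE
  have hr := hE.pos
  have hLo : IsOpen (L j)ᶜ := (hT.pic.cont j).compact.isClosed.isOpen_compl
  have hhm : ∀ z ∈ (L j)ᶜ, h z ∈ (closedBall c r)ᶜ := fun z hz => by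
    rw [← hE.image]; exact mem_image_of_mem _ hz
  have hLi : ∀ i, i ≠ j → L i ⊆ (L j)ᶜ := fun i hij z hz hz' =>
    Set.disjoint_left.1 (hT.pic.disj hij) hz hz'
  have hsgd : DifferentiableOn ℂ (tau c r ∘ h) (L j)ᶜ := by
    intro z hz
    have h1 : DifferentiableAt ℂ h z := (hE.diff z hz).differentiableAt (hLo.mem_nhds hz)
    have h2 : h z - c ≠ 0 := sub_ne_zero.2 (ne_center hr (hhm z hz))
    have h3 : DifferentiableAt ℂ (fun z => conj c + r ^ 2 / (h z - c)) z :=
      ((differentiableAt_const _).div (h1.sub_const c) h2).const_add _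
    exact h3.differentiableWithinAt
  have hsgi : InjOn (fun z => sg c r (h z)) (L j)ᶜ := by
    intro a ha b hb hab
    exact hE.inj ha hb (sg_injOn hr (ne_center hr (hhm a ha)) (ne_center hr (hhm b hb)) hab)
  -- the two types of words
  have hmemA : ∀ w, w ∈ stepW j W → w.head? ≠ some j → w ∈ W := by
    rintro w (⟨h1, -⟩ | ⟨w', rfl, -, -⟩) hh
    · exact h1
    · exact (hh (by simp)).elim
  have hmemB : ∀ w, j :: w ∈ stepW j W → w ∈ W ∧ w.head? ≠ some j := by
    rintro w (⟨-, h2⟩ | ⟨w', hw', h1, h2⟩)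
    · exact (h2 (by simp)).elim
    · have : w = w' := by simpa using hw'
      rw [this]; exact ⟨h1, h2⟩
  have hcases : ∀ w, w.head? ≠ some j ∨ ∃ w', w = j :: w' := by
    intro w
    cases w with
    | nil => exact Or.inl (by simp)
    | cons i w' =>
      by_cases hij : i = j
      · exact Or.inr ⟨w', by rw [hij]⟩
      · exact Or.inl (by simpa using hij)
  have himA : ∀ w ∈ W, w.head? ≠ some j → ∀ z ∈ (⋃ i, P i)ᶜ, f w z ∈ (L j)ᶜ :=
    fun w hw hj z hz => Tower.notMem hT hw hj hz
  refine ⟨step f j h c r, ?_⟩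
  refine ⟨⟨?_, ?_, ?_, ?_, ?_, ?_, ?_⟩, ?_, ?_, ?_, ?_, ?_⟩
  · -- cont
    intro i
    by_cases hij : i = j
    · subst hij
      simp only [if_true]
      refine ⟨isCompact_closedBall _ _, ⟨⟨c, mem_closedBall_self hr.le⟩,
        (convex_closedBall c r).isPreconnected⟩, ⟨c, mem_closedBall_self hr.le, c + r, ?_, ?_⟩⟩
      · rw [mem_closedBall, dist_eq_norm, add_sub_cancel_left, norm_real, Real.norm_eq_abs,
          abs_of_pos hr]
      · intro h0
        have : (r : ℂ) = 0 := by simpa using h0.symm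
        exact hr.ne' (by exact_mod_cast this)
    · simp only [if_neg hij]
      have hc := hE.diff.continuousOn.mono (hLi i hij)
      refine ⟨(hT.pic.cont i).compact.image_of_continuousOn hc, (hT.pic.cont i).conn.image _ hc, ?_⟩
      exact (hT.pic.cont i).nontriv.image_of_injOn (hE.inj.mono (hLi i hij))
  · -- disj
    intro i k hik
    rw [Function.onFun, Set.disjoint_left]
    intro z hz hz'
    by_cases hij : i = j
    · subst hij
      rw [if_pos rfl] at hz
      rw [if_neg (fun h => hik h.symm)] at hz'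
      obtain ⟨y, hy, rfl⟩ := hz'
      exact hhm y (hLi k (fun h => hik h.symm) hy) hz
    · rw [if_neg hij] at hz
      obtain ⟨y, hy, rfl⟩ := hz
      by_cases hkj : k = j
      · rw [if_pos hkj] at hz'
        exact hhm y (hLi i hij hy) hz'
      · rw [if_neg hkj] at hz'
        obtain ⟨y', hy', hyy⟩ := hz'
        have := hE.inj (hLi k hkj hy') (hLi i hij hy) hyy
        subst this
        exact Set.disjoint_left.1 (hT.pic.disj hik) hy hy'
  · -- diff
    have h1 := hE.diff.comp hT.pic.diff (fun z hz => himA [] hW0 (by simp) z hz)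
    exact h1.congr fun z _ => step_ne (by simp) z
  · -- inj
    intro a ha b hb hab
    rw [step_ne (by simp), step_ne (by simp)] at hab
    exact hT.pic.inj ha hb (hE.inj (himA [] hW0 (by simp) a ha) (himA [] hW0 (by simp) b hb) hab)
  · -- image
    ext y
    constructor
    · rintro ⟨z, hz, rfl⟩
      rw [step_ne (by simp), mem_compl_iff, mem_iUnion]
      rintro ⟨i, hi⟩
      have h1 := himA [] hW0 (by simp) z hz
      by_cases hij : i = j
      · rw [if_pos hij] at hi
        exact hhm _ h1 hi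
      · rw [if_neg hij] at hi
        obtain ⟨y, hy, hyz⟩ := hi
        have h2 := hE.inj (hLi i hij hy) h1 hyz
        have h3 : f [] z ∈ (⋃ i, L i)ᶜ := by
          rw [← hT.pic.image]; exact mem_image_of_mem _ hz
        exact h3 (mem_iUnion.2 ⟨i, h2 ▸ hy⟩)
    · intro hy
      rw [mem_compl_iff, mem_iUnion] at hy
      have h1 : y ∈ (closedBall c r)ᶜ := by
        intro h2
        exact hy ⟨j, by rw [if_pos rfl]; exact h2⟩
      rw [← hE.image] at h1
      obtain ⟨x, hx, rfl⟩ := h1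
      have h2 : x ∈ (⋃ i, L i)ᶜ := by
        rw [mem_compl_iff, mem_iUnion]
        rintro ⟨i, hi⟩
        by_cases hij : i = j
        · subst hij; exact hx hi
        · exact hy ⟨i, by rw [if_neg hij]; exact mem_image_of_mem _ hi⟩
      rw [← hT.pic.image] at h2
      obtain ⟨z, hz, rfl⟩ := h2
      exact ⟨z, hz, step_ne (by simp) z⟩
  · -- norm
    have hinf : Tendsto (f []) (cobounded ℂ) (cobounded ℂ) :=
      E.tendsto_cobounded_of_sub tendsto_id hT.pic.norm
    have h1 := (hE.norm.comp hinf).add hT.pic.norm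
    rw [add_zero] at h1
    refine h1.congr fun z => ?_
    rw [step_ne (by simp)]
    simp only [Function.comp]
    ring
  · -- bdry
    intro i ε hε
    by_cases hij : i = j
    · subst hij
      obtain ⟨δ₁, hδ₁, h1⟩ := E.e2 (hT.pic.cont i) hE ε hε
      obtain ⟨δ₂, hδ₂, h2⟩ := hT.pic.bdry i δ₁ hδ₁
      refine ⟨δ₂, hδ₂, fun z hz hzd => ?_⟩
      rw [step_ne (by simp), if_pos rfl]
      exact h1 _ (himA [] hW0 (by simp) z hz) (h2 z hz hzd)
    · obtain ⟨δ₁, hδ₁, h1⟩ := near_compact (hT.pic.cont i).compact (hT.pic.cont i).conn.nonempty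
        hLo (hLi i hij) hE.diff.continuousOn hε
      obtain ⟨δ₂, hδ₂, h2⟩ := hT.pic.bdry i δ₁ hδ₁
      refine ⟨δ₂, hδ₂, fun z hz hzd => ?_⟩
      rw [step_ne (by simp), if_neg hij]
      exact h1 _ (h2 z hz hzd)
  · -- diff
    intro w hw
    rcases hcases w with hwj | ⟨w', rfl⟩
    · have h1 := pc_comp_diff w hLo hE.diff (hT.diff w (hmemA w hw hwj))
        (himA w (hmemA w hw hwj) hwj)
      exact h1.congr fun z _ => by rw [step_ne hwj]
    · obtain ⟨h1, h2⟩ := hmemB w' hw
      have h3 := pc_comp_diff w' hLo hsgd (hT.diff w' h1) (himA w' h1 h2)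
      refine h3.congr fun z _ => ?_
      rw [step_cons, sg_eq, pc_cons]
      by_cases he : Even w'.length
      · simp [pc, he]
      · simp [pc, he]
  · -- inj
    intro w hw a ha b hb hab
    rcases hcases w with hwj | ⟨w', rfl⟩
    · rw [step_ne hwj, step_ne hwj] at hab
      have h1 := hmemA w hw hwj
      exact hT.inj w h1 ha hb (hE.inj (himA w h1 hwj a ha) (himA w h1 hwj b hb) hab)
    · obtain ⟨h1, h2⟩ := hmemB w' hw
      rw [step_cons, step_cons] at hab
      exact hT.inj w' h1 ha hb (hsgi (himA w' h1 h2 a ha) (himA w' h1 h2 b hb) hab)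
  · -- disj
    intro w hw w' hw' hne
    rw [Set.disjoint_left]
    rintro _ ⟨a, ha, rfl⟩ ⟨b, hb, hab⟩
    rcases hcases w with hwj | ⟨v, rfl⟩
    · have h1 := hmemA w hw hwj
      rcases hcases w' with hwj' | ⟨v', rfl⟩
      · have h1' := hmemA w' hw' hwj'
        rw [step_ne hwj, step_ne hwj'] at hab
        have h2 := hE.inj (himA w' h1' hwj' b hb) (himA w h1 hwj a ha) hab
        exact Set.disjoint_left.1 (hT.disj w h1 w' h1' hne) (mem_image_of_mem _ ha)
          (h2 ▸ mem_image_of_mem _ hb)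
      · obtain ⟨h1', h2'⟩ := hmemB v' hw'
        rw [step_ne hwj, step_cons] at hab
        have h3 := hhm _ (himA w h1 hwj a ha)
        rw [← hab] at h3
        exact h3 (sg_mem hr (hhm _ (himA v' h1' h2' b hb)))
    · obtain ⟨h1, h2⟩ := hmemB v hw
      rcases hcases w' with hwj' | ⟨v', rfl⟩
      · have h1' := hmemA w' hw' hwj'
        rw [step_ne hwj', step_cons] at hab
        have h3 := hhm _ (himA w' h1' hwj' b hb)
        rw [hab] at h3
        exact h3 (sg_mem hr (hhm _ (himA v h1 h2 a ha)))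
      · obtain ⟨h1', h2'⟩ := hmemB v' hw'
        rw [step_cons, step_cons] at hab
        have h3 := hsgi (himA v' h1' h2' b hb) (himA v h1 h2 a ha) hab
        have hne' : v ≠ v' := fun h => hne (by rw [h])
        exact Set.disjoint_left.1 (hT.disj v h1 v' h1' hne') (mem_image_of_mem _ ha)
          (h3 ▸ mem_image_of_mem _ hb)
  · -- sub
    rintro i w hw _ ⟨z, hz, rfl⟩
    by_cases hij : i = j
    · subst hij
      obtain ⟨h1, h2⟩ := hmemB w hw
      rw [step_cons, if_pos rfl]
      exact sg_mem hr (hhm _ (himA w h1 h2 z hz))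
    · have hwj : (i :: w).head? ≠ some j := by simpa using hij
      have h1 := hmemA _ hw hwj
      rw [step_ne hwj, if_neg hij]
      exact mem_image_of_mem _ (hT.sub i w h1 (mem_image_of_mem _ hz))
  · -- glue
    intro w k hw hwk
    rcases hcases w with hwj | ⟨w', rfl⟩
    · have h1 := hmemA w hw hwj
      rcases hcases (w ++ [k]) with hwkj | ⟨v, hv⟩
      · -- old glueing
        have h2 := hmemA _ hwk hwkj
        obtain ⟨ψ, hψ, ho, hi⟩ := hT.glue w k h1 h2
        have hav := Tower.glue_notMem F hT h1 h2 hwkj hψ ho hi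
        refine ⟨fun ζ => h (ψ ζ), pc_comp_diff w hLo hE.diff hψ hav, ?_, ?_⟩
        · intro ζ hζ
          rw [step_ne hwj]
          simp only
          rw [ho ζ hζ]
        · intro ζ hζ
          rw [step_ne hwkj]
          simp only
          rw [hi ζ hζ]
      · -- the new circle
        have hw0 : w = [] ∧ k = j := by
          cases w with
          | nil => exact ⟨rfl, by simpa using (List.cons.inj hv).1⟩
          | cons i w' =>
            have : i = j := (List.cons.inj hv).1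
            exact (hwj (by simp [this])).elim
        obtain ⟨rfl, rfl⟩ := hw0
        set G : ℂ → ℂ := fun ζ => (h (f [] (e k ζ)) - c) / r with hG
        have hr0 : (r : ℂ) ≠ 0 := ofReal_ne_zero.2 hr.ne'
        have hGd : DifferentiableOn ℂ G (ann 1 R) := by
          have h3 : DifferentiableOn ℂ (fun ζ => f [] (e k ζ)) (ann 1 R) :=
            hT.pic.diff.comp ((F.diff k).mono fun ζ hζ => hζ.1)
              (fun ζ hζ => F.collar_mem k hζ)
          have h4 : DifferentiableOn ℂ (fun ζ => h (f [] (e k ζ))) (ann 1 R) :=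
            hE.diff.comp h3 (fun ζ hζ => himA [] hW0 (by simp) _ (F.collar_mem k hζ))
          exact (h4.sub_const c).div_const _
        have hGout : ∀ ζ ∈ ann 1 R, r < ‖h (f [] (e k ζ)) - c‖ := by
          intro ζ hζ
          have h3 := hhm _ (himA [] hW0 (by simp) _ (F.collar_mem k hζ))
          rwa [mem_compl_iff, mem_closedBall, dist_eq_norm, not_le] at h3
        have hG0 : ∀ ζ ∈ ann 1 R, G ζ ≠ 0 := by
          intro ζ hζ
          exact div_ne_zero (norm_pos_iff.1 (hr.trans (hGout ζ hζ))) hr0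
        have hGn : ∀ ε > 0, ∃ δ > 0, ∀ ζ, 1 < ‖ζ‖ → ‖ζ‖ < 1 + δ → |‖G ζ‖ - 1| < ε := by
          intro ε hε
          obtain ⟨δ₁, hδ₁, h3⟩ := E.e2 (hT.pic.cont k) hE (r * ε) (by positivity)
          obtain ⟨δ₂, hδ₂, h4⟩ := hT.pic.bdry k δ₁ hδ₁
          obtain ⟨c', r', hPar⟩ := F.par k
          obtain ⟨ρ, hρ, h5⟩ := E.e3 (F.cont k) hPar δ₂ hδ₂
          refine ⟨min (ρ - 1) (R - 1), lt_min (by linarith) (by linarith [F.hR]), ?_⟩
          intro ζ hζ1 hζ2
          have hm1 := min_le_left (ρ - 1) (R - 1)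
          have hm2 := min_le_right (ρ - 1) (R - 1)
          have hζa : ζ ∈ ann 1 R := ⟨hζ1, by linarith⟩
          have h6 := h5 ζ hζ1 (by linarith)
          have h7 := h4 _ (F.collar_mem k hζa) h6
          have h8 := h3 _ (himA [] hW0 (by simp) _ (F.collar_mem k hζa)) h7
          have h9 := hGout ζ hζa
          obtain ⟨y, hy, hyd⟩ := (infDist_lt_iff ⟨c, mem_closedBall_self hr.le⟩).1 h8
          rw [mem_closedBall, dist_eq_norm] at hy
          rw [dist_eq_norm] at hyd
          have h10 : ‖h (f [] (e k ζ)) - c‖ < r * ε + r := by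
            calc ‖h (f [] (e k ζ)) - c‖ = ‖(h (f [] (e k ζ)) - y) + (y - c)‖ := by ring_nf
              _ ≤ ‖h (f [] (e k ζ)) - y‖ + ‖y - c‖ := norm_add_le _ _
              _ < r * ε + r := by linarith
          have h11 : ‖G ζ‖ = ‖h (f [] (e k ζ)) - c‖ / r := by
            rw [hG]
            simp only
            rw [norm_div, norm_real, Real.norm_eq_abs, abs_of_pos hr]
          rw [h11, abs_lt]
          constructor
          · have : 1 < ‖h (f [] (e k ζ)) - c‖ / r := by rwa [one_lt_div hr]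
            linarith
          · have : ‖h (f [] (e k ζ)) - c‖ / r < ε + 1 := by
              rw [div_lt_iff₀ hr]; linarith
            linarith
        obtain ⟨ψ, hψ, ho, hi⟩ := hRF F.hR hGd hG0 hGn
        refine ⟨fun ζ => c + r * ψ ζ, ?_, ?_, ?_⟩
        · simp only [pc_nil]
          exact (hψ.const_mul _).const_add _
        · intro ζ hζ
          rw [step_ne (by simp)]
          simp only
          rw [ho ζ hζ, hG]
          simp only
          rw [mul_div_cancel₀ _ hr0]
          ring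
        · intro ζ hζ
          show c + r * ψ ζ = step f k h c r [k] (e k (conj ζ)⁻¹)
          rw [step_cons]
          have hs := star_mem F.hR hζ
          have h3 := hi ζ (ann_in F.hR hζ)
          rw [ho _ hs] at h3
          have h4 : conj (G (conj ζ)⁻¹) ≠ 0 := by
            rw [Ne, map_eq_zero]; exact hG0 _ hs
          have h5 : ψ ζ * conj (G (conj ζ)⁻¹) = 1 := by
            have := congrArg conj h3
            simpa using this
          have h6 : ψ ζ = (conj (G (conj ζ)⁻¹))⁻¹ := eq_inv_of_mul_eq_one_left h5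
          rw [h6]
          unfold sg
          have h7 : conj (G (conj ζ)⁻¹) = conj (h (f [] (e k (conj ζ)⁻¹)) - c) / r := by
            rw [hG]
            simp
          have h8 : conj (h (f [] (e k (conj ζ)⁻¹)) - c) ≠ 0 := by
            intro h0
            rw [h7, h0, zero_div] at h4
            exact h4 rfl
          rw [h7]
          field_simp
    · -- `w = j :: w'`
      obtain ⟨h1, h2⟩ := hmemB w' hw
      have hwk' : j :: (w' ++ [k]) ∈ stepW j W := hwk
      obtain ⟨h3, h4⟩ := hmemB _ hwk'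
      obtain ⟨ψ, hψ, ho, hi⟩ := hT.glue w' k h1 h3
      have hav := Tower.glue_notMem F hT h1 h3 h4 hψ ho hi
      refine ⟨fun ζ => sg c r (h (ψ ζ)), ?_, ?_, ?_⟩
      · have h5 := pc_comp_diff w' hLo hsgd hψ hav
        refine h5.congr fun z _ => ?_
        simp only
        rw [sg_eq, pc_cons]
        by_cases he : Even w'.length
        · simp [pc, he]
        · simp [pc, he]
      · intro ζ hζ
        rw [step_cons]
        simp only
        rw [ho ζ hζ]
      · intro ζ hζ
        show sg c r (h (ψ ζ)) = step f j h c r (j :: (w' ++ [k])) (e k (conj ζ)⁻¹)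
        rw [step_cons, hi ζ hζ]

end Vale.Agent.P116.FK.T
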