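import Vale.Agent.P116.FK.T1

/-!
# Blocks T2 and T3: towers of every height
-/

open Set Metric Filter Topology Complex Bornology MeasureTheory
open scoped ComplexConjugate Real

namespace Vale.Agent.P116.FK.T

variable {n : ℕ}

lemma nil_mem_Wd (m k : ℕ) : ([] : List (Fin n)) ∈ Wd n m k :=
  ⟨List.isChain_nil, Or.inl (Nat.zero_le _)⟩

/-- the step with first letter `k` -/
lemma Wd_succ_sub (m : ℕ) {k : ℕ} (hk : k < n) :
    Wd n m (k + 1) ⊆ stepW ⟨k, hk⟩ (Wd n m k) := by
  rintro w ⟨hc, hl⟩
  by_cases hj : w.head? = some ⟨k, hk⟩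
  · right
    cases w with
    | nil => simp at hj
    | cons i w' =>
      have hi : i = ⟨k, hk⟩ := by simpa using hj
      subst hi
      refine ⟨w', rfl, ⟨hc.tail, Or.inl ?_⟩, ?_⟩
      · rcases hl with hl | ⟨hl, -⟩
        · simp at hl; omega
        · simp at hl; omega
      · cases w' with
        | nil => simp
        | cons i' w'' =>
          have h1 := (List.isChain_cons_cons.1 hc).1
          intro h2
          apply h1
          have : i' = ⟨k, hk⟩ := by simpa using h2
          exact this.symm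
  · left
    refine ⟨⟨hc, ?_⟩, hj⟩
    rcases hl with hl | ⟨hl, i, w', hw, hi⟩
    · exact Or.inl hl
    · refine Or.inr ⟨hl, i, w', hw, ?_⟩
      have : i.val ≠ k := by
        intro h
        apply hj
        rw [hw]
        simp only [List.head?_cons, Option.some.injEq]
        exact Fin.ext h
      omega

lemma Wd_next (m : ℕ) : Wd n (m + 1) 0 ⊆ Wd n m n := by
  rintro w ⟨hc, hl⟩
  refine ⟨hc, ?_⟩
  rcases hl with hl | ⟨-, i, w', -, hi⟩
  · rcases Nat.lt_or_ge m w.length with h | h
    · right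
      refine ⟨by omega, ?_⟩
      cases w with
      | nil => simp at h
      | cons i w' => exact ⟨i, w', rfl, i.2⟩
    · exact Or.inl h
  · exact (Nat.not_lt_zero _ hi).elim

lemma Wd_stepW (m : ℕ) (j : Fin n) : Wd n m 0 ⊆ stepW j (Wd n m 0) := by
  rintro w ⟨hc, hl⟩
  by_cases hj : w.head? = some j
  · right
    cases w with
    | nil => simp at hj
    | cons i w' =>
      have hi : i = j := by simpa using hj
      subst hi
      refine ⟨w', rfl, ⟨hc.tail, Or.inl ?_⟩, ?_⟩
      · rcases hl with hl | ⟨-, i, w', -, hi⟩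
        · simp at hl; omega
        · exact (Nat.not_lt_zero _ hi).elim
      · cases w' with
        | nil => simp
        | cons i' w'' =>
          have h1 := (List.isChain_cons_cons.1 hc).1
          intro h2
          apply h1
          have : i' = i := by simpa using h2
          exact this.symm
  · left
    exact ⟨⟨hc, hl⟩, hj⟩

variable {P L : Fin n → Set ℂ} {e : Fin n → ℂ → ℂ} {R R₀ : ℝ} {W : Set (List (Fin n))}
  {f : List (Fin n) → ℂ → ℂ}

/-- the tower of height `0` -/
lemma base (F : Fam P e R R₀) : Tower P P e R (Wd n 0 0) (fun _ z => z) := by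
  have h0 : ∀ w ∈ Wd n 0 0, w = [] := by
    rintro w ⟨-, hl | ⟨-, i, w', -, hi⟩⟩
    · exact List.length_eq_zero_iff.1 (Nat.le_zero.1 hl)
    · exact (Nat.not_lt_zero _ hi).elim
  refine ⟨⟨F.cont, F.disj, differentiableOn_id, injOn_id _, image_id' _, ?_, ?_⟩,
    ?_, ?_, ?_, ?_, ?_⟩
  · simp
  · intro j ε hε
    exact ⟨ε, hε, fun z _ h => h⟩
  · intro w hw
    rw [h0 w hw]
    simp only [pc_nil]
    exact differentiableOn_id
  · intro w _
    exact injOn_id _
  · intro w hw w' hw' h
    rw [h0 w hw, h0 w' hw'] at h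
    exact (h rfl).elim
  · intro i w hw
    exact absurd (h0 _ hw) (by simp)
  · intro w j _ hw
    exact absurd (h0 _ hw) (by simp)

/-- the exterior Riemann map of `L j` -/
lemma Tower.ext (hM : Spec.M) (F : Fam P e R R₀) (hT : Tower P L e R W f) (j : Fin n) :
    ∃ h c r, Ext (L j) h c r := by
  refine hM (hT.pic.cont j) (E.e6 hT.pic.cont hT.pic.disj ?_ j)
  rw [← hT.pic.image]
  exact F.conn.image _ hT.pic.diff.continuousOn

theorem t2 (hT1 : Spec.T1) (hM : Spec.M) : Spec.T2 := by
  intro n P e R R₀ F m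
  induction m with
  | zero => exact ⟨P, _, base F⟩
  | succ m ih =>
    have key : ∀ k ≤ n, ∃ L f, Tower P L e R (Wd n m k) f := by
      intro k
      induction k with
      | zero => exact fun _ => ih
      | succ k ihk =>
        intro hk
        obtain ⟨L, f, hT⟩ := ihk (by omega)
        obtain ⟨h, c, r, hE⟩ := Tower.ext hM F hT ⟨k, hk⟩
        obtain ⟨f', hT'⟩ := hT1 F (nil_mem_Wd m k) hT ⟨k, hk⟩ hE
        exact ⟨_, f', Tower.mono hT' (Wd_succ_sub m hk)⟩
    obtain ⟨L, f, hT⟩ := key n le_rfl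
    exact ⟨L, f, Tower.mono hT (Wd_next m)⟩

theorem t3 (hT1 : Spec.T1) (hM : Spec.M) : Spec.T3 := by
  intro n P L e R R₀ f F m hT j
  obtain ⟨h, c, r, hE⟩ := Tower.ext hM F hT j
  obtain ⟨f', hT'⟩ := hT1 F (nil_mem_Wd m 0) hT j hE
  exact ⟨_, f', c, r, hE.pos, Tower.mono hT' (Wd_stepW m j), if_pos rfl⟩

end Vale.Agent.P116.FK.T
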