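import Vale.Agent.P116.FK.Spec

/-!
# Finite Koebe theorem: area of the image of a disc
-/

open Set Metric Filter Topology Complex MeasureTheory
open scoped Real ENNReal

namespace Vale.Agent.P116.FK

theorem v_abs_det (a : ℂ) :
    |((ContinuousLinearMap.toSpanSingleton ℂ a).restrictScalars ℝ : ℂ →L[ℝ] ℂ).det| =
      ‖a‖ ^ 2 := by
  simp [ContinuousLinearMap.det, LinearMap.det_restrictScalars,
      Algebra.norm_complex_eq, Complex.normSq_eq_norm_sq]

/-- The area of the image. -/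
theorem v_area {U : Set ℂ} (hU : IsOpen U) {ψ : ℂ → ℂ} (hψ : DifferentiableOn ℂ ψ U)
    (hi : InjOn ψ U) : ∫⁻ z in U, ‖deriv ψ z‖ₑ ^ 2 = volume (ψ '' U) := by
  rw [← lintegral_abs_det_fderiv_eq_addHaar_image volume hU.measurableSet (f' := fun z =>
    ((ContinuousLinearMap.toSpanSingleton ℂ (deriv ψ z)).restrictScalars ℝ : ℂ →L[ℝ] ℂ))
    (fun z hz => (((hψ.differentiableAt
      (hU.mem_nhds hz)).hasDerivAt.hasFDerivAt).restrictScalars ℝ).hasFDerivWithinAt) hi]
  congr 1
  ext z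
  rw [v_abs_det, ← ofReal_norm, ENNReal.ofReal_pow (norm_nonneg _)]

theorem v_polar (c : ℂ) {g : ℂ → ℝ≥0∞} (hg : Measurable g) :
    ∫⁻ z, g z = ∫⁻ r in Ioi (0 : ℝ), ∫⁻ θ in Ioo (-π) π,
      ENNReal.ofReal r * g (circleMap c r θ) := by
  have h1 : ∫⁻ z, g z = ∫⁻ z, g (c + z) := (lintegral_add_left_eq_self g c).symm
  rw [h1, ← Complex.lintegral_comp_polarCoord_symm, polarCoord_target]
  have hm : Measurable fun p : ℝ × ℝ =>
      ENNReal.ofReal p.1 * g (c + p.1 * Complex.exp (p.2 * Complex.I)) := by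
    fun_prop
  have h2 : ∀ p : ℝ × ℝ, ENNReal.ofReal p.1 • g (c + Complex.polarCoord.symm p) =
      ENNReal.ofReal p.1 * g (c + p.1 * Complex.exp (p.2 * Complex.I)) := by
    intro p
    rw [smul_eq_mul, Complex.polarCoord_symm_apply, Complex.exp_mul_I]
    norm_cast
  simp only [h2]
  rw [Measure.volume_eq_prod, ← Measure.prod_restrict, lintegral_prod _ hm.aemeasurable]
  rfl

theorem v_mean {f : ℂ → ℂ} {z : ℂ} {δ r : ℝ} (hf : DifferentiableOn ℂ f (ball z δ)) (hr : 0 < r)
    (hrδ : r < δ) : ENNReal.ofReal (2 * π) * ‖f z‖ₑ ^ 2 ≤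
      ∫⁻ θ in Ioo (-π) π, ‖f (circleMap z r θ)‖ₑ ^ 2 := by
  have hcl : DiffContOnCl ℂ f (ball z |r|) := by
    rw [abs_of_pos hr]
    exact (hf.mono (closedBall_subset_ball hrδ)).diffContOnCl_ball subset_rfl
  have h1 := hcl.circleAverage
  rw [Real.circleAverage_eq_integral_add (-π)] at h1
  have e1 : ∫ θ in (0 : ℝ)..2 * π, f (circleMap z r (θ + -π)) =
      ∫ θ in (-π)..π, f (circleMap z r θ) := by
    rw [intervalIntegral.integral_comp_add_right (fun θ => f (circleMap z r θ))]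
    congr 1 <;> ring
  rw [e1] at h1
  have hpi : (0 : ℝ) < 2 * π := by positivity
  have h2 : ∫ θ in (-π)..π, f (circleMap z r θ) = (2 * π : ℝ) • f z := by
    rw [← h1, smul_smul, mul_inv_cancel₀ hpi.ne', one_smul]
  have h3 : ENNReal.ofReal (2 * π) * ‖f z‖ₑ ≤ ∫⁻ θ in Ioo (-π) π, ‖f (circleMap z r θ)‖ₑ := by
    rw [intervalIntegral.integral_of_le (by linarith), integral_Ioc_eq_integral_Ioo] at h2
    have := enorm_integral_le_lintegral_enorm (μ := volume.restrict (Ioo (-π) π))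
      (fun θ => f (circleMap z r θ))
    rw [h2, enorm_smul, Real.enorm_eq_ofReal hpi.le] at this
    exact this
  have hcont : ContinuousOn (fun θ : ℝ => f (circleMap z r θ)) univ := by
    refine hf.continuousOn.comp (continuous_circleMap z r).continuousOn fun θ _ => ?_
    rw [mem_ball, dist_eq_norm, circleMap_sub_center, norm_circleMap_zero, abs_of_pos hr]
    exact hrδ
  have hfm : AEMeasurable (fun θ : ℝ => ‖f (circleMap z r θ)‖ₑ) (volume.restrict (Ioo (-π) π)) :=
    (continuousOn_univ.1 hcont).enorm.aemeasurable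
  have hCS : (∫⁻ θ in Ioo (-π) π, ‖f (circleMap z r θ)‖ₑ) ^ 2 ≤
      ENNReal.ofReal (2 * π) * ∫⁻ θ in Ioo (-π) π, ‖f (circleMap z r θ)‖ₑ ^ 2 := by
    have h := ENNReal.lintegral_mul_le_Lp_mul_Lq (volume.restrict (Ioo (-π) π))
      Real.HolderConjugate.two_two hfm
      (aemeasurable_const (b := (1 : ℝ≥0∞)))
    simp only [Pi.mul_apply, mul_one, ENNReal.one_rpow, lintegral_const, one_mul,
      Measure.restrict_apply MeasurableSet.univ, univ_inter, Real.volume_Ioo] at h
    have h' := pow_le_pow_left₀ bot_le h 2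
    rw [mul_pow, ← ENNReal.rpow_natCast, ← ENNReal.rpow_natCast _ 2, ← ENNReal.rpow_natCast _ 2,
      ← ENNReal.rpow_mul, ← ENNReal.rpow_mul] at h'
    norm_num at h'
    rw [mul_comm]
    have e3 : π + π = 2 * π := by ring
    rw [e3] at h'
    convert h' using 1
  have h5 := (pow_le_pow_left₀ bot_le h3 2).trans hCS
  rw [mul_pow, pow_two, mul_assoc] at h5
  rwa [ENNReal.mul_le_mul_iff_right (by simp [Real.pi_pos]) ENNReal.ofReal_ne_top] at h5

theorem v : Spec.V := by
  intro g z δ hδ hg hi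
  have hball : IsOpen (ball z δ) := isOpen_ball
  set F : ℂ → ℝ≥0∞ := (ball z δ).indicator fun w => ‖deriv g w‖ₑ ^ 2 with hF
  have hFm : Measurable F :=
    ((measurable_deriv g).enorm.pow_const 2).indicator hball.measurableSet
  rw [← v_area hball hg hi, ← lintegral_indicator hball.measurableSet, v_polar z hFm]
  have hd : DifferentiableOn ℂ (deriv g) (ball z δ) := hg.deriv hball
  have h1 : ∀ r ∈ Ioo 0 δ, ENNReal.ofReal (r * (2 * π * ‖deriv g z‖ ^ 2)) ≤
      ∫⁻ θ in Ioo (-π) π, ENNReal.ofReal r * F (circleMap z r θ) := by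
    intro r hr
    have e1 : ∀ θ, F (circleMap z r θ) = ‖deriv g (circleMap z r θ)‖ₑ ^ 2 := by
      intro θ
      rw [hF, indicator_of_mem]
      rw [mem_ball, dist_eq_norm, circleMap_sub_center, norm_circleMap_zero, abs_of_pos hr.1]
      exact hr.2
    simp only [e1]
    rw [lintegral_const_mul' _ _ ENNReal.ofReal_ne_top, ENNReal.ofReal_mul hr.1.le]
    refine mul_le_mul_right ?_ _
    refine le_trans (le_of_eq ?_) (v_mean hd hr.1 hr.2)
    rw [ENNReal.ofReal_mul (by positivity), ENNReal.ofReal_pow (norm_nonneg _), ofReal_norm]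
  have h2 : ∫⁻ r in Ioo 0 δ, ENNReal.ofReal (r * (2 * π * ‖deriv g z‖ ^ 2)) =
      ENNReal.ofReal (π * δ ^ 2 * ‖deriv g z‖ ^ 2) := by
    have hint : IntegrableOn (fun r : ℝ => r * (2 * π * ‖deriv g z‖ ^ 2)) (Ioo 0 δ) := by
      have : IntervalIntegrable (fun r : ℝ => r * (2 * π * ‖deriv g z‖ ^ 2)) volume 0 δ :=
        (by fun_prop : Continuous fun r : ℝ => r * (2 * π * ‖deriv g z‖ ^ 2)).intervalIntegrable _ _
      rw [intervalIntegrable_iff_integrableOn_Ioo_of_le hδ.le] at this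
      exact this
    rw [← ofReal_integral_eq_lintegral_ofReal hint]
    · congr 1
      rw [← integral_Ioc_eq_integral_Ioo, ← intervalIntegral.integral_of_le hδ.le,
        intervalIntegral.integral_mul_const, integral_id]
      ring
    · rw [EventuallyLE, ae_restrict_iff' measurableSet_Ioo]
      refine Eventually.of_forall fun r hr => ?_
      have := hr.1
      simp only [Pi.zero_apply]
      positivity
  rw [← h2]
  calc _ ≤ ∫⁻ r in Ioo 0 δ, ∫⁻ θ in Ioo (-π) π, ENNReal.ofReal r * F (circleMap z r θ) :=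
        setLIntegral_mono' measurableSet_Ioo h1
    _ ≤ _ := lintegral_mono_set fun r hr => hr.1

end Vale.Agent.P116.FK
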