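import Vale.Agent.P116.FK.Z3

open Set Metric Filter Topology Complex Bornology MeasureTheory
open scoped ComplexConjugate Real

namespace Vale.Agent.P116.FK

/-! ### Rigidity: area, combinatorics, conclusion -/

variable {n : ℕ} {P L L' : Fin n → Set ℂ} {e : Fin n → ℂ → ℂ} {R R₀ : ℝ}

lemma volume_pc_image (w : List (Fin n)) {s : Set ℂ} (hs : MeasurableSet s) :
    volume (pc w '' s) = volume s := by
  unfold pc
  split_ifs with h
  · simp
  · have h1 : (fun z : ℂ => conj z) '' s = (conjLIE ⁻¹' s : Set ℂ) := by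
      ext z
      constructor
      · rintro ⟨y, hy, rfl⟩
        simpa using hy
      · intro hz
        exact ⟨conj z, by simpa using hz, by simp⟩
    have h2 : (fun z : ℂ => if Even w.length then z else conj z) '' s = (conjLIE ⁻¹' s : Set ℂ) := by
      rw [← h1]
      simp [h]
    have h3 := (conjLIE.measurePreserving).measure_preimage hs.nullMeasurableSet
    first
      | (rw [h1]; exact h3)
      | (rw [h2]; exact h3)

lemma area_sum (hV : Spec.V) (F : Fam P e R R₀) {W : Set (List (Fin n))}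
    {f : List (Fin n) → ℂ → ℂ} (T : Tower P L e R W f) {B : ℝ} (hB0 : 0 ≤ B)
    (hB : ∀ i, L i ⊆ closedBall 0 B) {ρ : ℝ} (h1 : 1 < ρ) (h2 : ρ + (ρ - 1) ≤ R)
    (S : Finset (List (Fin n) × Fin n)) (hS : ∀ q ∈ S, q.1 ∈ W ∧ q.1 ≠ [])
    (x : List (Fin n) × Fin n → ℂ) (hx : ∀ q ∈ S, x q ∈ sphere 0 ρ) :
    ∑ q ∈ S, ‖deriv (fun ζ => pc q.1 (f q.1 (e q.2 ζ))) (x q)‖ ^ 2 ≤ B ^ 2 / (ρ - 1) ^ 2 := by
  have hδ : 0 < ρ - 1 := by linarith
  set u : List (Fin n) × Fin n → ℂ → ℂ := fun q ζ => pc q.1 (f q.1 (e q.2 ζ)) with hu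
  have hball : ∀ q ∈ S, ball (x q) (ρ - 1) ⊆ ann 1 R := by
    intro q hq ζ hζ
    have h3 := hx q hq
    rw [mem_sphere_zero_iff_norm] at h3
    rw [mem_ball, dist_eq_norm] at hζ
    have h4 : ‖x q‖ - ‖ζ‖ ≤ ‖ζ - x q‖ := by
      rw [norm_sub_rev]; exact norm_sub_norm_le _ _
    have h5 : ‖ζ‖ - ‖x q‖ ≤ ‖ζ - x q‖ := norm_sub_norm_le _ _
    exact ⟨by linarith, by linarith⟩
  have hud : ∀ q ∈ S, DifferentiableOn ℂ (u q) (ball (x q) (ρ - 1)) := fun q hq =>
    (diff_collar F (T.diff q.1 (hS q hq).1) q.2).mono (hball q hq)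
  have hui : ∀ q ∈ S, InjOn (u q) (ball (x q) (ρ - 1)) := by
    intro q hq a ha b hb hab
    have h3 := pc_injective q.1 hab
    have h4 := T.inj q.1 (hS q hq).1 (F.collar_mem q.2 (hball q hq ha))
      (F.collar_mem q.2 (hball q hq hb)) h3
    exact F.inj q.2 (hball q hq ha).1 (hball q hq hb).1 h4
  have hopen : ∀ q ∈ S, IsOpen (u q '' ball (x q) (ρ - 1)) := fun q hq =>
    isOpen_image_of_injOn isOpen_ball (hud q hq) (hui q hq)
  set A : List (Fin n) × Fin n → Set ℂ := fun q => pc q.1 '' (u q '' ball (x q) (ρ - 1)) with hA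
  have hAeq : ∀ q, A q = (fun ζ => f q.1 (e q.2 ζ)) '' ball (x q) (ρ - 1) := by
    intro q
    simp only [hA, hu, image_image, pc_pc]
  have hAm : ∀ q ∈ S, MeasurableSet (A q) := by
    intro q hq
    have h3 : A q = pc q.1 ⁻¹' (u q '' ball (x q) (ρ - 1)) := by
      ext z
      constructor
      · rintro ⟨y, hy, rfl⟩
        rw [mem_preimage, pc_pc]; exact hy
      · intro hz
        exact ⟨pc q.1 z, hz, pc_pc _ _⟩
    rw [h3]
    exact ((hopen q hq).preimage (continuous_pc _)).measurableSet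
  have hdisj : (↑S : Set (List (Fin n) × Fin n)).PairwiseDisjoint A := by
    intro a ha b hb hab
    rw [Function.onFun, hAeq, hAeq, Set.disjoint_left]
    rintro _ ⟨ζ, hζ, rfl⟩ ⟨η, hη, h⟩
    have ma := F.collar_mem a.2 (hball a ha hζ)
    have mb := F.collar_mem b.2 (hball b hb hη)
    simp only at h
    by_cases hw : a.1 = b.1
    · rw [hw] at h
      have h3 := T.inj b.1 (hS b hb).1 mb ma h
      by_cases hj : a.2 = b.2
      · exact hab (Prod.ext hw hj)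
      · have := F.collar_disj a.2 b.2 hj
        exact this.le_bot ⟨mem_image_of_mem _ (hball a ha hζ), Or.inr ⟨η, hball b hb hη, h3⟩⟩
    · have := T.disj a.1 (hS a ha).1 b.1 (hS b hb).1 hw
      exact this.le_bot ⟨mem_image_of_mem _ ma, by rw [← h]; exact mem_image_of_mem _ mb⟩
  have hsub : (⋃ q ∈ S, A q) ⊆ closedBall 0 B := by
    intro z hz
    rw [mem_iUnion₂] at hz
    obtain ⟨q, hq, hz⟩ := hz
    rw [hAeq] at hz
    obtain ⟨ζ, hζ, rfl⟩ := hz
    obtain ⟨i, w', hw'⟩ := List.exists_cons_of_ne_nil (hS q hq).2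
    apply hB i
    have h3 := T.sub i w' (hw' ▸ (hS q hq).1)
    have h4 : f q.1 (e q.2 ζ) ∈ f (i :: w') '' (⋃ j, P j)ᶜ := by
      rw [hw']
      exact mem_image_of_mem _ (F.collar_mem q.2 (hball q hq hζ))
    exact h3 h4
  have hvol : ∑ q ∈ S, volume (A q) ≤ volume (closedBall (0 : ℂ) B) := by
    rw [← measure_biUnion_finset hdisj hAm]
    exact measure_mono hsub
  have hle : ∑ q ∈ S, ENNReal.ofReal (π * (ρ - 1) ^ 2 * ‖deriv (u q) (x q)‖ ^ 2) ≤
      volume (closedBall (0 : ℂ) B) := by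
    refine le_trans (Finset.sum_le_sum fun q hq => ?_) hvol
    have h3 := hV hδ (hud q hq) (hui q hq)
    rw [show volume (A q) = volume (u q '' ball (x q) (ρ - 1)) from
      volume_pc_image q.1 (hopen q hq).measurableSet]
    exact h3
  rw [Complex.volume_closedBall, ← ENNReal.ofReal_sum_of_nonneg (fun q _ => by positivity)] at hle
  have h5 : ENNReal.ofReal B ^ 2 * ↑NNReal.pi = ENNReal.ofReal (π * B ^ 2) := by
    rw [mul_comm, ENNReal.ofReal_mul Real.pi_pos.le, ENNReal.ofReal_pow hB0]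
    congr 1
    rw [← ENNReal.ofReal_coe_nnreal]
    rfl
  rw [h5, ENNReal.ofReal_le_ofReal_iff (by positivity)] at hle
  have h6 : ∑ q ∈ S, π * (ρ - 1) ^ 2 * ‖deriv (u q) (x q)‖ ^ 2 =
      (π * (ρ - 1) ^ 2) * ∑ q ∈ S, ‖deriv (u q) (x q)‖ ^ 2 := by
    rw [Finset.mul_sum]
  rw [h6] at hle
  rw [le_div_iff₀ (by positivity)]
  have hpi := Real.pi_pos
  have h7 : π * ((∑ q ∈ S, ‖deriv (u q) (x q)‖ ^ 2) * (ρ - 1) ^ 2) ≤ π * B ^ 2 := by
    calc π * ((∑ q ∈ S, ‖deriv (u q) (x q)‖ ^ 2) * (ρ - 1) ^ 2) =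
        (π * (ρ - 1) ^ 2) * ∑ q ∈ S, ‖deriv (u q) (x q)‖ ^ 2 := by ring
      _ ≤ _ := hle
  exact le_of_mul_le_mul_left h7 hpi

/-- pairs `(w, j)` with `w` of length `l` and `w ++ [j]` reduced -/
noncomputable def Pr (n l : ℕ) : Finset (List (Fin n) × Fin n) := by
  classical
  exact ((List.finite_length_eq (Fin n) l).toFinset ×ˢ Finset.univ).filter
    (fun q => (q.1 ++ [q.2]).IsChain (· ≠ ·))

lemma mem_Pr {l : ℕ} {q : List (Fin n) × Fin n} :
    q ∈ Pr n l ↔ q.1.length = l ∧ (q.1 ++ [q.2]).IsChain (· ≠ ·) := by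
  simp [Pr]

lemma Pr_mono {l : ℕ} (φ : List (Fin n) → Fin n → ℝ) (h0 : ∀ w j, 0 ≤ φ w j)
    (hφ : ∀ w j, (w, j) ∈ Pr n l → φ w j ≤ ∑ i ∈ Finset.univ.filter (· ≠ j), φ (w ++ [j]) i) :
    ∑ q ∈ Pr n l, φ q.1 q.2 ≤ ∑ q ∈ Pr n (l + 1), φ q.1 q.2 := by
  classical
  calc ∑ q ∈ Pr n l, φ q.1 q.2 ≤ ∑ q ∈ Pr n l, ∑ i ∈ Finset.univ.filter (· ≠ q.2),
        φ (q.1 ++ [q.2]) i := Finset.sum_le_sum fun q hq => hφ q.1 q.2 hq
    _ = ∑ x ∈ (Pr n l).sigma (fun q => Finset.univ.filter (· ≠ q.2)),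
        φ (x.1.1 ++ [x.1.2]) x.2 := by rw [Finset.sum_sigma]
    _ = ∑ y ∈ ((Pr n l).sigma (fun q => Finset.univ.filter (· ≠ q.2))).image
        (fun x => (x.1.1 ++ [x.1.2], x.2)), φ y.1 y.2 := by
          rw [Finset.sum_image]
          rintro ⟨⟨w, j⟩, i⟩ _ ⟨⟨w', j'⟩, i'⟩ _ h
          simp only [Prod.mk.injEq, List.append_left_inj] at h
          obtain ⟨h1, h2⟩ := h
          have h3 := List.append_inj' h1 rfl
          simp only [List.cons.injEq, and_true] at h3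
          obtain ⟨h4, h5⟩ := h3
          subst h4 h5 h2
          rfl
    _ ≤ ∑ q ∈ Pr n (l + 1), φ q.1 q.2 := by
          apply Finset.sum_le_sum_of_subset_of_nonneg
          · intro y hy
            rw [Finset.mem_image] at hy
            obtain ⟨⟨⟨w, j⟩, i⟩, hx, rfl⟩ := hy
            rw [Finset.mem_sigma, mem_Pr] at hx
            obtain ⟨⟨h1, h2⟩, h3⟩ := hx
            simp only [Finset.mem_filter, Finset.mem_univ, true_and] at h3
            rw [mem_Pr]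
            refine ⟨by simp at h1 ⊢; omega, ?_⟩
            simp only at h2 ⊢
            rw [List.isChain_append]
            refine ⟨h2, by simp, ?_⟩
            intro a ha b hb
            simp at ha hb
            subst ha hb
            exact fun h => h3 h.symm
          · intro q _ _
            exact h0 _ _

/-- **Block Z** -/
theorem rigidity (hQ : Spec.Q) (hC1 : Spec.C1) (hC2 : Spec.C2) (hV : Spec.V) : Spec.Z := by
  intro n P e R R₀ F
  set R₂ := max R₀ 1 with hR₂d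
  have hR₂1 : 1 ≤ R₂ := le_max_right _ _
  have hR₂ : 0 < R₂ := lt_of_lt_of_le one_pos hR₂1
  have hfar : {z : ℂ | R₂ < ‖z‖} ⊆ (⋃ i, P i)ᶜ := fun z hz =>
    F.far ((le_max_left _ _).trans (le_of_lt hz))
  set ρ := (1 + R) / 2 with hρd
  have hR := F.hR
  have h1 : 1 < ρ := by rw [hρd]; linarith
  have h2 : ρ < R := by rw [hρd]; linarith
  have h3 : ρ + (ρ - 1) ≤ R := by rw [hρd]; linarith
  have hρ0 : 0 < ρ := by linarith
  set B := 2 * R₂ with hBd
  have hB0 : 0 ≤ B := by rw [hBd]; linarith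
  set K := 8 * π ^ 2 * ρ ^ 2 with hK
  have hK0 : 0 ≤ K := by rw [hK]; positivity
  set A := B ^ 2 / (ρ - 1) ^ 2 with hAd
  have hA0 : 0 ≤ A := by rw [hAd]; positivity
  refine ⟨K * (A + A), 20 * R₂ ^ 2 + 3 * R₂ + 1, ?_⟩
  intro m hm L L' f f' T T' z₀ hz₀
  -- the holes are in closedBall 0 B
  have hhole : ∀ {L : Fin n → Set ℂ} {g : ℂ → ℂ}, Pic P L g → ∀ i, L i ⊆ closedBall 0 B := by
    intro L g hg i w hw
    rw [mem_closedBall_zero_iff]
    refine hC1 hR₂ (hg.diff.mono hfar) (hg.inj.mono hfar) hg.norm ?_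
    rintro ⟨z, hz, rfl⟩
    have h4 : g z ∈ g '' (⋃ j, P j)ᶜ := mem_image_of_mem _ (hfar hz)
    rw [hg.image] at h4
    exact h4 (mem_iUnion.2 ⟨i, hw⟩)
  have hL := hhole T.pic
  have hL' := hhole T'.pic
  -- the point
  set p := f [] z₀ with hpd
  have hz₀' : 2 * R₂ ≤ ‖z₀‖ := by nlinarith
  have hz₀R : R₀ ≤ ‖z₀‖ := by
    have := le_max_left R₀ 1
    rw [← hR₂d] at this
    linarith
  have hp1 : B + 1 ≤ ‖p‖ := by
    have h4 := hC2 hR₂ (T.pic.diff.mono hfar) (T.pic.inj.mono hfar) T.pic.norm hz₀'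
    have h5 : 20 * R₂ ^ 2 / ‖z₀‖ ≤ R₂ := by
      rw [div_le_iff₀ (by linarith)]
      nlinarith
    have h6 : ‖z₀‖ - ‖p‖ ≤ ‖f [] z₀ - z₀‖ := by
      rw [norm_sub_rev]; exact norm_sub_norm_le _ _
    rw [hBd]
    nlinarith
  have hp : B < ‖p‖ := by linarith
  -- words
  have hnil : [] ∈ Wd n m 0 := ⟨by simp, Or.inl (by simp)⟩
  have hWd : ∀ w : List (Fin n), w.IsChain (· ≠ ·) → w.length ≤ m → w ∈ Wd n m 0 :=
    fun w hw hl => ⟨hw, Or.inl hl⟩
  set φ : List (Fin n) → Fin n → ℝ := fun w j => ‖flux (e j) ρ (Gf f f' p w)‖ with hφ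
  have hφ0 : ∀ w j, 0 ≤ φ w j := fun w j => norm_nonneg _
  have hmono : ∀ l, l + 1 ≤ m → ∑ q ∈ Pr n l, φ q.1 q.2 ≤ ∑ q ∈ Pr n (l + 1), φ q.1 q.2 := by
    intro l hl
    apply Pr_mono φ hφ0
    intro w j hwj
    rw [mem_Pr] at hwj
    obtain ⟨h4, h5⟩ := hwj
    simp only at h4 h5
    have hw : w ∈ Wd n m 0 := hWd w (h5.left_of_append) (by omega)
    have hwj : w ++ [j] ∈ Wd n m 0 := hWd _ h5 (by simp; omega)
    have h6 := flux_glue F T T' hL hz₀R hp hw hwj h1 h2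
    have h7 := flux_sum hQ F T T' hB0 hL hL' hp hwj (by simp) h1 h2
    have h8 : φ w j = ‖flux (e j) ρ (Gf f f' p (w ++ [j]))‖ := by
      rw [hφ]; simp only; rw [← hpd] at h6; rw [h6, Complex.norm_conj]
    rw [h8]
    rw [← Finset.sum_filter_add_sum_filter_not Finset.univ (· ≠ j)] at h7
    have h9 : ∑ x ∈ Finset.univ.filter (fun x => ¬ (x ≠ j)), flux (e x) ρ (Gf f f' p (w ++ [j])) =
        flux (e j) ρ (Gf f f' p (w ++ [j])) := by
      simp only [not_not]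
      rw [Finset.filter_eq' Finset.univ j]
      simp
    rw [h9] at h7
    have h10 : flux (e j) ρ (Gf f f' p (w ++ [j])) =
        -∑ x ∈ Finset.univ.filter (· ≠ j), flux (e x) ρ (Gf f f' p (w ++ [j])) := by
      linear_combination h7
    rw [h10, norm_neg]
    exact norm_sum_le _ _
  have hlevel : ∀ l, l ≤ m → ∑ q ∈ Pr n 0, φ q.1 q.2 ≤ ∑ q ∈ Pr n l, φ q.1 q.2 := by
    intro l
    induction l with
    | zero => intro _; exact le_rfl
    | succ l ih => intro hl; exact (ih (by omega)).trans (hmono l hl)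
  -- base
  have hbase : 2 * π * ‖f [] z₀ - f' [] z₀‖ ≤ ∑ q ∈ Pr n 0, φ q.1 q.2 := by
    have h4 := flux_nil hQ F T T' hnil hz₀R h1 h2
    have h5 : ‖∑ j, flux (e j) ρ (Gf f f' p [])‖ = 2 * π * ‖f [] z₀ - f' [] z₀‖ := by
      rw [h4, norm_neg, norm_mul, norm_mul, norm_mul, Complex.norm_I, mul_one,
        norm_sub_rev (f' [] z₀)]
      simp [abs_of_pos Real.pi_pos]
    rw [← h5]
    refine (norm_sum_le _ _).trans ?_
    have h6 : ∑ j, ‖flux (e j) ρ (Gf f f' p [])‖ = ∑ q ∈ Finset.univ.image (fun j : Fin n => (([] : List (Fin n)), j)), φ q.1 q.2 := by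
      rw [Finset.sum_image (by intro a _ b _ h; simpa using h)]
    rw [h6]
    apply Finset.sum_le_sum_of_subset_of_nonneg
    · intro q hq
      rw [Finset.mem_image] at hq
      obtain ⟨j, _, rfl⟩ := hq
      rw [mem_Pr]
      exact ⟨rfl, by simp⟩
    · intro q _ _; exact hφ0 _ _
  -- maxima of the derivatives
  have hmax : ∀ {L : Fin n → Set ℂ} {g : List (Fin n) → ℂ → ℂ}, Tower P L e R (Wd n m 0) g →
      ∀ q : List (Fin n) × Fin n, ∃ x : ℂ, q.1 ∈ Wd n m 0 → x ∈ sphere (0 : ℂ) ρ ∧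
        ∀ ζ ∈ sphere (0 : ℂ) ρ, ‖deriv (fun ζ => pc q.1 (g q.1 (e q.2 ζ))) ζ‖ ≤
          ‖deriv (fun ζ => pc q.1 (g q.1 (e q.2 ζ))) x‖ := by
    intro L g Tg q
    by_cases hq : q.1 ∈ Wd n m 0
    · have hd := (diff_collar F (Tg.diff q.1 hq) q.2).deriv (isOpen_ann 1 R)
      have hc : ContinuousOn (fun ζ => ‖deriv (fun ζ => pc q.1 (g q.1 (e q.2 ζ))) ζ‖)
          (sphere (0 : ℂ) ρ) := (hd.continuousOn.mono (sphere_sub_ann h1 h2)).norm
      obtain ⟨x, hx, hmx⟩ := (isCompact_sphere (0 : ℂ) ρ).exists_isMaxOn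
        (NormedSpace.sphere_nonempty.2 hρ0.le) hc
      exact ⟨x, fun _ => ⟨hx, fun ζ hζ => hmx hζ⟩⟩
    · exact ⟨0, fun h => absurd h hq⟩
  choose x hx using hmax T
  choose x' hx' using hmax T'
  -- flux bound
  have hflux : ∀ q : List (Fin n) × Fin n, q.1 ∈ Wd n m 0 → q.1 ≠ [] → φ q.1 q.2 ≤
      K * (‖deriv (fun ζ => pc q.1 (f q.1 (e q.2 ζ))) (x q)‖ ^ 2 +
        ‖deriv (fun ζ => pc q.1 (f' q.1 (e q.2 ζ))) (x' q)‖ ^ 2) := by
    intro q hq hne
    rw [hφ]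
    simp only
    rw [flux_eq F T hq p q.2 h1 h2, hK]
    refine flux_bound hρ0 (isOpen_ann 1 R) (sphere_sub_ann h1 h2) (diff_collar F (T.diff q.1 hq) q.2)
      (diff_collar F (T'.diff q.1 hq) q.2) (hx q hq).2 (hx' q hq).2 (B := B) ?_ ?_
    · intro ζ hζ
      rw [norm_pc]
      obtain ⟨i, w', hw'⟩ := List.exists_cons_of_ne_nil hne
      have h3 := T.sub i w' (hw' ▸ hq)
      have h4 : f q.1 (e q.2 ζ) ∈ f (i :: w') '' (⋃ j, P j)ᶜ := by
        rw [hw']
        exact mem_image_of_mem _ (F.collar_mem q.2 (sphere_sub_ann h1 h2 hζ))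
      simpa using hL i (h3 h4)
    · rw [norm_pc]; exact hp1
  -- total
  have htot : ∑ l ∈ Finset.Icc 1 m, ∑ q ∈ Pr n l, φ q.1 q.2 ≤ K * (A + A) := by
    classical
    have hdisj : (↑(Finset.Icc 1 m) : Set ℕ).PairwiseDisjoint (fun l => Pr n l) := by
      intro a _ b _ hab
      rw [Function.onFun, Finset.disjoint_left]
      intro q hqa hqb
      rw [mem_Pr] at hqa hqb
      exact hab (hqa.1.symm.trans hqb.1)
    rw [← Finset.sum_biUnion hdisj]
    set S := (Finset.Icc 1 m).biUnion (fun l => Pr n l) with hS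
    have hSm : ∀ q ∈ S, q.1 ∈ Wd n m 0 ∧ q.1 ≠ [] := by
      intro q hq
      rw [hS, Finset.mem_biUnion] at hq
      obtain ⟨l, hl, hq⟩ := hq
      rw [Finset.mem_Icc] at hl
      rw [mem_Pr] at hq
      refine ⟨hWd _ hq.2.left_of_append (by omega), ?_⟩
      intro h
      rw [h] at hq
      simp at hq
      omega
    have a1 := area_sum hV F T hB0 hL h1 h3 S hSm x (fun q hq => (hx q (hSm q hq).1).1)
    have a2 := area_sum hV F T' hB0 hL' h1 h3 S hSm x' (fun q hq => (hx' q (hSm q hq).1).1)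
    calc ∑ q ∈ S, φ q.1 q.2 ≤ ∑ q ∈ S, K * (‖deriv (fun ζ => pc q.1 (f q.1 (e q.2 ζ))) (x q)‖ ^ 2 +
        ‖deriv (fun ζ => pc q.1 (f' q.1 (e q.2 ζ))) (x' q)‖ ^ 2) :=
          Finset.sum_le_sum fun q hq => hflux q (hSm q hq).1 (hSm q hq).2
      _ = K * (∑ q ∈ S, ‖deriv (fun ζ => pc q.1 (f q.1 (e q.2 ζ))) (x q)‖ ^ 2 +
        ∑ q ∈ S, ‖deriv (fun ζ => pc q.1 (f' q.1 (e q.2 ζ))) (x' q)‖ ^ 2) := by
          rw [← Finset.mul_sum, Finset.sum_add_distrib]
      _ ≤ K * (A + A) := mul_le_mul_of_nonneg_left (add_le_add a1 a2) hK0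
  have hfin : (m : ℝ) * (2 * π * ‖f [] z₀ - f' [] z₀‖) ≤ K * (A + A) := by
    refine le_trans ?_ htot
    calc (m : ℝ) * (2 * π * ‖f [] z₀ - f' [] z₀‖) =
        ∑ l ∈ Finset.Icc 1 m, (2 * π * ‖f [] z₀ - f' [] z₀‖) := by
          rw [Finset.sum_const, Nat.card_Icc]; simp
      _ ≤ _ := by
          apply Finset.sum_le_sum
          intro l hl
          rw [Finset.mem_Icc] at hl
          exact hbase.trans (hlevel l hl.2)
  have hm0 : (0 : ℝ) < m := by exact_mod_cast hm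
  rw [le_div_iff₀ hm0]
  have hpi : 1 ≤ 2 * π := by have := Real.pi_gt_three; linarith
  calc ‖f [] z₀ - f' [] z₀‖ * m = m * (1 * ‖f [] z₀ - f' [] z₀‖) := by ring
    _ ≤ m * (2 * π * ‖f [] z₀ - f' [] z₀‖) := by
        apply mul_le_mul_of_nonneg_left _ hm0.le
        exact mul_le_mul_of_nonneg_right hpi (norm_nonneg _)
    _ ≤ _ := hfin

end Vale.Agent.P116.FK
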