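import Vale.Agent.P116.FK.Basic

open Set Metric Filter Topology Complex Bornology MeasureTheory
open scoped ComplexConjugate Real

namespace Vale.Agent.P116.FK

/-! ### Rigidity: analytic preliminaries -/

/-- bounded analytic near infinity: `z F'(z) → 0` -/
lemma tendsto_mul_deriv {R : ℝ} (hR : 0 < R) {F : ℂ → ℂ} (hF : DifferentiableOn ℂ F {z | R < ‖z‖})
    {B : ℝ} (hB : ∀ z, R < ‖z‖ → ‖F z‖ ≤ B) :
    Tendsto (fun z => z * deriv F z) (cobounded ℂ) (𝓝 0) := by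
  set g : ℂ → ℂ := fun w => F w⁻¹ with hg
  set r := R⁻¹ with hr
  have hrpos : 0 < r := inv_pos.2 hR
  have hmem : ∀ w ∈ ball (0 : ℂ) r \ {0}, R < ‖w⁻¹‖ := by
    rintro w ⟨hw, hw0⟩
    rw [mem_ball_zero_iff] at hw
    rw [mem_singleton_iff] at hw0
    rw [norm_inv, lt_inv_comm₀ hR (norm_pos_iff.2 hw0)]
    exact hw
  have hgd : DifferentiableOn ℂ g (ball 0 r \ {0}) := by
    intro w hw
    have h1 : DifferentiableAt ℂ F w⁻¹ :=
      (hF w⁻¹ (hmem w hw)).differentiableAt ((isOpen_lt continuous_const continuous_norm).mem_nhds (hmem w hw))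
    exact (h1.comp w (differentiableAt_inv hw.2)).differentiableWithinAt
  have hbdd : BddAbove (norm ∘ g '' (ball 0 r \ {0})) := by
    refine ⟨B, ?_⟩
    rintro _ ⟨w, hw, rfl⟩
    exact hB _ (hmem w hw)
  have hext := Complex.differentiableOn_update_limUnder_of_bddAbove (ball_mem_nhds (0 : ℂ) hrpos) hgd hbdd
  set G := Function.update g 0 (limUnder (𝓝[≠] (0 : ℂ)) g) with hG
  have hGd : DifferentiableOn ℂ G (ball 0 r) := hext
  have hFG : ∀ z, R < ‖z‖ → F z = G z⁻¹ := by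
    intro z hz
    have hz0 : z ≠ 0 := norm_pos_iff.1 (hR.trans hz)
    rw [hG, Function.update_of_ne (inv_ne_zero hz0), hg]
    simp
  have hGc : ContinuousAt (deriv G) 0 :=
    ((hGd.deriv isOpen_ball).continuousOn).continuousAt (ball_mem_nhds 0 hrpos)
  have hev : ∀ᶠ z in cobounded ℂ, z * deriv F z = - (deriv G z⁻¹ * z⁻¹) := by
    have : ∀ᶠ z in cobounded ℂ, R < ‖z‖ := by
      have := tendsto_norm_cobounded_atTop (E := ℂ)
      exact this.eventually_gt_atTop R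
    filter_upwards [this] with z hz
    have hz0 : z ≠ 0 := norm_pos_iff.1 (hR.trans hz)
    have hzr : z⁻¹ ∈ ball (0 : ℂ) r := by
      rw [mem_ball_zero_iff, norm_inv, hr]
      exact inv_strictAnti₀ hR hz
    have h1 : HasDerivAt G (deriv G z⁻¹) z⁻¹ :=
      ((hGd z⁻¹ hzr).differentiableAt (isOpen_ball.mem_nhds hzr)).hasDerivAt
    have h2 : HasDerivAt (fun y => G y⁻¹) (deriv G z⁻¹ * (-(z ^ 2)⁻¹)) z :=
      h1.comp z (hasDerivAt_inv hz0)
    have h3 : F =ᶠ[𝓝 z] fun y => G y⁻¹ := by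
      filter_upwards [(isOpen_lt continuous_const continuous_norm).mem_nhds hz] with y hy
      exact hFG y hy
    rw [h3.deriv_eq, h2.deriv]
    field_simp
  have hinv : Tendsto (fun z : ℂ => z⁻¹) (cobounded ℂ) (𝓝 0) := tendsto_inv₀_cobounded
  have h4 : Tendsto (fun z : ℂ => -(deriv G z⁻¹ * z⁻¹)) (cobounded ℂ) (𝓝 (-(deriv G 0 * 0))) :=
    ((hGc.tendsto.comp hinv).mul hinv).neg
  rw [mul_zero, neg_zero] at h4
  exact h4.congr' (hev.mono fun z hz => hz.symm)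

/-- the circle integral of `u'/(u - q)` vanishes if `|u| < |q|` on the circle -/
lemma circle_log_zero {u : ℂ → ℂ} {ρ : ℝ} (hρ : 0 < ρ) {U : Set ℂ} (hU : IsOpen U)
    (hs : sphere (0 : ℂ) ρ ⊆ U) (hu : DifferentiableOn ℂ u U) {q : ℂ}
    (hq : ∀ ζ ∈ sphere (0 : ℂ) ρ, ‖u ζ‖ < ‖q‖) :
    (∮ ζ in C(0, ρ), deriv u ζ / (u ζ - q)) = 0 := by
  apply circleIntegral.integral_eq_zero_of_hasDerivWithinAt' (f := fun ζ => Complex.log (1 - u ζ / q))
  intro ζ hζ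
  rw [abs_of_pos hρ] at hζ
  have hq0 : q ≠ 0 := by
    intro h
    have := hq ζ hζ
    rw [h, norm_zero] at this
    exact absurd this (not_lt.2 (norm_nonneg _))
  have h1 : HasDerivAt u (deriv u ζ) ζ := ((hu ζ (hs hζ)).differentiableAt (hU.mem_nhds (hs hζ))).hasDerivAt
  have h2 : HasDerivAt (fun ζ => 1 - u ζ / q) (-(deriv u ζ / q)) ζ := by
    simpa using (h1.div_const q).const_sub 1
  have hsl : 1 - u ζ / q ∈ slitPlane := by
    have : ‖-(u ζ / q)‖ < 1 := by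
      rw [norm_neg, norm_div, div_lt_one (norm_pos_iff.2 hq0)]
      exact hq ζ hζ
    simpa [sub_eq_add_neg] using Complex.mem_slitPlane_of_norm_lt_one this
  have h3 := h2.clog hsl
  have hne : u ζ - q ≠ 0 := by
    intro h
    have := hq ζ hζ
    rw [sub_eq_zero.1 h] at this
    exact lt_irrefl _ this
  have h4 : -(deriv u ζ / q) / (1 - u ζ / q) = deriv u ζ / (u ζ - q) := by
    have h5 : 1 - u ζ / q ≠ 0 := slitPlane_ne_zero hsl
    rw [div_eq_div_iff h5 hne]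
    field_simp
    ring
  rw [h4] at h3
  exact h3.hasDerivWithinAt

/-- oscillation on a circle -/
lemma circle_osc {g : ℂ → ℂ} {ρ : ℝ} (hρ : 0 < ρ) {U : Set ℂ} (hU : IsOpen U)
    (hs : sphere (0 : ℂ) ρ ⊆ U) (hg : DifferentiableOn ℂ g U) {M : ℝ}
    (hM : ∀ ζ ∈ sphere (0 : ℂ) ρ, ‖deriv g ζ‖ ≤ M) {ζ : ℂ} (hζ : ζ ∈ sphere (0 : ℂ) ρ) :
    ‖g ζ - g ρ‖ ≤ 2 * π * ρ * M := by
  have hcm : ∀ θ : ℝ, circleMap 0 ρ θ ∈ sphere (0 : ℂ) ρ := fun θ => circleMap_mem_sphere 0 hρ.le θ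
  obtain ⟨θ, hθ, rfl⟩ : ∃ θ ∈ Icc (0 : ℝ) (2 * π), circleMap 0 ρ θ = ζ := by
    have : ζ ∈ circleMap 0 ρ '' Ioc 0 (2 * π) := by
      rw [image_circleMap_Ioc, abs_of_pos hρ]; exact hζ
    obtain ⟨θ, hθ, h⟩ := this
    exact ⟨θ, Ioc_subset_Icc_self hθ, h⟩
  have hM0 : 0 ≤ M := (norm_nonneg _).trans (hM _ hζ)
  have hder : ∀ t ∈ Icc (0 : ℝ) (2 * π), HasDerivWithinAt (fun t : ℝ => g (circleMap 0 ρ t))
      (deriv g (circleMap 0 ρ t) * (circleMap 0 ρ t * I)) (Icc 0 (2 * π)) t := by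
    intro t _
    have h1 : HasDerivAt g (deriv g (circleMap 0 ρ t)) (circleMap 0 ρ t) :=
      ((hg _ (hs (hcm t))).differentiableAt (hU.mem_nhds (hs (hcm t)))).hasDerivAt
    have h2 := h1.comp t (hasDerivAt_circleMap 0 ρ t)
    exact h2.hasDerivWithinAt
  have hbd : ∀ t ∈ Ico (0 : ℝ) (2 * π), ‖deriv g (circleMap 0 ρ t) * (circleMap 0 ρ t * I)‖ ≤ M * ρ := by
    intro t _
    rw [norm_mul, norm_mul, Complex.norm_I, mul_one]
    have : ‖circleMap 0 ρ t‖ = ρ := by simpa using hcm t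
    rw [this]
    exact mul_le_mul_of_nonneg_right (hM _ (hcm t)) hρ.le
  have := norm_image_sub_le_of_norm_deriv_le_segment' hder hbd θ hθ
  have h0 : circleMap 0 ρ 0 = ρ := by simp [circleMap]
  rw [h0] at this
  refine this.trans ?_
  rw [sub_zero]
  calc M * ρ * θ ≤ M * ρ * (2 * π) := mul_le_mul_of_nonneg_left hθ.2 (mul_nonneg hM0 hρ.le)
    _ = 2 * π * ρ * M := by ring

/-- flux bound -/
lemma flux_bound {u v : ℂ → ℂ} {ρ : ℝ} (hρ : 0 < ρ) {U : Set ℂ} (hU : IsOpen U)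
    (hs : sphere (0 : ℂ) ρ ⊆ U) (hu : DifferentiableOn ℂ u U) (hv : DifferentiableOn ℂ v U)
    {M N B : ℝ} (hM : ∀ ζ ∈ sphere (0 : ℂ) ρ, ‖deriv u ζ‖ ≤ M)
    (hN : ∀ ζ ∈ sphere (0 : ℂ) ρ, ‖deriv v ζ‖ ≤ N) {q : ℂ}
    (hB : ∀ ζ ∈ sphere (0 : ℂ) ρ, ‖u ζ‖ ≤ B) (hq : B + 1 ≤ ‖q‖) :
    ‖∮ ζ in C(0, ρ), (v ζ - u ζ) * deriv u ζ / (u ζ - q)‖ ≤ 8 * π ^ 2 * ρ ^ 2 * (M ^ 2 + N ^ 2) := by
  have hρs : (ρ : ℂ) ∈ sphere (0 : ℂ) ρ := by simp [abs_of_pos hρ]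
  have hM0 : 0 ≤ M := (norm_nonneg _).trans (hM _ hρs)
  have hN0 : 0 ≤ N := (norm_nonneg _).trans (hN _ hρs)
  have hqlt : ∀ ζ ∈ sphere (0 : ℂ) ρ, ‖u ζ‖ < ‖q‖ := fun ζ hζ => by
    have := hB ζ hζ; linarith
  have hne : ∀ ζ ∈ sphere (0 : ℂ) ρ, 1 ≤ ‖u ζ - q‖ := by
    intro ζ hζ
    have h1 := hB ζ hζ
    have h2 : ‖q‖ - ‖u ζ‖ ≤ ‖u ζ - q‖ := by
      rw [norm_sub_rev]; exact norm_sub_norm_le _ _
    linarith
  set κ := v ρ - u ρ with hκ
  have hcu : ContinuousOn u (sphere 0 ρ) := hu.continuousOn.mono hs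
  have hcv : ContinuousOn v (sphere 0 ρ) := hv.continuousOn.mono hs
  have hcdu : ContinuousOn (deriv u) (sphere 0 ρ) := (hu.deriv hU).continuousOn.mono hs
  have hne' : ∀ ζ ∈ sphere (0 : ℂ) ρ, u ζ - q ≠ 0 := by
    intro ζ hζ h
    have := hne ζ hζ
    rw [h, norm_zero] at this
    linarith
  have hc1 : CircleIntegrable (fun ζ => (v ζ - u ζ - κ) * deriv u ζ / (u ζ - q)) 0 ρ := by
    apply ContinuousOn.circleIntegrable hρ.le
    exact (((hcv.sub hcu).sub continuousOn_const).mul hcdu).div (hcu.sub continuousOn_const) hne'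
  have hc2 : CircleIntegrable (fun ζ => κ * (deriv u ζ / (u ζ - q))) 0 ρ := by
    apply ContinuousOn.circleIntegrable hρ.le
    exact continuousOn_const.mul (hcdu.div (hcu.sub continuousOn_const) hne')
  have e1 : (∮ ζ in C(0, ρ), (v ζ - u ζ) * deriv u ζ / (u ζ - q)) =
      ∮ ζ in C(0, ρ), (v ζ - u ζ - κ) * deriv u ζ / (u ζ - q) := by
    have h1 := circleIntegral.integral_add hc1 hc2
    have h2 : (∮ ζ in C(0, ρ), κ * (deriv u ζ / (u ζ - q))) = 0 := by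
      have := circle_log_zero hρ hU hs hu hqlt
      rw [circleIntegral.integral_const_mul, this, mul_zero]
    rw [h2, add_zero] at h1
    rw [← h1]
    apply circleIntegral.integral_congr hρ.le
    intro ζ hζ
    simp only
    ring
  rw [e1]
  have hbd : ∀ ζ ∈ sphere (0 : ℂ) ρ, ‖(v ζ - u ζ - κ) * deriv u ζ / (u ζ - q)‖ ≤
      (2 * π * ρ * (M + N)) * M := by
    intro ζ hζ
    have h1 : ‖v ζ - u ζ - κ‖ ≤ 2 * π * ρ * (M + N) := by
      have hg : DifferentiableOn ℂ (fun ζ => v ζ - u ζ) U := hv.sub hu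
      have hdg : ∀ ζ ∈ sphere (0 : ℂ) ρ, ‖deriv (fun ζ => v ζ - u ζ) ζ‖ ≤ M + N := by
        intro ζ hζ
        have a1 := ((hu ζ (hs hζ)).differentiableAt (hU.mem_nhds (hs hζ)))
        have a2 := ((hv ζ (hs hζ)).differentiableAt (hU.mem_nhds (hs hζ)))
        rw [deriv_fun_sub a2 a1]
        refine (norm_sub_le _ _).trans ?_
        have := hM ζ hζ
        have := hN ζ hζ
        linarith
      have := circle_osc hρ hU hs hg hdg hζ
      simpa only [hκ] using this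
    rw [norm_div, norm_mul]
    have h2 := hne ζ hζ
    have h3 := hM ζ hζ
    calc ‖v ζ - u ζ - κ‖ * ‖deriv u ζ‖ / ‖u ζ - q‖ ≤ ‖v ζ - u ζ - κ‖ * ‖deriv u ζ‖ / 1 := by
          apply div_le_div_of_nonneg_left (by positivity) one_pos h2
      _ ≤ (2 * π * ρ * (M + N)) * M := by
          rw [div_one]
          exact mul_le_mul h1 h3 (norm_nonneg _) (by positivity)
  refine (circleIntegral.norm_integral_le_of_norm_le_const hρ.le hbd).trans ?_
  have hp := Real.pi_pos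
  have : (2 * π * ρ * (M + N)) * M ≤ 2 * π * ρ * (2 * (M ^ 2 + N ^ 2)) := by
    have : (M + N) * M ≤ 2 * (M ^ 2 + N ^ 2) := by nlinarith [sq_nonneg (M - N), sq_nonneg N, sq_nonneg M]
    calc (2 * π * ρ * (M + N)) * M = 2 * π * ρ * ((M + N) * M) := by ring
      _ ≤ _ := mul_le_mul_of_nonneg_left this (by positivity)
  calc 2 * π * ρ * ((2 * π * ρ * (M + N)) * M) ≤ 2 * π * ρ * (2 * π * ρ * (2 * (M ^ 2 + N ^ 2))) :=
        mul_le_mul_of_nonneg_left this (by positivity)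
    _ = 8 * π ^ 2 * ρ ^ 2 * (M ^ 2 + N ^ 2) := by ring

/-- substitution `ζ ↦ 1 / conj ζ` in a circle integral of a logarithmic type form -/
lemma circle_reflect {A A' : ℂ → ℂ} {R ρ : ℝ} (h1 : 1 < ρ) (h2 : ρ < R)
    (hA : DifferentiableOn ℂ A (ann R⁻¹ R)) {q : ℂ} {u u' : ℂ → ℂ}
    (hu : ∀ ζ ∈ ann 1 R, u ζ = conj (A (conj ζ)⁻¹))
    (hu' : ∀ ζ ∈ ann 1 R, u' ζ = conj (A' (conj ζ)⁻¹)) :
    (∮ ζ in C(0, ρ), (u' ζ - u ζ) * deriv u ζ / (u ζ - conj q)) =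
      conj (∮ η in C(0, ρ⁻¹), (A' η - A η) * deriv A η / (A η - q)) := by
  have hρ0 : 0 < ρ := by linarith
  have hann : ∀ ζ ∈ ann 1 R, (conj ζ)⁻¹ ∈ ann R⁻¹ R := by
    rintro ζ ⟨hz1, hz2⟩
    refine ⟨?_, ?_⟩
    · rw [norm_inv, Complex.norm_conj]
      exact inv_strictAnti₀ (by linarith) hz2
    · rw [norm_inv, Complex.norm_conj]
      calc ‖ζ‖⁻¹ < 1 := inv_lt_one_of_one_lt₀ hz1
        _ < R := by linarith
  have hder : ∀ ζ ∈ ann 1 R, deriv u ζ = conj (deriv A (conj ζ)⁻¹) * (-(ζ ^ 2)⁻¹) := by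
    intro ζ hζ
    have hζ0 : ζ ≠ 0 := by
      intro h
      have := hζ.1
      rw [h, norm_zero] at this
      linarith
    have e1 : u =ᶠ[𝓝 ζ] fun y => (conj ∘ A ∘ conj) y⁻¹ := by
      filter_upwards [(isOpen_ann 1 R).mem_nhds hζ] with y hy
      rw [hu y hy]
      simp [Function.comp]
    have hA1 : HasDerivAt A (deriv A (conj ζ⁻¹)) (conj ζ⁻¹) := by
      have : conj ζ⁻¹ ∈ ann R⁻¹ R := by
        have := hann ζ hζ
        rwa [map_inv₀]
      exact ((hA _ this).differentiableAt ((isOpen_ann _ _).mem_nhds this)).hasDerivAt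
    have h3 : HasDerivAt (conj ∘ A ∘ conj) (conj (deriv A (conj ζ⁻¹))) ζ⁻¹ := by
      have := hA1.conj_conj
      simpa using this
    have h4 := h3.comp ζ (hasDerivAt_inv hζ0)
    rw [e1.deriv_eq]
    have h5 : deriv (fun y => (conj ∘ A ∘ conj) y⁻¹) ζ = conj (deriv A (conj ζ⁻¹)) * (-(ζ ^ 2)⁻¹) :=
      h4.deriv
    rw [h5, map_inv₀]
  rw [circleIntegral, circleIntegral, ← intervalIntegral.intervalIntegral_conj]
  apply intervalIntegral.integral_congr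
  intro θ _
  simp only
  have hz : circleMap 0 ρ θ ∈ ann 1 R := by
    have : ‖circleMap 0 ρ θ‖ = ρ := by simp [abs_of_pos hρ0]
    exact ⟨by rw [this]; exact h1, by rw [this]; exact h2⟩
  have hz0 : circleMap 0 ρ θ ≠ 0 := by simp [hρ0.ne']
  have hη : (conj (circleMap 0 ρ θ))⁻¹ = circleMap 0 ρ⁻¹ θ := by
    simp only [circleMap, zero_add, map_mul, conj_ofReal, ← exp_conj, conj_I, mul_inv, ofReal_inv]
    rw [← Complex.exp_neg]
    ring_nf
  rw [hder _ hz, hu _ hz, hu' _ hz, hη]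
  simp only [deriv_circleMap, smul_eq_mul, map_mul, map_div₀, map_sub, conj_I]
  have hη' : conj (circleMap 0 ρ⁻¹ θ) = (circleMap 0 ρ θ)⁻¹ := by
    rw [← hη, map_inv₀, conj_conj]
  rw [hη']
  field_simp

end Vale.Agent.P116.FK
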