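import Vale.Agent.P116.FK.Z1

open Set Metric Filter Topology Complex Bornology MeasureTheory
open scoped ComplexConjugate Real

namespace Vale.Agent.P116.FK

/-! ### Rigidity: the fluxes -/

variable {n : ℕ} {P L L' : Fin n → Set ℂ} {e : Fin n → ℂ → ℂ} {R R₀ : ℝ}

/-- the 1-form whose fluxes are studied -/
noncomputable def Gf (f f' : List (Fin n) → ℂ → ℂ) (p : ℂ) (w : List (Fin n)) (z : ℂ) : ℂ :=
  (pc w (f' w z) - pc w (f w z)) * deriv (fun z => pc w (f w z)) z / (pc w (f w z) - pc w p)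

lemma sphere_sub_ann {a b ρ : ℝ} (h1 : a < ρ) (h2 : ρ < b) : sphere (0 : ℂ) ρ ⊆ ann a b := by
  intro ζ hζ
  rw [mem_sphere_zero_iff_norm] at hζ
  exact ⟨by rw [hζ]; exact h1, by rw [hζ]; exact h2⟩

lemma ann_sub {R : ℝ} : ann 1 R ⊆ {ζ : ℂ | 1 < ‖ζ‖} := fun _ h => h.1

lemma deriv_collar (F : Fam P e R R₀) {s : ℂ → ℂ} (hs : DifferentiableOn ℂ s (⋃ i, P i)ᶜ)
    (j : Fin n) {ζ : ℂ} (hζ : ζ ∈ ann 1 R) :
    HasDerivAt (fun ζ => s (e j ζ)) (deriv s (e j ζ) * deriv (e j) ζ) ζ := by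
  have h1 : HasDerivAt s (deriv s (e j ζ)) (e j ζ) :=
    ((hs _ (F.collar_mem j hζ)).differentiableAt (F.isOpen.mem_nhds (F.collar_mem j hζ))).hasDerivAt
  have h2 : HasDerivAt (e j) (deriv (e j) ζ) ζ :=
    ((F.diff j ζ hζ.1).differentiableAt
      ((isOpen_lt continuous_const continuous_norm).mem_nhds hζ.1)).hasDerivAt
  exact h1.comp ζ h2

lemma diff_collar (F : Fam P e R R₀) {s : ℂ → ℂ} (hs : DifferentiableOn ℂ s (⋃ i, P i)ᶜ)
    (j : Fin n) : DifferentiableOn ℂ (fun ζ => s (e j ζ)) (ann 1 R) := fun _ hζ =>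
  (deriv_collar F hs j hζ).differentiableAt.differentiableWithinAt

lemma flux_eq (F : Fam P e R R₀) {W : Set (List (Fin n))} {f f' : List (Fin n) → ℂ → ℂ}
    (T : Tower P L e R W f) {w : List (Fin n)} (hw : w ∈ W) (p : ℂ) (j : Fin n) {ρ : ℝ}
    (h1 : 1 < ρ) (h2 : ρ < R) :
    flux (e j) ρ (Gf f f' p w) = ∮ ζ in C(0, ρ), (pc w (f' w (e j ζ)) - pc w (f w (e j ζ))) *
      deriv (fun ζ => pc w (f w (e j ζ))) ζ / (pc w (f w (e j ζ)) - pc w p) := by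
  unfold flux
  apply circleIntegral.integral_congr (by linarith)
  intro ζ hζ
  have hζ' := sphere_sub_ann h1 h2 hζ
  simp only
  rw [(deriv_collar F (T.diff w hw) j hζ').deriv, Gf]
  ring


lemma flux_glue (F : Fam P e R R₀) {W : Set (List (Fin n))} {f f' : List (Fin n) → ℂ → ℂ}
    (T : Tower P L e R W f) (T' : Tower P L' e R W f') {B : ℝ} (hB : ∀ i, L i ⊆ closedBall 0 B)
    {z₀ : ℂ} (hz₀ : R₀ ≤ ‖z₀‖) (hp : B < ‖f [] z₀‖) {w : List (Fin n)} {j : Fin n} (hw : w ∈ W)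
    (hwj : w ++ [j] ∈ W) {ρ : ℝ} (h1 : 1 < ρ) (h2 : ρ < R) :
    flux (e j) ρ (Gf f f' (f [] z₀) (w ++ [j])) = conj (flux (e j) ρ (Gf f f' (f [] z₀) w)) := by
  obtain ⟨ψ, hψd, hψ1, hψ2⟩ := T.glue w j hw hwj
  obtain ⟨ψ', hψd', hψ1', hψ2'⟩ := T'.glue w j hw hwj
  have hρ0 : 0 < ρ := by linarith
  have hR0 : 0 < R := by linarith
  set q := pc w (f [] z₀) with hq
  have hqn : ‖q‖ = ‖f [] z₀‖ := norm_pc _ _
  -- substitution
  have hinv : ∀ ζ ∈ ann 1 R, (conj ζ)⁻¹ ∈ ann R⁻¹ 1 := by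
    rintro ζ ⟨ha, hb⟩
    refine ⟨?_, ?_⟩
    · rw [norm_inv, Complex.norm_conj]; exact inv_strictAnti₀ (by linarith) hb
    · rw [norm_inv, Complex.norm_conj]; exact inv_lt_one_of_one_lt₀ ha
  have hu : ∀ ζ ∈ ann 1 R, pc (w ++ [j]) (f (w ++ [j]) (e j ζ)) = conj (pc w (ψ (conj ζ)⁻¹)) := by
    intro ζ hζ
    rw [pc_append, hψ2 _ (hinv ζ hζ)]
    simp
  have hu' : ∀ ζ ∈ ann 1 R, pc (w ++ [j]) (f' (w ++ [j]) (e j ζ)) = conj (pc w (ψ' (conj ζ)⁻¹)) := by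
    intro ζ hζ
    rw [pc_append, hψ2' _ (hinv ζ hζ)]
    simp
  rw [flux_eq F T hwj _ _ h1 h2, pc_append, circle_reflect (A' := fun ζ => pc w (ψ' ζ)) h1 h2 hψd (q := q) hu hu',
    flux_eq F T hw _ _ h1 h2]
  congr 1
  -- nonvanishing
  have hLn : ∀ i (z : ℂ), z ∈ L i → ‖z‖ ≤ B := fun i z hz => by
    simpa using hB i hz
  have hin : ∀ η ∈ ann R⁻¹ 1, ‖pc w (ψ η)‖ ≤ B := by
    intro η hη
    rw [norm_pc, hψ2 η hη]
    have hm : e j (conj η)⁻¹ ∈ (⋃ i, P i)ᶜ := by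
      apply F.collar_mem j
      have hη0 : 0 < ‖η‖ := lt_trans (inv_pos.2 hR0) hη.1
      refine ⟨?_, ?_⟩
      · rw [norm_inv, Complex.norm_conj]; exact (one_lt_inv₀ hη0).2 hη.2
      · rw [norm_inv, Complex.norm_conj, inv_lt_comm₀ hη0 hR0]; exact hη.1
    rcases w with _ | ⟨i, w⟩
    · exact hLn j _ (T.sub j [] hwj (mem_image_of_mem _ hm))
    · exact hLn i _ (T.sub i (w ++ [j]) hwj (mem_image_of_mem _ hm))
  have hcirc : ∀ ζ : ℂ, ‖ζ‖ = 1 → ‖pc w (ψ ζ)‖ ≤ B := by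
    intro ζ hζ
    have hζm : ζ ∈ ann R⁻¹ R := ⟨by rw [hζ]; exact inv_lt_one_of_one_lt₀ (by linarith), by rw [hζ]; linarith⟩
    have hc : ContinuousAt (fun ζ => pc w (ψ ζ)) ζ :=
      (hψd.continuousOn).continuousAt ((isOpen_ann _ _).mem_nhds hζm)
    have ht : Tendsto (fun t : ℝ => (t : ℂ) * ζ) (𝓝[<] 1) (𝓝 ζ) := by
      have : Tendsto (fun t : ℝ => (t : ℂ) * ζ) (𝓝 1) (𝓝 (((1 : ℝ) : ℂ) * ζ)) := by
        apply Continuous.tendsto
        fun_prop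
      rw [ofReal_one, one_mul] at this
      exact this.mono_left nhdsWithin_le_nhds
    have h3 := (hc.tendsto.comp ht).norm
    refine le_of_tendsto h3 ?_
    have hRi : R⁻¹ < 1 := inv_lt_one_of_one_lt₀ (by linarith)
    have : Ioo R⁻¹ 1 ∈ 𝓝[<] (1 : ℝ) := Ioo_mem_nhdsLT hRi
    filter_upwards [this] with t ht
    apply hin
    have htn : ‖(t : ℂ) * ζ‖ = t := by
      rw [norm_mul, hζ, mul_one, Complex.norm_real, Real.norm_eq_abs,
        abs_of_pos (lt_trans (inv_pos.2 hR0) ht.1)]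
    exact ⟨by rw [htn]; exact ht.1, by rw [htn]; exact ht.2⟩
  have hne : ∀ ζ ∈ ann R⁻¹ R, pc w (ψ ζ) - q ≠ 0 := by
    intro ζ hζ h0
    have h0' : pc w (ψ ζ) = q := sub_eq_zero.1 h0
    rcases lt_trichotomy ‖ζ‖ 1 with h | h | h
    · have := hin ζ ⟨hζ.1, h⟩
      rw [h0', hqn] at this
      exact absurd hp (not_lt.2 this)
    · have := hcirc ζ h
      rw [h0', hqn] at this
      exact absurd hp (not_lt.2 this)
    · have hζ' : ζ ∈ ann 1 R := ⟨h, hζ.2⟩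
      have h3 : ψ ζ = f [] z₀ := pc_injective w h0'
      rw [hψ1 ζ hζ'] at h3
      rcases w with _ | ⟨i, w⟩
      · have h4 : e j ζ = z₀ := T.pic.inj (F.collar_mem j hζ') (F.far hz₀) h3
        have h5 := F.collar_sub j (mem_image_of_mem _ hζ')
        rw [h4, mem_ball_zero_iff] at h5
        linarith
      · have := hLn i _ (T.sub i w hw (mem_image_of_mem _ (F.collar_mem j hζ')))
        rw [h3] at this
        exact absurd hp (not_lt.2 this)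
  have hHd : DifferentiableOn ℂ (fun ζ => (pc w (ψ' ζ) - pc w (ψ ζ)) * deriv (fun ζ => pc w (ψ ζ)) ζ /
      (pc w (ψ ζ) - q)) (ann R⁻¹ R) :=
    ((hψd'.sub hψd).mul (hψd.deriv (isOpen_ann _ _))).div (hψd.sub_const q) hne
  have hle : ρ⁻¹ ≤ ρ := (inv_le_one_of_one_le₀ h1.le).trans h1.le
  have hρi : R⁻¹ < ρ⁻¹ := inv_strictAnti₀ hρ0 h2
  have hsub : closedBall (0 : ℂ) ρ \ ball 0 ρ⁻¹ ⊆ ann R⁻¹ R := by
    rintro ζ ⟨ha, hb⟩
    rw [mem_closedBall_zero_iff] at ha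
    rw [mem_ball_zero_iff, not_lt] at hb
    exact ⟨by linarith, by linarith⟩
  rw [← Complex.circleIntegral_eq_of_differentiable_on_annulus_off_countable (inv_pos.2 hρ0) hle
    (f := fun ζ => (pc w (ψ' ζ) - pc w (ψ ζ)) * deriv (fun ζ => pc w (ψ ζ)) ζ / (pc w (ψ ζ) - q))
    countable_empty (hHd.continuousOn.mono hsub) (by
      rintro z ⟨⟨ha, hb⟩, -⟩
      have hz : z ∈ ann R⁻¹ R := hsub ⟨ball_subset_closedBall ha, fun h => hb (ball_subset_closedBall h)⟩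
      exact (hHd z hz).differentiableAt ((isOpen_ann _ _).mem_nhds hz))]
  apply circleIntegral.integral_congr hρ0.le
  intro ζ hζ
  have hζ' := sphere_sub_ann h1 h2 hζ
  have e1 : (fun ζ => pc w (ψ ζ)) =ᶠ[𝓝 ζ] fun ζ => pc w (f w (e j ζ)) := by
    filter_upwards [(isOpen_ann _ _).mem_nhds hζ'] with y hy
    rw [hψ1 y hy]
  simp only
  rw [e1.deriv_eq, hψ1 ζ hζ', hψ1' ζ hζ']

lemma far_tendsto {R : ℝ} : ∀ᶠ z in cobounded ℂ, R < ‖z‖ :=
  (tendsto_norm_cobounded_atTop (E := ℂ)).eventually_gt_atTop R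

lemma flux_sum (hQ : Spec.Q) (F : Fam P e R R₀) {W : Set (List (Fin n))}
    {f f' : List (Fin n) → ℂ → ℂ}
    (T : Tower P L e R W f) (T' : Tower P L' e R W f') {B : ℝ} (hB0 : 0 ≤ B)
    (hB : ∀ i, L i ⊆ closedBall 0 B) (hB' : ∀ i, L' i ⊆ closedBall 0 B) {p : ℂ} (hp : B < ‖p‖)
    {w : List (Fin n)} (hw : w ∈ W) (hne : w ≠ []) {ρ : ℝ} (h1 : 1 < ρ) (h2 : ρ < R) :
    ∑ j, flux (e j) ρ (Gf f f' p w) = 0 := by
  have hs : ∀ z ∈ (⋃ i, P i)ᶜ, ‖pc w (f w z)‖ ≤ B := by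
    intro z hz
    rw [norm_pc]
    obtain ⟨i, w', rfl⟩ := List.exists_cons_of_ne_nil hne
    simpa using hB i (T.sub i w' hw (mem_image_of_mem _ hz))
  have hs' : ∀ z ∈ (⋃ i, P i)ᶜ, ‖pc w (f' w z)‖ ≤ B := by
    intro z hz
    rw [norm_pc]
    obtain ⟨i, w', rfl⟩ := List.exists_cons_of_ne_nil hne
    simpa using hB' i (T'.sub i w' hw (mem_image_of_mem _ hz))
  have hden : ∀ z ∈ (⋃ i, P i)ᶜ, ‖p‖ - B ≤ ‖pc w (f w z) - pc w p‖ := by
    intro z hz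
    have a1 : ‖pc w p‖ - ‖pc w (f w z)‖ ≤ ‖pc w (f w z) - pc w p‖ := by
      rw [norm_sub_rev]; exact norm_sub_norm_le _ _
    rw [norm_pc w p] at a1
    have := hs z hz
    linarith
  have hpB : 0 < ‖p‖ - B := by linarith
  have hne' : ∀ z ∈ (⋃ i, P i)ᶜ, pc w (f w z) - pc w p ≠ 0 := by
    intro z hz h
    have := hden z hz
    rw [h, norm_zero] at this
    linarith
  have hd : DifferentiableOn ℂ (Gf f f' p w) (⋃ i, P i)ᶜ :=
    (((T'.diff w hw).sub (T.diff w hw)).mul ((T.diff w hw).deriv F.isOpen)).div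
      ((T.diff w hw).sub_const _) hne'
  have hlim : Tendsto (fun z => z * Gf f f' p w z) (cobounded ℂ) (𝓝 0) := by
    set R₂ := max R₀ 1
    have hR₂ : 0 < R₂ := lt_of_lt_of_le one_pos (le_max_right _ _)
    have hfar : {z : ℂ | R₂ < ‖z‖} ⊆ (⋃ i, P i)ᶜ := fun z hz =>
      F.far ((le_max_left _ _).trans (le_of_lt hz))
    have h3 := tendsto_mul_deriv hR₂ ((T.diff w hw).mono hfar) (fun z hz => hs z (hfar hz))
    have h4 : Tendsto (fun z => (2 * B / (‖p‖ - B)) * ‖z * deriv (fun z => pc w (f w z)) z‖)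
        (cobounded ℂ) (𝓝 0) := by
      have := (h3.norm).const_mul (2 * B / (‖p‖ - B))
      simpa using this
    refine squeeze_zero_norm' ?_ h4
    filter_upwards [far_tendsto (R := R₂)] with z hz
    have hz' := hfar hz
    have a1 : ‖pc w (f' w z) - pc w (f w z)‖ ≤ 2 * B := by
      refine (norm_sub_le _ _).trans ?_
      have := hs z hz'; have := hs' z hz'; linarith
    have a2 := hden z hz'
    rw [Gf]
    have e1 : z * ((pc w (f' w z) - pc w (f w z)) * deriv (fun z => pc w (f w z)) z /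
        (pc w (f w z) - pc w p)) = ((pc w (f' w z) - pc w (f w z)) / (pc w (f w z) - pc w p)) *
        (z * deriv (fun z => pc w (f w z)) z) := by ring
    rw [e1, norm_mul, norm_div]
    apply mul_le_mul_of_nonneg_right _ (norm_nonneg _)
    exact div_le_div₀ (by positivity) a1 hpB a2
  have := hQ F hd hlim h1 h2
  rw [this, mul_zero]

end Vale.Agent.P116.FK
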