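import Vale.Agent.P116.FK.Z2

open Set Metric Filter Topology Complex Bornology MeasureTheory
open scoped ComplexConjugate Real

namespace Vale.Agent.P116.FK

/-! ### Rigidity: the base copy -/

variable {n : ℕ} {P L L' : Fin n → Set ℂ} {e : Fin n → ℂ → ℂ} {R R₀ : ℝ}

/-- `f' → 1` at infinity if `f z - z → 0` -/
lemma tendsto_deriv_one {R : ℝ} (hR : 0 < R) {f : ℂ → ℂ} (hf : DifferentiableOn ℂ f {z | R < ‖z‖})
    (h0 : Tendsto (fun z => f z - z) (cobounded ℂ) (𝓝 0)) :
    Tendsto (deriv f) (cobounded ℂ) (𝓝 1) := by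
  have hb : ∀ᶠ z in cobounded ℂ, ‖f z - z‖ < 1 := by
    have := h0.norm
    rw [norm_zero] at this
    exact this.eventually_lt_const one_pos
  obtain ⟨R₁, hR₁, h1⟩ : ∃ R₁ : ℝ, R ≤ R₁ ∧ ∀ z : ℂ, R₁ < ‖z‖ → ‖f z - z‖ ≤ 1 := by
    rw [← comap_norm_atTop, eventually_comap, ] at hb
    obtain ⟨a, ha⟩ := (eventually_atTop.1 hb)
    exact ⟨max R a, le_max_left _ _, fun z hz => (ha ‖z‖ ((le_max_right R a).trans hz.le) z rfl).le⟩
  have hR₁' : 0 < R₁ := hR.trans_le hR₁
  have hd : DifferentiableOn ℂ (fun z => f z - z) {z : ℂ | R₁ < ‖z‖} := by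
    apply DifferentiableOn.sub
    · exact hf.mono fun z hz => lt_of_le_of_lt hR₁ hz
    · exact differentiableOn_id
  have h2 := tendsto_mul_deriv hR₁' hd h1
  have h3 : Tendsto (fun z : ℂ => z⁻¹ * (z * deriv (fun z => f z - z) z)) (cobounded ℂ) (𝓝 (0 * 0)) :=
    tendsto_inv₀_cobounded.mul h2
  have h4 : Tendsto (fun z : ℂ => z⁻¹ * (z * deriv (fun z => f z - z) z) + 1) (cobounded ℂ) (𝓝 1) := by
    simpa using h3.add_const 1
  refine h4.congr' ?_
  filter_upwards [far_tendsto (R := R₁)] with z hz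
  have hz0 : z ≠ 0 := norm_pos_iff.1 (hR₁'.trans hz)
  have hfd : DifferentiableAt ℂ f z := by
    have : z ∈ {z : ℂ | R < ‖z‖} := lt_of_le_of_lt hR₁ hz
    exact (hf z this).differentiableAt ((isOpen_lt continuous_const continuous_norm).mem_nhds this)
  have e1 : deriv (fun z => f z - z) z = deriv f z - 1 := by
    rw [deriv_fun_sub hfd differentiableAt_fun_id]
    simp
  rw [e1]
  field_simp
  ring

lemma flux_nil (hQ : Spec.Q) (F : Fam P e R R₀) {W : Set (List (Fin n))}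
    {f f' : List (Fin n) → ℂ → ℂ}
    (T : Tower P L e R W f) (T' : Tower P L' e R W f') (hW : [] ∈ W)
    {z₀ : ℂ} (hz₀ : R₀ ≤ ‖z₀‖) {ρ : ℝ} (h1 : 1 < ρ) (h2 : ρ < R) :
    ∑ j, flux (e j) ρ (Gf f f' (f [] z₀) []) = -(2 * π * I * (f' [] z₀ - f [] z₀)) := by
  set Ω := (⋃ i, P i)ᶜ with hΩ
  have hΩo : IsOpen Ω := F.isOpen
  have hz₀Ω : z₀ ∈ Ω := F.far hz₀
  set D := f' [] z₀ - f [] z₀ with hD
  have hfd := T.pic.diff
  have hfd' := T'.pic.diff
  set R₂ := max R₀ 1
  have hR₂ : 0 < R₂ := lt_of_lt_of_le one_pos (le_max_right _ _)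
  have hfar : {z : ℂ | R₂ < ‖z‖} ⊆ Ω := fun z hz =>
    F.far ((le_max_left _ _).trans (le_of_lt hz))
  have hGf : ∀ z, Gf f f' (f [] z₀) [] z = (f' [] z - f [] z) * deriv (f []) z / (f [] z - f [] z₀) := by
    intro z
    simp only [Gf, pc_nil]
  -- dslope
  have hds : DifferentiableOn ℂ (dslope (f []) z₀) Ω :=
    (Complex.differentiableOn_dslope (hΩo.mem_nhds hz₀Ω)).2 hfd
  have hdsne : ∀ z ∈ Ω, dslope (f []) z₀ z ≠ 0 := by
    intro z hz
    by_cases h : z = z₀
    · subst h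
      rw [dslope_same]
      exact injOn_deriv_ne_zero hΩo hfd T.pic.inj hz₀Ω
    · rw [dslope_of_ne _ h, slope_def_field]
      exact div_ne_zero (fun h3 => h (T.pic.inj hz hz₀Ω (sub_eq_zero.1 h3))) (sub_ne_zero.2 h)
  set N : ℂ → ℂ := fun z => (f' [] z - f [] z) * deriv (f []) z / dslope (f []) z₀ z with hN
  have hNd : DifferentiableOn ℂ N Ω := ((hfd'.sub hfd).mul (hfd.deriv hΩo)).div hds hdsne
  have hN0 : N z₀ = D := by
    simp only [hN, dslope_same]
    rw [mul_div_cancel_right₀]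
    exact injOn_deriv_ne_zero hΩo hfd T.pic.inj hz₀Ω
  set G : ℂ → ℂ := dslope N z₀ with hG
  have hGd : DifferentiableOn ℂ G Ω := (Complex.differentiableOn_dslope (hΩo.mem_nhds hz₀Ω)).2 hNd
  have hGeq : ∀ z, z ≠ z₀ → G z = Gf f f' (f [] z₀) [] z - D / (z - z₀) := by
    intro z hz
    have hz' : z - z₀ ≠ 0 := sub_ne_zero.2 hz
    rw [hG, dslope_of_ne _ hz, slope_def_field, hN0, hGf]
    simp only [hN]
    rw [dslope_of_ne _ hz, slope_def_field]
    by_cases hfz : f [] z - f [] z₀ = 0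
    · rw [hfz]; simp
      ring
    · field_simp
  -- limit at infinity
  have hlim1 : Tendsto (fun z => z * Gf f f' (f [] z₀) [] z) (cobounded ℂ) (𝓝 0) := by
    have a1 : Tendsto (fun z => f' [] z - f [] z) (cobounded ℂ) (𝓝 0) := by
      have := T'.pic.norm.sub T.pic.norm
      simpa using this
    have a2 := tendsto_deriv_one hR₂ (hfd.mono hfar) T.pic.norm
    have hinv : Tendsto (fun z : ℂ => z⁻¹) (cobounded ℂ) (𝓝 0) := tendsto_inv₀_cobounded
    have a3 : Tendsto (fun z => (f [] z - z) * z⁻¹ + 1 - f [] z₀ * z⁻¹) (cobounded ℂ) (𝓝 1) := by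
      have := ((T.pic.norm.mul hinv).add_const 1).sub (hinv.const_mul (f [] z₀))
      simpa using this
    have a4 := (a1.mul a2).div a3 one_ne_zero
    simp only [zero_mul, zero_div] at a4
    refine a4.congr' ?_
    filter_upwards [far_tendsto (R := R₂)] with z hz
    have hz0 : z ≠ 0 := norm_pos_iff.1 (hR₂.trans hz)
    rw [hGf]
    have e1 : (f [] z - z) * z⁻¹ + 1 - f [] z₀ * z⁻¹ = (f [] z - f [] z₀) / z := by
      field_simp
      ring
    simp only [Pi.div_apply]
    rw [e1, div_div_eq_mul_div]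
    ring
  have hlim2 : Tendsto (fun z : ℂ => z * (D / (z - z₀))) (cobounded ℂ) (𝓝 D) := by
    have hinv : Tendsto (fun z : ℂ => z⁻¹) (cobounded ℂ) (𝓝 0) := tendsto_inv₀_cobounded
    have a3 : Tendsto (fun z : ℂ => 1 - z₀ * z⁻¹) (cobounded ℂ) (𝓝 1) := by
      have := (hinv.const_mul z₀).const_sub 1
      simpa using this
    have a4 : Tendsto (fun z : ℂ => D / (1 - z₀ * z⁻¹)) (cobounded ℂ) (𝓝 (D / 1)) :=
      (tendsto_const_nhds (x := D)).div a3 one_ne_zero
    rw [div_one] at a4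
    refine a4.congr' ?_
    filter_upwards [far_tendsto (R := R₂), far_tendsto (R := ‖z₀‖)] with z hz hz'
    have hz0 : z ≠ 0 := norm_pos_iff.1 (hR₂.trans hz)
    have hzz : z - z₀ ≠ 0 := by
      intro h
      rw [sub_eq_zero.1 h] at hz'
      exact lt_irrefl _ hz'
    have e1 : 1 - z₀ * z⁻¹ = (z - z₀) / z := by
      field_simp
    rw [e1, div_div_eq_mul_div]
    ring
  have hlimG : Tendsto (fun z => z * G z) (cobounded ℂ) (𝓝 (-D)) := by
    have := hlim1.sub hlim2
    rw [zero_sub] at this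
    refine this.congr' ?_
    filter_upwards [far_tendsto (R := ‖z₀‖)] with z hz'
    have hzz : z ≠ z₀ := by
      rintro rfl
      exact lt_irrefl _ hz'
    rw [hGeq z hzz]
    ring
  have hstokes := hQ F hGd hlimG h1 h2
  have hρ0 : 0 < ρ := by linarith
  have hfl : ∀ j, flux (e j) ρ G = flux (e j) ρ (Gf f f' (f [] z₀) []) := by
    intro j
    have hen : ∀ ζ ∈ ann 1 R, ‖e j ζ‖ < ‖z₀‖ := fun ζ hζ => by
      have := F.collar_sub j (mem_image_of_mem _ hζ)
      rw [mem_ball_zero_iff] at this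
      linarith
    have hsub : sphere (0 : ℂ) ρ ⊆ ann 1 R := sphere_sub_ann h1 h2
    have hed : DifferentiableOn ℂ (e j) (ann 1 R) := (F.diff j).mono ann_sub
    have hz := circle_log_zero hρ0 (isOpen_ann 1 R) hsub hed (q := z₀) (fun ζ hζ => hen ζ (hsub hζ))
    have hne : ∀ ζ ∈ sphere (0 : ℂ) ρ, e j ζ ≠ z₀ := by
      intro ζ hζ h
      have := hen ζ (hsub hζ)
      rw [h] at this
      exact lt_irrefl _ this
    have hcont1 : ContinuousOn (fun ζ => G (e j ζ) * deriv (e j) ζ) (sphere 0 ρ) := by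
      apply ContinuousOn.mul
      · exact hGd.continuousOn.comp (hed.continuousOn.mono hsub) (fun ζ hζ => F.collar_mem j (hsub hζ))
      · exact (hed.deriv (isOpen_ann 1 R)).continuousOn.mono hsub
    have hcont2 : ContinuousOn (fun ζ => D * (deriv (e j) ζ / (e j ζ - z₀))) (sphere 0 ρ) := by
      apply continuousOn_const.mul
      apply ContinuousOn.div
      · exact (hed.deriv (isOpen_ann 1 R)).continuousOn.mono hsub
      · exact (hed.continuousOn.mono hsub).sub continuousOn_const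
      · exact fun ζ hζ => sub_ne_zero.2 (hne ζ hζ)
    have hadd := circleIntegral.integral_add (hcont1.circleIntegrable hρ0.le)
      (hcont2.circleIntegrable hρ0.le)
    rw [circleIntegral.integral_const_mul, hz, mul_zero, add_zero] at hadd
    unfold flux
    rw [← hadd]
    apply circleIntegral.integral_congr hρ0.le
    intro ζ hζ
    simp only
    rw [hGeq _ (hne ζ hζ)]
    ring
  rw [Finset.sum_congr rfl fun j _ => hfl j] at hstokes
  rw [hstokes]
  ring

end Vale.Agent.P116.FK
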